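import Vale.Agent.P159.H612.Local3
import Vale.Agent.P159.H37.Spec0L
import Vale.Agent.P159.H789.Tor
import Vale.Agent.P159.TM.H41.Ker
import Vale.Agent.P159.TM.H352.Aexp

/-!
P159 / second order flow, module LOCAL (helper612), part (LB4): the torus. Exponential clustering in
EVERY background of the massive model, with the price `exp (T(J) / 2)`.
-/

namespace Vale.Agent.P159.H612

open Real Finset Filter Topology
open Vale.Agent.P159.TM.H104
open Vale.Agent.P159.H37 (Ev Zs Cm Gm qf bf Rs Tq K4 Ker PK wM wt re)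
open Vale.Agent.P159.T1.H897 (Hol)
open Vale.Agent.P159.TM.SpecC (Tor wT ms)
open Vale.Agent.P159.TM.H459 (sn sd)


variable {N : ℕ} [NeZero N] {b t : ℝ}

/-- the torus weight as a `bw` -/
theorem wt_eq_bw (N : ℕ) [NeZero N] (b t : ℝ) :
    wt N b t = bw (wT b N) fun _ => t := by
  funext h
  unfold wt wM bw TM.H870.gr
  rw [H37.qf_smul_one]
  congr 2
  rw [mul_div_assoc, Finset.sum_div, Finset.mul_sum]
  congr 1
  refine Finset.sum_congr rfl fun x _ => ?_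
  simp [re]
  ring

theorem hol_wt (hb : 0 ≤ b) (t : ℝ) : Hol (wt N b t) (wt N b t) := by
  intro x y
  have h1 := TM.H41.sup_wT (N := N) hb x y
  rw [wt_eq_bw]
  unfold bw TM.H870.gr
  have h2 : ∑ z, t / 2 * ((x z : ℝ) - (0 : Tor N → ℝ) z) ^ 2 +
      ∑ z, t / 2 * ((y z : ℝ) - (0 : Tor N → ℝ) z) ^ 2 =
      ∑ z, t / 2 * (((x ⊓ y) z : ℝ) - (0 : Tor N → ℝ) z) ^ 2 +
      ∑ z, t / 2 * (((x ⊔ y) z : ℝ) - (0 : Tor N → ℝ) z) ^ 2 := by
    rw [← Finset.sum_add_distrib, ← Finset.sum_add_distrib]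
    refine Finset.sum_congr rfl fun z _ => ?_
    simp only [Pi.inf_apply, Pi.sup_apply]
    rcases le_total (x z) (y z) with h | h
    · rw [min_eq_left h, max_eq_right h]
    · rw [min_eq_right h, max_eq_left h]
      ring
  calc wT b N x * Real.exp (-∑ z, t / 2 * ((x z : ℝ) - (0 : Tor N → ℝ) z) ^ 2) *
        (wT b N y * Real.exp (-∑ z, t / 2 * ((y z : ℝ) - (0 : Tor N → ℝ) z) ^ 2))
      = wT b N x * wT b N y * Real.exp (-(∑ z, t / 2 * ((x z : ℝ) - (0 : Tor N → ℝ) z) ^ 2 +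
        ∑ z, t / 2 * ((y z : ℝ) - (0 : Tor N → ℝ) z) ^ 2)) := by
        rw [neg_add, Real.exp_add]
        ring
    _ ≤ wT b N (x ⊓ y) * wT b N (x ⊔ y) *
        Real.exp (-(∑ z, t / 2 * ((x z : ℝ) - (0 : Tor N → ℝ) z) ^ 2 +
        ∑ z, t / 2 * ((y z : ℝ) - (0 : Tor N → ℝ) z) ^ 2)) :=
        mul_le_mul_of_nonneg_right h1 (Real.exp_pos _).le
    _ = _ := by
        rw [h2, neg_add, Real.exp_add]
        ring

theorem subG_wt (hb : 0 ≤ b) (ht : 0 < t) : SubG (wt N b t) t := by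
  intro J
  have hm : ∀ x : Tor N, 0 < (fun _ : Tor N => t) x := fun _ => ht
  have hμ : EM (bw (wT b N) fun _ => t) := by
    rw [← wt_eq_bw]
    exact H789.em_wt hb ht
  have hw0 : ∀ h, 0 ≤ wT b N h := fun h => H789.wT_nonneg hb N h
  have hwb : ∀ h, wT b N h ≤ wT b N 0 := H789.wT_le hb
  have hp : ∃ h, 0 < wT b N h := ⟨0, H789.wT_zero_pos hb⟩
  have h1 := TM.H41.U_nonneg_wT hb hm (fun x => J x / t)
  have e0 : TM.H871.U (wT b N) (fun _ => t) (fun x => J x / t) =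
      TM.H104.U (wT b N) (fun _ => t) (fun x => J x / t) := rfl
  rw [e0, U_eq hm hw0 hwb hp] at h1
  have e1 : mf (fun _ : Tor N => t) (fun x => J x / t) = J := by
    funext x
    unfold mf
    field_simp
  have e2 : me (fun _ : Tor N => t) (fun x => J x / t) = (∑ x, J x ^ 2) / (2 * t) := by
    unfold me
    rw [Finset.sum_div]
    refine Finset.sum_congr rfl fun x _ => ?_
    field_simp
  rw [e1, e2] at h1
  rw [wt_eq_bw]
  have h2 : Ex (bw (wT b N) fun _ => t) 0 (fun h => Real.exp (li J h)) =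
      Real.exp (Lg (bw (wT b N) fun _ => t) J - Lg (bw (wT b N) fun _ => t) 0) := by
    unfold Lg Ex
    rw [Real.exp_sub, Real.exp_log (T_one_pos hμ J), Real.exp_log (T_one_pos hμ 0)]
    congr 1
    unfold TM.H104.T
    refine tsum_congr fun h => ?_
    rw [li_zero, Real.exp_zero]
    ring
  rw [h2]
  exact Real.exp_le_exp.2 (by linarith)

/-- the kernel `GT` of the specification -/
theorem Gm_wt (b : ℝ) (ξ : ℕ) (x z : Tor N) :
    Gm (wt N b (1 / (ξ : ℝ) ^ 2)) x z = TM.Spec.GT N b ξ (z - x) := by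
  have h1 := TM.H41.Cf_G (N := N) b ξ x z
  have h2 : Gm (wt N b (1 / (ξ : ℝ) ^ 2)) x z =
      Cf (wT b N) (ms (ξ : ℝ)) 0 (co x) (co z) := by
    unfold Gm Cm
    rw [Matrix.of_apply, Cf_eq, mf_zero, wt_eq_bw]
    rfl
  rw [h2, h1]
  rfl

theorem GT_nonneg (hb : 0 ≤ b) {ξ : ℕ} (hξ : 0 < ξ) (w : Tor N) : 0 ≤ TM.Spec.GT N b ξ w :=
  TM.H41.G_nonneg hb (by exact_mod_cast hξ) w

/-- Cauchy-Schwarz for a convolution -/
theorem conv_le (g : Tor N → ℝ) (hg : ∀ w, 0 ≤ g w) (u v : Tor N → ℝ) :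
    ∑ x, ∑ z, |u x| * g (z - x) * |v z| ≤
      (∑ w, g w) * (√(∑ x, u x ^ 2) * √(∑ x, v x ^ 2)) := by
  have e1 : ∑ x, ∑ z, |u x| * g (z - x) * |v z| = ∑ w, g w * ∑ x, |u x| * |v (x + w)| := by
    have e2 : ∀ x, ∑ z, |u x| * g (z - x) * |v z| = ∑ w, |u x| * g w * |v (x + w)| := by
      intro x
      rw [← Equiv.sum_comp (Equiv.addLeft x)]
      refine Finset.sum_congr rfl fun w _ => ?_
      simp only [Equiv.coe_addLeft, add_sub_cancel_left]
    simp only [e2]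
    rw [Finset.sum_comm]
    refine Finset.sum_congr rfl fun w _ => ?_
    rw [Finset.mul_sum]
    exact Finset.sum_congr rfl fun x _ => by ring
  rw [e1, Finset.sum_mul]
  refine Finset.sum_le_sum fun w _ => mul_le_mul_of_nonneg_left ?_ (hg w)
  have h1 := Finset.sum_mul_sq_le_sq_mul_sq Finset.univ (fun x => |u x|) (fun x => |v (x + w)|)
  have e3 : ∑ x, |v (x + w)| ^ 2 = ∑ x, v x ^ 2 := by
    rw [← Equiv.sum_comp (Equiv.addRight w) (fun x => v x ^ 2)]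
    refine Finset.sum_congr rfl fun x _ => ?_
    rw [sq_abs]
    rfl
  have e4 : ∑ x, |u x| ^ 2 = ∑ x, u x ^ 2 := Finset.sum_congr rfl fun x _ => sq_abs _
  rw [e3, e4] at h1
  rw [← Real.sqrt_mul (Finset.sum_nonneg fun x _ => sq_nonneg _)]
  exact Real.le_sqrt_of_sq_le h1

theorem Tq_nonneg {V : Type*} [Fintype V] {μ : (V → ℤ) → ℝ} (hμ : EM μ) (hev : Ev μ)
    (hpk : PK μ) (J : V → ℝ) : 0 ≤ Tq μ J := by
  have key : ∀ c : ℝ, 0 ≤ Ker μ J J * (c * c) + 2 * Ker μ J 0 * c + Ker μ 0 0 := by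
    intro c
    have h := hpk 2 ![J, 0] ![c, 1]
    simp only [Fin.sum_univ_two, Matrix.cons_val_zero, Matrix.cons_val_one] at h
    rw [Ker_comm hev 0 J] at h
    linarith
  have h := discrim_le_zero key
  unfold discrim at h
  have hJ := T_one_pos hμ J
  have h0 := T_one_pos hμ (0 : V → ℝ)
  have h2 := T_one_pos hμ ((2 : ℝ) • J)
  have e1 : Ker μ J J = Zs μ ((2 : ℝ) • J) * Zs μ 0 := by
    unfold Ker
    rw [sub_self, two_smul]
  have e2 : Ker μ J 0 = Zs μ J ^ 2 := by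
    unfold Ker
    rw [add_zero, sub_zero, pow_two]
  have e3 : Ker μ 0 0 = Zs μ 0 ^ 2 := by
    unfold Ker
    rw [add_zero, sub_zero, pow_two]
  rw [e1, e2, e3] at h
  have h3 : (Zs μ J) ^ 4 ≤ Zs μ ((2 : ℝ) • J) * Zs μ 0 ^ 3 := by nlinarith
  have hJ' : 0 < Zs μ J := hJ
  have h0' : 0 < Zs μ 0 := h0
  have h2' : 0 < Zs μ ((2 : ℝ) • J) := h2
  have h4 := Real.log_le_log (by positivity) h3
  rw [Real.log_pow, Real.log_mul h2'.ne' (by positivity), Real.log_pow] at h4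
  unfold Tq Lg
  have f1 : Real.log (TM.H104.T μ ((2 : ℝ) • J) fun _ => 1) = Real.log (Zs μ ((2 : ℝ) • J)) := rfl
  have f2 : Real.log (TM.H104.T μ J fun _ => 1) = Real.log (Zs μ J) := rfl
  have f3 : Real.log (TM.H104.T μ 0 fun _ => 1) = Real.log (Zs μ 0) := rfl
  rw [f1, f2, f3]
  push_cast at h4
  linarith

/-- covariance of `X_|u|`, `X_|v|` for distant supports -/
theorem S_le (hb : 0 ≤ b) {ξ : ℕ} (hξ : 0 < ξ) {c C A B D : ℝ} (hc : 0 < c)
    (hsum : ∑ w : Tor N, TM.Spec.GT N b ξ w * Real.exp (c * sn w / ξ) ≤ C * (ξ : ℝ) ^ 2)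
    {u v : Tor N → ℝ} (hA : 0 < A) (hB : 0 < B) (hu : ∑ x, u x ^ 2 ≤ A ^ 2 * (1 / (ξ : ℝ) ^ 2))
    (hv : ∑ x, v x ^ 2 ≤ B ^ 2 * (1 / (ξ : ℝ) ^ 2))
    (hD : ∀ x z, u x ≠ 0 → v z ≠ 0 → D * ξ ≤ sd x z) :
    Cv (wt N b (1 / (ξ : ℝ) ^ 2)) 0 (li fun x => |u x|) (li fun x => |v x|) ≤
      A * B * (C * Real.exp (-(c * D))) := by
  classical
  have hξR : (0 : ℝ) < ξ := by exact_mod_cast hξ
  have hμ : EM (wt N b (1 / (ξ : ℝ) ^ 2)) := H789.em_wt hb (by positivity)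
  set g : Tor N → ℝ := fun w => if D * ξ ≤ sn w then TM.Spec.GT N b ξ w else 0 with hgdef
  have hg0 : ∀ w, 0 ≤ g w := by
    intro w
    simp only [hgdef]
    split_ifs
    · exact GT_nonneg hb hξ w
    · exact le_rfl
  have h1 : Cv (wt N b (1 / (ξ : ℝ) ^ 2)) 0 (li fun x => |u x|) (li fun x => |v x|) =
      ∑ x, ∑ z, |u x| * g (z - x) * |v z| := by
    rw [← bf_Gm hμ]
    unfold bf
    refine Finset.sum_congr rfl fun x _ => Finset.sum_congr rfl fun z _ => ?_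
    rw [Gm_wt]
    by_cases hx : u x = 0
    · simp only [hx, abs_zero, zero_mul]
    by_cases hz : v z = 0
    · simp only [hz, abs_zero, mul_zero]
    have h2 := hD x z hx hz
    have h2' : D * ξ ≤ (sn (z - x) : ℝ) := h2
    simp only [hgdef]
    rw [if_pos h2']
  have h3 : ∑ w, g w ≤ C * (ξ : ℝ) ^ 2 * Real.exp (-(c * D)) := by
    have h4 : ∀ w, g w ≤ TM.Spec.GT N b ξ w * Real.exp (c * sn w / ξ) * Real.exp (-(c * D)) := by
      intro w
      simp only [hgdef]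
      split_ifs with h
      · rw [mul_assoc, ← Real.exp_add]
        refine le_mul_of_one_le_right (GT_nonneg hb hξ w) (Real.one_le_exp ?_)
        have : c * D ≤ c * sn w / ξ := by
          rw [mul_div_assoc]
          exact mul_le_mul_of_nonneg_left ((le_div_iff₀ hξR).2 h) hc.le
        linarith
      · exact mul_nonneg (mul_nonneg (GT_nonneg hb hξ w) (Real.exp_pos _).le) (Real.exp_pos _).le
    refine (Finset.sum_le_sum fun w _ => h4 w).trans ?_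
    rw [← Finset.sum_mul]
    exact mul_le_mul_of_nonneg_right hsum (Real.exp_pos _).le
  have hu' : √(∑ x, u x ^ 2) ≤ A / ξ := by
    refine Real.sqrt_le_iff.2 ⟨by positivity, hu.trans (le_of_eq ?_)⟩
    rw [div_pow]
    ring
  have hv' : √(∑ x, v x ^ 2) ≤ B / ξ := by
    refine Real.sqrt_le_iff.2 ⟨by positivity, hv.trans (le_of_eq ?_)⟩
    rw [div_pow]
    ring
  rw [h1]
  refine (conv_le g hg0 u v).trans ?_
  have h5 : (∑ w, g w) * (√(∑ x, u x ^ 2) * √(∑ x, v x ^ 2)) ≤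
      (C * (ξ : ℝ) ^ 2 * Real.exp (-(c * D))) * ((A / ξ) * (B / ξ)) := by
    have h6 : 0 ≤ ∑ w, g w := Finset.sum_nonneg fun w _ => hg0 w
    exact mul_le_mul h3 (mul_le_mul hu' hv' (Real.sqrt_nonneg _) (by positivity))
      (by positivity) (h6.trans h3)
  refine h5.trans (le_of_eq ?_)
  field_simp

/-- homogeneous form of (LB3) -/
theorem lb3_hom {V : Type*} [Fintype V] {μ : (V → ℤ) → ℝ} (hμ : EM μ) (hol : Hol μ μ) {t : ℝ}
    (ht : 0 < t) (hS : SubG μ t) {u v : V → ℝ} {A B S : ℝ} (hA : 0 < A) (hB : 0 < B)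
    (hu : ∑ x, u x ^ 2 ≤ A ^ 2 * t) (hv : ∑ x, v x ^ 2 ≤ B ^ 2 * t) (hS0 : 0 ≤ S)
    (hC : Cv μ 0 (li fun x => |u x|) (li fun x => |v x|) ≤ A * B * S) :
    |Cv μ 0 (fun h => li u h ^ 2) (fun h => li v h ^ 2)| ≤ 2100 * A ^ 2 * B ^ 2 * √S := by
  have hu' : ∑ x, (A⁻¹ • u) x ^ 2 ≤ t := by
    have e : ∑ x, (A⁻¹ • u) x ^ 2 = (A ^ 2)⁻¹ * ∑ x, u x ^ 2 := by
      rw [Finset.mul_sum]
      refine Finset.sum_congr rfl fun x _ => ?_
      rw [Pi.smul_apply, smul_eq_mul, mul_pow, inv_pow]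
    rw [e, inv_mul_le_iff₀ (by positivity)]
    exact hu
  have hv' : ∑ x, (B⁻¹ • v) x ^ 2 ≤ t := by
    have e : ∑ x, (B⁻¹ • v) x ^ 2 = (B ^ 2)⁻¹ * ∑ x, v x ^ 2 := by
      rw [Finset.mul_sum]
      refine Finset.sum_congr rfl fun x _ => ?_
      rw [Pi.smul_apply, smul_eq_mul, mul_pow, inv_pow]
    rw [e, inv_mul_le_iff₀ (by positivity)]
    exact hv
  have hC' : Cv μ 0 (li fun x => |(A⁻¹ • u) x|) (li fun x => |(B⁻¹ • v) x|) ≤ S := by
    have e : ∀ (c : ℝ) (w : V → ℝ), 0 ≤ c →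
        (fun x => |(c • w) x|) = c • fun x => |w x| := by
      intro c w hc
      funext x
      simp only [Pi.smul_apply, smul_eq_mul]
      rw [abs_mul, abs_of_nonneg hc]
    rw [e _ _ (inv_pos.2 hA).le, e _ _ (inv_pos.2 hB).le, Cv_smul_smul]
    calc A⁻¹ * B⁻¹ * Cv μ 0 (li fun x => |u x|) (li fun x => |v x|)
        ≤ A⁻¹ * B⁻¹ * (A * B * S) := mul_le_mul_of_nonneg_left hC (by positivity)
      _ = S := by field_simp
  have h1 := lb3 hμ hol ht hS hu' hv' hS0 hC'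
  have e : ∀ (c : ℝ) (w : V → ℝ), (fun h : V → ℤ => li (c • w) h ^ 2) =
      fun h => c ^ 2 * li w h ^ 2 := by
    intro c w
    funext h
    rw [li_smul, mul_pow]
  rw [e, e, Cv_cmul_left, Cv_comm, Cv_cmul_left, Cv_comm, ← mul_assoc, abs_mul,
    abs_of_pos (by positivity : 0 < A⁻¹ ^ 2 * B⁻¹ ^ 2)] at h1
  calc |Cv μ 0 (fun h => li u h ^ 2) (fun h => li v h ^ 2)|
      = (A ^ 2 * B ^ 2) *
        (A⁻¹ ^ 2 * B⁻¹ ^ 2 * |Cv μ 0 (fun h => li u h ^ 2) (fun h => li v h ^ 2)|) := by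
        field_simp
    _ ≤ (A ^ 2 * B ^ 2) * (2100 * √S) := mul_le_mul_of_nonneg_left h1 (by positivity)
    _ = _ := by ring

/-- the conclusions of (LB4) for one pair of test functions with distant supports -/
structure Far (μ : (Tor N → ℤ) → ℝ) (u v : Tor N → ℝ) (A B r : ℝ) : Prop where
  /-- absolute covariances at background `0` -/
  cov : Cv μ 0 (li fun x => |u x|) (li fun x => |v x|) ≤ A * B * r
  /-- energies at background `0` -/
  en : |Cv μ 0 (fun h => li u h ^ 2) (fun h => li v h ^ 2)| ≤ A ^ 2 * B ^ 2 * r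
  /-- covariance in every background -/
  bg : ∀ J : Tor N → ℝ, |Cv μ J (li u) (li v)| ≤ Real.exp (Tq μ J / 2) * A * B * r
  /-- mixed differences of `log Z` -/
  lg : ∀ (J0 : Tor N → ℝ) (τ : ℝ), (∀ p ∈ Set.Icc (0 : ℝ) 1, ∀ q ∈ Set.Icc (0 : ℝ) 1,
      Tq μ (J0 + p • u + q • v) ≤ τ) →
    |Lg μ (J0 + u + v) - Lg μ (J0 + u) - Lg μ (J0 + v) + Lg μ J0| ≤
      Real.exp (τ / 2) * A * B * r
  /-- mixed differences of `R` -/
  rs : ∀ (J0 : Tor N → ℝ) (τ : ℝ), (∀ p ∈ Set.Icc (0 : ℝ) 1, ∀ q ∈ Set.Icc (0 : ℝ) 1,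
      Tq μ (J0 + p • u + q • v) ≤ τ) →
    |(Rs μ (J0 + u + v) - Rs μ (J0 + u)) - (Rs μ (J0 + v) - Rs μ J0)| ≤
      Real.exp (τ / 2) * A * B * r

theorem far_of {μ : (Tor N → ℤ) → ℝ} (hμ : EM μ) (hev : Ev μ) (hpk : PK μ) (hol : Hol μ μ)
    {t : ℝ} (ht : 0 < t) (hS : SubG μ t) {u v : Tor N → ℝ} {A B c C D C' : ℝ} (hA : 0 < A)
    (hB : 0 < B) (hc : 0 < c) (hC : 0 < C) (hD : 0 ≤ D) (hu : ∑ x, u x ^ 2 ≤ A ^ 2 * t)
    (hv : ∑ x, v x ^ 2 ≤ B ^ 2 * t)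
    (hcov : Cv μ 0 (li fun x => |u x|) (li fun x => |v x|) ≤ A * B * (C * Real.exp (-(c * D))))
    (hC1 : 2100 * √C + 33 * √(√C) + C ≤ C') :
    Far μ u v A B (C' * Real.exp (-(c / 4 * D))) := by
  have s1 : 0 ≤ √C := Real.sqrt_nonneg _
  have s2 : 0 ≤ √(√C) := Real.sqrt_nonneg _
  have hS0 : 0 ≤ C * Real.exp (-(c * D)) := by positivity
  have hcD := mul_nonneg hc.le hD
  -- the three rates
  have r0 : Real.exp (-(c * D)) ≤ Real.exp (-(c / 4 * D)) :=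
    Real.exp_le_exp.2 (by linarith)
  have r1 : √(C * Real.exp (-(c * D))) ≤ √C * Real.exp (-(c / 4 * D)) := by
    rw [Real.sqrt_mul hC.le, sqrt_exp]
    exact mul_le_mul_of_nonneg_left (Real.exp_le_exp.2 (by linarith)) s1
  have r2 : √(√(C * Real.exp (-(c * D)))) = √(√C) * Real.exp (-(c / 4 * D)) := by
    rw [Real.sqrt_mul hC.le, sqrt_exp, Real.sqrt_mul s1, sqrt_exp]
    congr 2
    ring
  have hE := Real.exp_pos (-(c / 4 * D))
  have hAB : 0 < A * B := mul_pos hA hB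
  have q0 : C * Real.exp (-(c * D)) ≤ C * Real.exp (-(c / 4 * D)) :=
    mul_le_mul_of_nonneg_left r0 hC.le
  have q1 : C * Real.exp (-(c / 4 * D)) ≤ C' * Real.exp (-(c / 4 * D)) :=
    mul_le_mul_of_nonneg_right (by linarith) hE.le
  have q2 : 2100 * √C * Real.exp (-(c / 4 * D)) ≤ C' * Real.exp (-(c / 4 * D)) :=
    mul_le_mul_of_nonneg_right (by linarith) hE.le
  have q3 : (33 * √(√C) + C) * Real.exp (-(c / 4 * D)) ≤ C' * Real.exp (-(c / 4 * D)) :=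
    mul_le_mul_of_nonneg_right (by linarith) hE.le
  have q4 : 33 * √(√C) * Real.exp (-(c / 4 * D)) ≤ C' * Real.exp (-(c / 4 * D)) :=
    mul_le_mul_of_nonneg_right (by linarith) hE.le
  constructor
  · exact hcov.trans (mul_le_mul_of_nonneg_left (q0.trans q1) hAB.le)
  · refine (lb3_hom hμ hol ht hS hA hB hu hv hS0 hcov).trans ?_
    have h1 : 2100 * √(C * Real.exp (-(c * D))) ≤ C' * Real.exp (-(c / 4 * D)) := by
      refine (mul_le_mul_of_nonneg_left r1 (by norm_num)).trans ((le_of_eq ?_).trans q2)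
      ring
    have h2 : 0 ≤ A ^ 2 * B ^ 2 := by positivity
    refine (le_of_eq ?_).trans (mul_le_mul_of_nonneg_left h1 h2)
    ring
  · intro J
    refine (lb13 hμ hev hpk hol ht hS J hA hB hu hv hS0 hcov).trans ?_
    rw [r2]
    have h1 := mul_le_mul_of_nonneg_left q4
      (by positivity : 0 ≤ Real.exp (Tq μ J / 2) * A * B)
    refine (le_of_eq ?_).trans h1
    ring
  · intro J0 τ hτ
    refine (lb23 hμ hev hpk hol ht hS J0 hA hB hu hv hS0 hcov hτ).trans ?_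
    rw [r2]
    have h1 := mul_le_mul_of_nonneg_left q4 (by positivity : 0 ≤ Real.exp (τ / 2) * A * B)
    refine (le_of_eq ?_).trans h1
    ring
  · intro J0 τ hτ
    refine (Rs_local hμ hev hpk hol ht hS J0 hA hB hu hv hS0 hcov hτ).trans ?_
    rw [r2]
    have hτ0 : 0 ≤ τ := by
      have h1 := hτ 0 ⟨le_rfl, zero_le_one⟩ 0 ⟨le_rfl, zero_le_one⟩
      exact (Tq_nonneg hμ hev hpk _).trans h1
    have h2 : 1 ≤ Real.exp (τ / 2) := Real.one_le_exp (by linarith)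
    have h3 : A * B * (C * Real.exp (-(c * D))) ≤
        Real.exp (τ / 2) * (A * B * (C * Real.exp (-(c / 4 * D)))) := by
      have h4 : A * B * (C * Real.exp (-(c * D))) ≤ A * B * (C * Real.exp (-(c / 4 * D))) :=
        mul_le_mul_of_nonneg_left q0 hAB.le
      exact h4.trans (le_mul_of_one_le_left (by positivity) h2)
    have h1 := mul_le_mul_of_nonneg_left q3 (by positivity : 0 ≤ Real.exp (τ / 2) * A * B)
    refine le_trans ?_ h1
    have e1 : Real.exp (τ / 2) * A * B * ((33 * √(√C) + C) * Real.exp (-(c / 4 * D))) =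
        33 * Real.exp (τ / 2) * A * B * (√(√C) * Real.exp (-(c / 4 * D))) +
        Real.exp (τ / 2) * (A * B * (C * Real.exp (-(c / 4 * D)))) := by ring
    rw [e1]
    exact add_le_add le_rfl h3

/-- **(LB4)** clustering in every background, torus: test functions `u`, `v` with
`|u|² ≤ A² t`, `|v|² ≤ B² t`, `t = ξ⁻²`, at distance `D ξ` -/
theorem lb4 {b1 : ℝ} (hb1 : 0 < b1) (b2 a : ℝ) :
    ∃ W₀ : ℝ, ∃ c C ys : ℝ, ∃ X : ℕ, 0 < c ∧ 1 ≤ C ∧ 0 < ys ∧ 1 ≤ X ∧ ∀ W : ℝ, W₀ ≤ W →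
    ∀ (N : ℕ) [NeZero N] (b : ℝ) (ξ : ℕ) (y : ℝ),
      TM.Spec.Rng b1 b2 a W ys X N b ξ y → (N : ℝ) * y ≤ c * ξ →
      ∀ (u v : Tor N → ℝ) (A B D : ℝ), 0 < A → 0 < B → 0 ≤ D →
        ∑ x, u x ^ 2 ≤ A ^ 2 * (1 / (ξ : ℝ) ^ 2) → ∑ x, v x ^ 2 ≤ B ^ 2 * (1 / (ξ : ℝ) ^ 2) →
        (∀ x z, u x ≠ 0 → v z ≠ 0 → D * ξ ≤ sd x z) →
        Far (wt N b (1 / (ξ : ℝ) ^ 2)) u v A B (C * Real.exp (-(c * D))) := by
  obtain ⟨W₀, c, C, ys, X, hc, hC, hys, hX, h⟩ := TM.H352.thmAexp' hb1 b2 a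
  refine ⟨W₀, c / 4, max 1 (2100 * √C + 33 * √(√C) + C), ys, X, by positivity,
    le_max_left _ _, hys, hX, ?_⟩
  intro W hW N _ b ξ y hR hN u v A B D hA hB hD hu hv hsup
  have hb : 0 ≤ b := hb1.le.trans hR.hb1
  have hξ : 0 < ξ := by
    have := hR.hX
    omega
  have hξR : (0 : ℝ) < ξ := by exact_mod_cast hξ
  have hN' : (N : ℝ) * y ≤ c * ξ := by
    refine hN.trans ?_
    nlinarith
  have hsum := h W hW N b ξ y hR hN'
  have ht : (0 : ℝ) < 1 / (ξ : ℝ) ^ 2 := by positivity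
  have hcov := S_le hb hξ hc hsum hA hB hu hv hsup
  exact far_of (H789.em_wt hb ht) H789.ev_wt (H789.pk_wt hb ht) (hol_wt (N := N) hb _) ht
    (subG_wt (N := N) hb ht) hA hB hc hC hD hu hv hcov (le_max_right _ _)

end Vale.Agent.P159.H612
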