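import Vale.Agent.P159.H612.Local5
import Vale.Agent.P159.H145.Pair

/-!
P159 / second order flow, module LOCAL (helper612), part (LOC2): window localisation of the
second differences of the neutral functional `L0 = log Z⁰`, at the level of values.
-/

namespace Vale.Agent.P159.H612

open Real Finset Filter Topology
open Vale.Agent.P159.TM.H104
open Vale.Agent.P159.H37
open Vale.Agent.P159.H145 (LM L0 OscZ cs T0 pair_src)
open Vale.Agent.P159.T1.H897 (Hol)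
open Vale.Agent.P159.TM.SpecC (Tor wT ms)
open Vale.Agent.P159.TM.H459 (sn sd)

section gen

variable {V : Type*} [Fintype V] [DecidableEq V] {w : (V → ℤ) → ℝ} {M : Matrix V V ℝ}

/-- second difference of the neutral functional -/
noncomputable def D2 (w : (V → ℤ) → ℝ) (M : Matrix V V ℝ) (F g : V → ℝ) : ℝ :=
  L0 w M (F + g) + L0 w M (F - g) - 2 * L0 w M F

omit [Fintype V] [DecidableEq V] in
lemma cs_zero (F : V → ℝ) : cs F 0 = F := by
  funext x
  simp only [cs, add_zero]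

omit [Fintype V] [DecidableEq V] in
lemma cs_smul (F : V → ℝ) (c s : ℝ) : s • cs F c = cs (s • F) (s * c) := by
  funext x
  simp only [cs, Pi.smul_apply, smul_eq_mul]
  ring

omit [DecidableEq V] in
/-- the square in background letters -/
lemma mulVec_cs_add (F f g : V → ℝ) (c p q : ℝ) :
    M.mulVec (cs (F + p • f + q • g) c) =
      M.mulVec (cs F c) + p • M.mulVec f + q • M.mulVec g := by
  rw [H145.cs_add, H145.cs_add, Matrix.mulVec_add, Matrix.mulVec_add, Matrix.mulVec_smul,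
    Matrix.mulVec_smul]

end gen

section

variable {N : ℕ} [NeZero N] {w : (Tor N → ℤ) → ℝ} {M : Matrix (Tor N) (Tor N) ℝ}
  {F f g : Tor N → ℝ} {A B r ω τ : ℝ}

/-- mixed difference of the neutral functional for two far directions -/
theorem Far.mix0 (h : Far (wM w M) (M.mulVec f) (M.mulVec g) A B r) (hM : M.transpose = M)
    (hE : EM (wM w M)) (hO : OscZ w M ω) (hω : ω ≤ 1 / 2) (hb : bf M f g = 0)
    (hτ : ∀ c ∈ Set.Icc (0 : ℝ) 1, ∀ p ∈ Set.Icc (0 : ℝ) 1, ∀ q ∈ Set.Icc (0 : ℝ) 1,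
      Tq (wM w M) (M.mulVec (cs (F + p • f + q • g) c)) ≤ τ) :
    |L0 w M (F + f + g) - L0 w M (F + f) - L0 w M (F + g) + L0 w M F| ≤
      Real.exp (τ / 2) * A * B * r + 8 * ω ^ 2 := by
  refine pair_src hM hE hO hω F f g hb fun c hc => ?_
  refine h.lg (M.mulVec (cs F c)) τ fun p hp q hq => ?_
  rw [← mulVec_cs_add]
  exact hτ c hc p hp q hq

/-- **(LOC2), general form**: a far change `f` of the background changes the second difference of
the neutral functional by at most `2 e^(τ/2) A B r + 16 ω²` -/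
theorem Far.loc2 (h : Far (wM w M) (M.mulVec f) (M.mulVec g) A B r) (hM : M.transpose = M)
    (hE : EM (wM w M)) (hO : OscZ w M ω) (hω : ω ≤ 1 / 2) (hb : bf M f g = 0)
    (hτ : ∀ c ∈ Set.Icc (0 : ℝ) 1, ∀ p ∈ Set.Icc (0 : ℝ) 1, ∀ q ∈ Set.Icc (-1 : ℝ) 1,
      Tq (wM w M) (M.mulVec (cs (F + p • f + q • g) c)) ≤ τ) :
    |D2 w M (F + f) g - D2 w M F g| ≤ 2 * (Real.exp (τ / 2) * A * B * r) + 16 * ω ^ 2 := by
  have h1 := h.mix0 (F := F) hM hE hO hω hb (τ := τ) fun c hc p hp q hq =>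
    hτ c hc p hp q ⟨by linarith [hq.1], hq.2⟩
  have h2 := h.mix0 (F := F - g) hM hE hO hω hb (τ := τ) fun c hc p hp q hq => by
    have e : F - g + p • f + q • g = F + p • f + (q - 1) • g := by
      rw [sub_smul, one_smul]
      abel
    rw [e]
    exact hτ c hc p hp (q - 1) ⟨by linarith [hq.1], by linarith [hq.2]⟩
  have c1 : F - g + f + g = F + f := by abel
  have c2 : F - g + f = F + f - g := by abel
  have c3 : F - g + g = F := by abel
  rw [c1, c2, c3] at h2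
  have e : D2 w M (F + f) g - D2 w M F g =
      (L0 w M (F + f + g) - L0 w M (F + f) - L0 w M (F + g) + L0 w M F) -
      (L0 w M (F + f) - L0 w M (F + f - g) - L0 w M F + L0 w M (F - g)) := by
    unfold D2
    ring
  rw [e]
  refine (abs_sub _ _).trans ?_
  linarith

end

/-! ### the torus -/

section torus

variable {N : ℕ} [NeZero N] {b t : ℝ}

theorem mulVec_one_smul (t : ℝ) (f : Tor N → ℝ) :
    (t • (1 : Matrix (Tor N) (Tor N) ℝ)).mulVec f = t • f := by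
  rw [Matrix.smul_mulVec, Matrix.one_mulVec]

theorem bf_one_smul_zero (t : ℝ) {f g : Tor N → ℝ} (h : ∀ x, f x = 0 ∨ g x = 0) :
    bf (t • (1 : Matrix (Tor N) (Tor N) ℝ)) f g = 0 := by
  unfold bf
  refine Finset.sum_eq_zero fun x _ => Finset.sum_eq_zero fun y _ => ?_
  by_cases hxy : x = y
  · subst hxy
    rcases h x with h | h <;> rw [h] <;> ring
  · rw [Matrix.smul_apply, Matrix.one_apply_ne hxy, smul_zero]
    ring

/-- **(LOC2) on the torus**, hull hypothesis on `T` at the sources `t (F' + c)` -/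
theorem loc2 {b1 : ℝ} (hb1 : 0 < b1) (b2 a : ℝ) :
    ∃ W₀ : ℝ, ∃ c C ys : ℝ, ∃ X : ℕ, 0 < c ∧ 1 ≤ C ∧ 0 < ys ∧ 1 ≤ X ∧ ∀ W : ℝ, W₀ ≤ W →
    ∀ (N : ℕ) [NeZero N] (b : ℝ) (ξ : ℕ) (y : ℝ),
      TM.Spec.Rng b1 b2 a W ys X N b ξ y → (N : ℝ) * y ≤ c * ξ →
      ∀ (F f g : Tor N → ℝ) (A B D ω τ : ℝ), 0 < A → 0 < B → 0 < D →
        ∑ x, f x ^ 2 ≤ A ^ 2 * (ξ : ℝ) ^ 2 → ∑ x, g x ^ 2 ≤ B ^ 2 * (ξ : ℝ) ^ 2 →
        (∀ x z, f x ≠ 0 → g z ≠ 0 → D * ξ ≤ sd x z) →
        OscZ (wT b N) ((1 / (ξ : ℝ) ^ 2) • (1 : Matrix (Tor N) (Tor N) ℝ)) ω → ω ≤ 1 / 2 →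
        (∀ c ∈ Set.Icc (0 : ℝ) 1, ∀ p ∈ Set.Icc (0 : ℝ) 1, ∀ q ∈ Set.Icc (-1 : ℝ) 1,
          Tq (wt N b (1 / (ξ : ℝ) ^ 2))
            ((1 / (ξ : ℝ) ^ 2) • (cs (F + p • f + q • g) c)) ≤ τ) →
        |D2 (wT b N) ((1 / (ξ : ℝ) ^ 2) • 1) (F + f) g -
            D2 (wT b N) ((1 / (ξ : ℝ) ^ 2) • 1) F g| ≤
          2 * (Real.exp (τ / 2) * A * B * (C * Real.exp (-(c * D)))) + 16 * ω ^ 2 := by
  obtain ⟨W₀, c, C, ys, X, hc, hC, hys, hX, h⟩ := lb4 hb1 b2 a
  refine ⟨W₀, c, C, ys, X, hc, hC, hys, hX, ?_⟩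
  intro W hW N _ b ξ y hR hN F f g A B D ω τ hA hB hD hf hg hsup hO hω hτ
  have hb : 0 ≤ b := hb1.le.trans hR.hb1
  have hξ : 0 < ξ := by
    have := hR.hX
    omega
  have hξR : (0 : ℝ) < ξ := by exact_mod_cast hξ
  have ht : (0 : ℝ) < 1 / (ξ : ℝ) ^ 2 := by positivity
  set t : ℝ := 1 / (ξ : ℝ) ^ 2 with htd
  have htx : t * (ξ : ℝ) ^ 2 = 1 := by
    rw [htd]
    field_simp
  have sq : ∀ (f : Tor N → ℝ) (A : ℝ), ∑ x, f x ^ 2 ≤ A ^ 2 * (ξ : ℝ) ^ 2 →
      ∑ x, (t • f) x ^ 2 ≤ A ^ 2 * t := by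
    intro f A hf
    have e : ∑ x, (t • f) x ^ 2 = t ^ 2 * ∑ x, f x ^ 2 := by
      rw [Finset.mul_sum]
      refine Finset.sum_congr rfl fun x _ => ?_
      rw [Pi.smul_apply, smul_eq_mul, mul_pow]
    rw [e]
    calc t ^ 2 * ∑ x, f x ^ 2 ≤ t ^ 2 * (A ^ 2 * (ξ : ℝ) ^ 2) :=
          mul_le_mul_of_nonneg_left hf (by positivity)
      _ = A ^ 2 * t * (t * (ξ : ℝ) ^ 2) := by ring
      _ = A ^ 2 * t := by rw [htx, mul_one]
  have hfar := h W hW N b ξ y hR hN (t • f) (t • g) A B D hA hB hD.le (sq f A hf) (sq g B hg)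
    fun x z hx hz => hsup x z (fun e => hx (by rw [Pi.smul_apply, e, smul_zero]))
      fun e => hz (by rw [Pi.smul_apply, e, smul_zero])
  have hM : (t • (1 : Matrix (Tor N) (Tor N) ℝ)).transpose = t • 1 := by
    rw [Matrix.transpose_smul, Matrix.transpose_one]
  have hdis : ∀ x, f x = 0 ∨ g x = 0 := by
    intro x
    by_contra hx
    rw [not_or] at hx
    have h1 := hsup x x hx.1 hx.2
    have h2 : (sd x x : ℝ) = 0 := by
      have : sd x x = 0 := by
        unfold sd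
        rw [sub_self]
        exact TM.H459.sn_zero
      exact_mod_cast this
    rw [h2] at h1
    have : 0 < D * ξ := by positivity
    linarith
  have hE : EM (wt N b t) := H789.em_wt hb ht
  refine Far.loc2 (w := wT b N) (M := t • 1) ?_ hM hE hO hω (bf_one_smul_zero t hdis) ?_
  · rw [mulVec_one_smul, mulVec_one_smul]
    exact hfar
  · intro c hc p hp q hq
    rw [mulVec_one_smul]
    exact hτ c hc p hp q hq

end torus

end Vale.Agent.P159.H612
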