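import Vale.Agent.P159.H612.OscD
import Vale.Agent.P159.H612.Loc2
import Vale.Agent.P159.H145.Loc2T
import Vale.Agent.P159.H770.DisT

/-!
P159 / second order flow, module LOC^D (helper612), part (D6), (D7) for the models:
the oscillation bound `OscZ` for every dislocation with the constant of the undislocated model at
background `0`; the neutral functional of the dislocated weight is local.
-/

namespace Vale.Agent.P159.H612

open Real Finset Filter Topology MeasureTheory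
open Vale.Agent.P159.TM.H104
open Vale.Agent.P159.H37
open Vale.Agent.P159.H145 (LM L0 OscZ cs T0 pair_src Per)
open Vale.Agent.P159.H770 (PP kp PSDF DisF EdW eW eWF grd ZB TD RsD wTD eS eT Ed wtD)
open Vale.Agent.P159.TM.SpecC (Tor wT ms)

/-! ### general families -/

section gen

variable {B V : Type} [AddCommGroup B] [Fintype V] {W : B → (V → ℤ) → ℝ}

/-- the pair property along a one parameter group -/
theorem pp_line (hW : DisF W) (w : B × (V → ℝ)) (e : ℝ →+ B × (V → ℝ)) :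
    PP (fun c => ZB W (w + e c)) fun c => ZB W (e c) := by
  have h := (hW.ppB w).comp fun a : ℝ => e a
  intro n p x
  refine le_of_le_of_eq (h n p x) ?_
  refine Finset.sum_congr rfl fun i _ => Finset.sum_congr rfl fun j _ => ?_
  simp only [kp, map_add, map_sub]

end gen

section edges

variable {V E : Type} [Fintype V] [Fintype E] {s t : E → V} {I : E → ℤ → ℝ}
  {M : Matrix V V ℝ} {m0 : ℝ}

omit [Fintype V] in
theorem per_eW (η : E → ℤ) : Per (eW s t I η) := by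
  intro h
  unfold eW
  refine Finset.prod_congr rfl fun e _ => ?_
  congr 1
  simp only [Pi.add_apply, Pi.one_apply]
  ring

/-- **(D6)** oscillation under constants in every dislocated background, with the constant of the
undislocated model at background `0` -/
theorem oscZ_eW (hI : EdW I) (hMt : M.transpose = M) (hm0 : 0 < m0)
    (hM : ∀ u : V → ℝ, m0 * ∑ x, u x ^ 2 ≤ qf M u) (η : E → ℤ) :
    OscZ (eW s t I η) M (ZM (eW s t I 0) M 0 / Zn (eW s t I 0) M 0 - 1) := by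
  intro F c _
  have hW : DisF (eWF s t I M) := H770.disF_bg hI hMt hm0 hM
  have hE : ∀ η : E → ℤ, EM (wM (eW s t I η) M) := fun η => hI.em η hm0 hM
  -- the one parameter group of constants
  let e : ℝ →+ ((E → ℤ) × (V → ℝ)) × (V → ℝ) :=
    { toFun := fun c => (((0 : E → ℤ), fun _ => c), 0)
      map_zero' := rfl
      map_add' := fun c d => by
        ext <;> simp }
  have eY : ∀ c, ZB (eWF s t I M) (((η, F), (0 : V → ℝ)) + e c) =
      ZM (eW s t I η) M (cs F c) := by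
    intro c
    have : ((η, F), (0 : V → ℝ)) + e c = ((η, cs F c), 0) := by
      show ((η + 0, F + fun _ => c), (0 : V → ℝ) + 0) = _
      rw [add_zero, add_zero]
      rfl
    rw [this]
    exact H770.Zs_eWF M (η, cs F c)
  have eZ : ∀ c, ZB (eWF s t I M) (e c) = ZM (eW s t I 0) M (cs 0 c) := by
    intro c
    have : e c = (((0 : E → ℤ), cs (0 : V → ℝ) c), 0) := by
      show (((0 : E → ℤ), fun _ => c), (0 : V → ℝ)) = _
      congr 2
      funext x
      simp [cs]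
    rw [this]
    exact H770.Zs_eWF M (0, cs 0 c)
  have hK := pp_line hW ((η, F), (0 : V → ℝ)) e
  simp only [eY, eZ] at hK
  have he : ∀ a : ℝ, ZM (eW s t I 0) M (cs 0 (-a)) = ZM (eW s t I 0) M (cs 0 a) := by
    intro a
    have h1 := hW.negB (e a)
    rw [← map_neg, eZ, eZ] at h1
    exact h1
  have cY : Continuous fun c => ZM (eW s t I η) M (cs F c) :=
    (H145.continuous_ZM hMt (hE η)).comp (H145.continuous_cs F)
  have cZ : Continuous fun c => ZM (eW s t I 0) M (cs 0 c) :=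
    (H145.continuous_ZM hMt (hE 0)).comp (H145.continuous_cs 0)
  have z0 : 0 < Zn (eW s t I 0) M 0 := H145.Zn_pos hMt (hE 0) 0
  have i0 : ∫ a in (0 : ℝ)..1, ZM (eW s t I 0) M (cs 0 a) = Zn (eW s t I 0) M 0 := rfl
  have i1 : ∫ a in (0 : ℝ)..1, ZM (eW s t I η) M (cs F a) = Zn (eW s t I η) M F := rfl
  have h := osc_pp cY cZ (H145.ZM_periodic (per_eW η) F) (H145.ZM_periodic (per_eW 0) 0) hK he
    (by rw [i0]; exact z0.le) c
  rw [i0, i1, H145.cs_zero] at h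
  have h2 : ZM (eW s t I 0) M 0 / Zn (eW s t I 0) M 0 - 1 =
      (ZM (eW s t I 0) M 0 - Zn (eW s t I 0) M 0) / Zn (eW s t I 0) M 0 := by
    field_simp
  rw [h2, div_mul_eq_mul_div, le_div_iff₀ z0]
  linarith

end edges

/-! ### the torus -/

section torus

variable {N : ℕ} [NeZero N] {b : ℝ} {M : Matrix (Tor N) (Tor N) ℝ} {m0 : ℝ}

theorem per_wTD (η : Ed N → ℤ) : Per (wTD N b η) := per_eW η

/-- the oscillation constant of the undislocated model at background `0` -/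
noncomputable def om0 (N : ℕ) [NeZero N] (b : ℝ) (M : Matrix (Tor N) (Tor N) ℝ) : ℝ :=
  ZM (wT b N) M 0 / Zn (wT b N) M 0 - 1

/-- **(D6) on the torus** -/
theorem oscZ_wTD (hb : 0 < b) (hMt : M.transpose = M) (hm0 : 0 < m0)
    (hM : ∀ u : Tor N → ℝ, m0 * ∑ x, u x ^ 2 ≤ qf M u) (η : Ed N → ℤ) :
    OscZ (wTD N b η) M (om0 N b M) := by
  have h := oscZ_eW (s := eS N) (t := eT N) (H770.edW_wI (E := Ed N) hb) hMt hm0 hM η
  have e : om0 N b M = ZM (wTD N b 0) M 0 / Zn (wTD N b 0) M 0 - 1 := by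
    unfold om0
    rw [H770.wTD_zero]
  rw [e]
  exact h

theorem oscZ_wT (hb : 0 < b) (hMt : M.transpose = M) (hm0 : 0 < m0)
    (hM : ∀ u : Tor N → ℝ, m0 * ∑ x, u x ^ 2 ≤ qf M u) : OscZ (wT b N) M (om0 N b M) := by
  have h := oscZ_wTD hb hMt hm0 hM (0 : Ed N → ℤ)
  rwa [H770.wTD_zero] at h

theorem OscZ.mono {V : Type*} [Fintype V] {w : (V → ℤ) → ℝ} {M : Matrix V V ℝ} {ω ω' : ℝ}
    (h : OscZ w M ω) (hω : ω ≤ ω') (hZ : ∀ F, 0 ≤ Zn w M F) : OscZ w M ω' :=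
  fun F c hc => (h F c hc).trans (mul_le_mul_of_nonneg_right hω (hZ F))

/-! ### `T^D` in background letters -/

/-- neutral `T^D` : `log Z⁰(2η, 2F) - 4 log Z⁰(η, F) + 3 log Z⁰(0, 0)` -/
noncomputable def T0D (N : ℕ) [NeZero N] (b : ℝ) (M : Matrix (Tor N) (Tor N) ℝ) (η : Ed N → ℤ)
    (F : Tor N → ℝ) : ℝ :=
  L0 (wTD N b (η + η)) M ((2 : ℝ) • F) - 4 * L0 (wTD N b η) M F + 3 * L0 (wTD N b 0) M 0

/-- the torus family with mass form `M` -/
noncomputable def wMD (N : ℕ) [NeZero N] (b : ℝ) (M : Matrix (Tor N) (Tor N) ℝ)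
    (η : Ed N → ℤ) : (Tor N → ℤ) → ℝ := wM (wTD N b η) M

theorem disF_wMD (hb : 0 < b) (hm0 : 0 < m0)
    (hM : ∀ u : Tor N → ℝ, m0 * ∑ x, u x ^ 2 ≤ qf M u) : DisF (wMD N b M) :=
  H770.disF_torus hb hm0 hM

theorem TD_bg (hb : 0 < b) (hMt : M.transpose = M) (hm0 : 0 < m0)
    (hM : ∀ u : Tor N → ℝ, m0 * ∑ x, u x ^ 2 ≤ qf M u) (η : Ed N → ℤ) (F : Tor N → ℝ) :
    TD (wMD N b M) η (M.mulVec F) = LM (wTD N b (η + η)) M ((2 : ℝ) • F) -
      4 * LM (wTD N b η) M F + 3 * LM (wTD N b 0) M 0 := by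
  have hE : ∀ η : Ed N → ℤ, EM (wM (wTD N b η) M) := fun η => H770.em_wTD hb η hm0 hM
  unfold TD wMD
  rw [H145.LM_eq hMt (hE _), H145.LM_eq hMt (hE _), H145.LM_eq hMt (hE _), qf_smul,
    Matrix.mulVec_smul, Matrix.mulVec_zero, qf_zero_vec, two_smul]
  ring

/-- **(T^D versus neutral T^D)** in every background `F + c` -/
theorem TD_le_T0D (hb : 0 < b) (hMt : M.transpose = M) (hm0 : 0 < m0)
    (hM : ∀ u : Tor N → ℝ, m0 * ∑ x, u x ^ 2 ≤ qf M u) {ω : ℝ}
    (hO : ∀ η : Ed N → ℤ, OscZ (wTD N b η) M ω) (hω : ω ≤ 1 / 2) (η : Ed N → ℤ)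
    (F : Tor N → ℝ) (c : ℝ) :
    |TD (wMD N b M) η (M.mulVec (cs F c)) - T0D N b M η F| ≤ 16 * ω := by
  have hE : ∀ η : Ed N → ℤ, EM (wM (wTD N b η) M) := fun η => H770.em_wTD hb η hm0 hM
  rw [TD_bg hb hMt hm0 hM, H145.smul_cs]
  have a1 := abs_le.1 (H145.LM_sub_L0 (per_wTD (η + η)) hMt (hE _) (hO _) hω ((2 : ℝ) • F) (2 * c))
  have a2 := abs_le.1 (H145.LM_sub_L0 (per_wTD η) hMt (hE _) (hO _) hω F c)
  have a3 := abs_le.1 (H145.LM_sub_L0 (per_wTD (b := b) 0) hMt (hE _) (hO _) hω (0 : Tor N → ℝ) 0)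
  rw [H145.cs_zero] at a3
  unfold T0D
  rw [abs_le]
  constructor <;> linarith [a1.1, a1.2, a2.1, a2.2, a3.1, a3.2]

/-! ### locality of the neutral functional of the dislocated weight -/

variable {F f g : Tor N → ℝ} {A A' r ω τ : ℝ}

/-- **(D7)** mixed differences of the dislocated neutral functional -/
theorem Far.mixD0 (h : Far (wMD N b M 0) (M.mulVec f) (M.mulVec g) A A' r) (hb : 0 < b)
    (hMt : M.transpose = M) (hm0 : 0 < m0)
    (hM : ∀ u : Tor N → ℝ, m0 * ∑ x, u x ^ 2 ≤ qf M u) (hA : 0 ≤ A) (hA' : 0 ≤ A') (hr : 0 ≤ r)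
    (hO : ∀ η : Ed N → ℤ, OscZ (wTD N b η) M ω) (hω : ω ≤ 1 / 2) (hbf : bf M f g = 0)
    (η : Ed N → ℤ)
    (hτ : ∀ p ∈ Set.Icc (0 : ℝ) 1, ∀ q ∈ Set.Icc (0 : ℝ) 1,
      T0D N b M η (F + p • f + q • g) ≤ τ) :
    |L0 (wTD N b η) M (F + f + g) - L0 (wTD N b η) M (F + f) - L0 (wTD N b η) M (F + g) +
        L0 (wTD N b η) M F| ≤
      Real.exp ((τ + 16 * ω) / 2) * A * A' * √r + 8 * ω ^ 2 := by
  have hE : EM (wM (wTD N b η) M) := H770.em_wTD hb η hm0 hM
  have hW := disF_wMD hb hm0 hM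
  refine pair_src hMt hE (hO η) hω F f g hbf fun c _ => ?_
  refine h.lgD hW hA hA' hr η (M.mulVec (cs F c)) fun p hp q hq => ?_
  rw [← mulVec_cs_add]
  have h1 := (abs_le.1 (TD_le_T0D hb hMt hm0 hM hO hω η (F + p • f + q • g) c)).2
  linarith [hτ p hp q hq]

/-- **(D7)** window localisation of the second differences of the dislocated neutral functional -/
theorem Far.locD0 (h : Far (wMD N b M 0) (M.mulVec f) (M.mulVec g) A A' r) (hb : 0 < b)
    (hMt : M.transpose = M) (hm0 : 0 < m0)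
    (hM : ∀ u : Tor N → ℝ, m0 * ∑ x, u x ^ 2 ≤ qf M u) (hA : 0 ≤ A) (hA' : 0 ≤ A') (hr : 0 ≤ r)
    (hO : ∀ η : Ed N → ℤ, OscZ (wTD N b η) M ω) (hω : ω ≤ 1 / 2) (hbf : bf M f g = 0)
    (η : Ed N → ℤ)
    (hτ : ∀ p ∈ Set.Icc (0 : ℝ) 1, ∀ q ∈ Set.Icc (-1 : ℝ) 1,
      T0D N b M η (F + p • f + q • g) ≤ τ) :
    |D2 (wTD N b η) M (F + f) g - D2 (wTD N b η) M F g| ≤
      2 * (Real.exp ((τ + 16 * ω) / 2) * A * A' * √r) + 16 * ω ^ 2 := by
  have h1 := h.mixD0 (F := F) hb hMt hm0 hM hA hA' hr hO hω hbf η (τ := τ) fun p hp q hq =>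
    hτ p hp q ⟨by linarith [hq.1], hq.2⟩
  have h2 := h.mixD0 (F := F - g) hb hMt hm0 hM hA hA' hr hO hω hbf η (τ := τ)
    fun p hp q hq => by
      have e : F - g + p • f + q • g = F + p • f + (q - 1) • g := by
        rw [sub_smul, one_smul]
        abel
      rw [e]
      exact hτ p hp (q - 1) ⟨by linarith [hq.1], by linarith [hq.2]⟩
  have c1 : F - g + f + g = F + f := by abel
  have c2 : F - g + f = F + f - g := by abel
  have c3 : F - g + g = F := by abel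
  rw [c1, c2, c3] at h2
  have e : D2 (wTD N b η) M (F + f) g - D2 (wTD N b η) M F g =
      (L0 (wTD N b η) M (F + f + g) - L0 (wTD N b η) M (F + f) - L0 (wTD N b η) M (F + g) +
        L0 (wTD N b η) M F) -
      (L0 (wTD N b η) M (F + f) - L0 (wTD N b η) M (F + f - g) - L0 (wTD N b η) M F +
        L0 (wTD N b η) M (F - g)) := by
    unfold D2
    ring
  rw [e]
  refine (abs_sub _ _).trans ?_
  linarith

end torus

/-! ### the constants of Theorem A -/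

section lb4

variable {N : ℕ} [NeZero N]

theorem sqrt_rate {C c D : ℝ} (hC : 1 ≤ C) :
    √(C * Real.exp (-(c * D))) ≤ C * Real.exp (-(c / 2 * D)) := by
  rw [Real.sqrt_mul (by linarith), sqrt_exp]
  have h1 : √C ≤ C := by
    rw [Real.sqrt_le_left (by linarith)]
    nlinarith
  have e : -(c * D) / 2 = -(c / 2 * D) := by ring
  rw [e]
  exact mul_le_mul_of_nonneg_right h1 (Real.exp_pos _).le

/-- **(LB4^D)** covariances and mixed differences in every dislocated background on the torus -/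
theorem lb4D {b1 : ℝ} (hb1 : 0 < b1) (b2 a : ℝ) :
    ∃ W₀ : ℝ, ∃ c C ys : ℝ, ∃ X : ℕ, 0 < c ∧ 1 ≤ C ∧ 0 < ys ∧ 1 ≤ X ∧ ∀ W : ℝ, W₀ ≤ W →
    ∀ (N : ℕ) [NeZero N] (b : ℝ) (ξ : ℕ) (y : ℝ),
      TM.Spec.Rng b1 b2 a W ys X N b ξ y → (N : ℝ) * y ≤ c * ξ →
      ∀ (u v : Tor N → ℝ) (A B D : ℝ), 0 < A → 0 < B → 0 ≤ D →
        ∑ x, u x ^ 2 ≤ A ^ 2 * (1 / (ξ : ℝ) ^ 2) → ∑ x, v x ^ 2 ≤ B ^ 2 * (1 / (ξ : ℝ) ^ 2) →
        (∀ x z, u x ≠ 0 → v z ≠ 0 → D * ξ ≤ TM.H459.sd x z) →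
        ∀ (η : Ed N → ℤ) (J : Tor N → ℝ) (τ : ℝ),
          |Cv (wtD N b (1 / (ξ : ℝ) ^ 2) η) J (li u) (li v)| ≤
            Real.exp (TD (wtD N b (1 / (ξ : ℝ) ^ 2)) η J / 2) * A * B *
              (C * Real.exp (-(c * D))) ∧
          ((∀ p ∈ Set.Icc (0 : ℝ) 1, ∀ q ∈ Set.Icc (0 : ℝ) 1,
            TD (wtD N b (1 / (ξ : ℝ) ^ 2)) η (J + p • u + q • v) ≤ τ) →
          |Lg (wtD N b (1 / (ξ : ℝ) ^ 2) η) (J + u + v) -
              Lg (wtD N b (1 / (ξ : ℝ) ^ 2) η) (J + u) -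
              Lg (wtD N b (1 / (ξ : ℝ) ^ 2) η) (J + v) +
              Lg (wtD N b (1 / (ξ : ℝ) ^ 2) η) J| ≤
            Real.exp (τ / 2) * A * B * (C * Real.exp (-(c * D)))) := by
  obtain ⟨W₀, c, C, ys, X, hc, hC, hys, hX, h⟩ := lb4 hb1 b2 a
  refine ⟨W₀, c / 2, C, ys, X, by positivity, hC, hys, hX, ?_⟩
  intro W hW N _ b ξ y hR hN u v A B D hA hB hD hu hv hsup η J τ
  have hb : 0 < b := lt_of_lt_of_le hb1 hR.hb1
  have hξ : 0 < ξ := by
    have := hR.hX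
    omega
  have hξR : (0 : ℝ) < ξ := by exact_mod_cast hξ
  have ht : (0 : ℝ) < 1 / (ξ : ℝ) ^ 2 := by positivity
  have hN' : (N : ℝ) * y ≤ c * ξ := by
    refine hN.trans ?_
    nlinarith
  have hfar := h W hW N b ξ y hR hN' u v A B D hA hB hD hu hv hsup
  rw [← H770.wtD_zero] at hfar
  have hW' : DisF (wtD N b (1 / (ξ : ℝ) ^ 2)) := H770.disF_wtD hb ht
  have hr : 0 ≤ C * Real.exp (-(c * D)) := by positivity
  have hs := sqrt_rate (c := c) (D := D) hC
  refine ⟨?_, fun hτ => ?_⟩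
  · refine (hfar.bgD hW' hA.le hB.le hr η J).trans ?_
    exact mul_le_mul_of_nonneg_left hs (by positivity)
  · refine (hfar.lgD hW' hA.le hB.le hr η J hτ).trans ?_
    exact mul_le_mul_of_nonneg_left hs (by positivity)

end lb4

end Vale.Agent.P159.H612
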