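import Vale.Agent.P159.H612.MassMono
import Vale.Agent.P159.H612.OscD2
import Vale.Agent.P159.H789.Bridge

/-!
P159 / second order flow, module LOCAL (helper612): locality at every REAL mass `τ ≥ ξ⁻²`.
-/

set_option linter.unusedSectionVars false

namespace Vale.Agent.P159.H612

open Real Finset Filter Topology
open Vale.Agent.P159.TM.H104 (EM Ex li li_zero Lg Gr)
open Vale.Agent.P159.H37 (Ev Zs Cm Gm qf bf Rs Tq K4 Ker PK wM wt re)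
open Vale.Agent.P159.T1.H897 (Hol)
open Vale.Agent.P159.TM.SpecC (Tor wT ms)
open Vale.Agent.P159.TM.H459 (sn sd)
open Vale.Agent.P159.TM.H265 (DT lat_grd)
open Vale.Agent.P159.TM.H708 (SS)

variable {N : ℕ} [NeZero N] {b t t' : ℝ}

theorem T_wt_eq (b t : ℝ) (F : (Tor N → ℤ) → ℝ) :
    TM.H104.T (wt N b t) 0 F = SS (DT N) (fun _ => b) (fun _ => t) ∅ F := by
  unfold TM.H104.T SS
  refine tsum_congr fun h => ?_
  rw [li_zero, Real.exp_zero, mul_one, wt_eq_bw]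
  unfold TM.H104.bw TM.H708.bw
  rw [← TM.H265.gr_zero, TM.H41.wT_eq_W]
  ring

/-- the covariance matrix of the torus in the letters of 265 -/
theorem Gm_wt_eq (b t : ℝ) (x z : Tor N) :
    Gm (wt N b t) x z = TM.H265.Cv (DT N) (fun _ => b) (fun _ => t) ∅ x z := by
  have hm : ∀ x : Tor N, Ex (wt N b t) 0 (fun h => (h x : ℝ)) = 0 := by
    intro x
    unfold Ex
    have h1 : TM.H104.T (wt N b t) 0 (fun h => (h x : ℝ)) = 0 := by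
      have h2 : TM.H104.T (wt N b t) 0 (fun h => (h x : ℝ)) =
          -TM.H104.T (wt N b t) 0 (fun h => (h x : ℝ)) := by
        unfold TM.H104.T
        rw [← tsum_neg, ← (Equiv.neg (Tor N → ℤ)).tsum_eq]
        refine tsum_congr fun h => ?_
        simp only [Equiv.neg_apply, Pi.neg_apply]
        rw [H789.ev_wt h, li_zero, li_zero]
        push_cast
        ring
      linarith
    rw [h1, zero_div]
  unfold Gm Cm
  rw [Matrix.of_apply]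
  unfold TM.H104.Cv
  rw [hm x, zero_mul, sub_zero]
  unfold Ex TM.H265.Cv
  rw [T_wt_eq, T_wt_eq]

/-- **entrywise monotonicity of the covariance in the mass** -/
theorem Gm_mass_mono (hb : 0 ≤ b) (ht : 0 < t) (h : t ≤ t') (x z : Tor N) :
    Gm (wt N b t') x z ≤ Gm (wt N b t) x z := by
  rw [Gm_wt_eq, Gm_wt_eq]
  exact cv_mass_mono (lat_grd _ _) (fun _ => hb) (fun _ => ht) (fun _ => h) _ _ _

theorem Gm_nonneg (hb : 0 ≤ b) (ht : 0 < t) (x z : Tor N) : 0 ≤ Gm (wt N b t) x z := by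
  rw [Gm_wt_eq]
  exact TM.H265.cv_nonneg (lat_grd _ _) (fun _ => hb) (fun _ => ht) _ _ _

/-- the same for two functions -/
theorem bf_mass_mono (hb : 0 ≤ b) (ht : 0 < t) (h : t ≤ t') {u v : Tor N → ℝ} (hu : 0 ≤ u)
    (hv : 0 ≤ v) : bf (Gm (wt N b t')) u v ≤ bf (Gm (wt N b t)) u v := by
  unfold bf
  refine Finset.sum_le_sum fun x _ => Finset.sum_le_sum fun z _ => ?_
  have h1 := Gm_mass_mono hb ht h x z
  have h2 := hu x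
  have h3 := hv z
  simp only [Pi.zero_apply] at h2 h3
  exact mul_le_mul_of_nonneg_right (mul_le_mul_of_nonneg_left h1 h2) h3

/-- covariance of `X_|u|`, `X_|v|` -/
theorem Cv_abs_mass_mono (hb : 0 ≤ b) (ht : 0 < t) (h : t ≤ t') (u v : Tor N → ℝ) :
    TM.H104.Cv (wt N b t') 0 (li fun x => |u x|) (li fun x => |v x|) ≤
      TM.H104.Cv (wt N b t) 0 (li fun x => |u x|) (li fun x => |v x|) := by
  rw [← bf_Gm (H789.em_wt hb (ht.trans_le h)), ← bf_Gm (H789.em_wt hb ht)]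
  exact bf_mass_mono hb ht h (fun _ => abs_nonneg _) fun _ => abs_nonneg _

/-- the kernel at a real mass `t ≥ ξ⁻²` is below the kernel of the specification -/
theorem Gm_le_GT (hb : 0 ≤ b) {ξ : ℕ} (hξ : 0 < ξ) (ht : 1 / (ξ : ℝ) ^ 2 ≤ t) (x z : Tor N) :
    Gm (wt N b t) x z ≤ TM.Spec.GT N b ξ (z - x) := by
  have hξR : (0 : ℝ) < ξ := by exact_mod_cast hξ
  rw [← Gm_wt]
  exact Gm_mass_mono hb (by positivity) ht x z

/-- `GT` at a real mass -/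
theorem Gt_le_GT (hb : 0 ≤ b) {ξ : ℕ} (hξ : 0 < ξ) (ht : 1 / (ξ : ℝ) ^ 2 ≤ t) (w : Tor N) :
    H37.Gt N b t w ≤ TM.Spec.GT N b ξ w := by
  have h := Gm_le_GT hb hξ ht 0 w
  rwa [sub_zero] at h

theorem Gt_nonneg (hb : 0 ≤ b) (ht : 0 < t) (w : Tor N) : 0 ≤ H37.Gt N b t w :=
  Gm_nonneg hb ht 0 w

theorem Gt_mass_mono (hb : 0 ≤ b) (ht : 0 < t) (h : t ≤ t') (w : Tor N) :
    H37.Gt N b t' w ≤ H37.Gt N b t w := Gm_mass_mono hb ht h 0 w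

/-- **Theorem A (exponentially weighted covariance sum) at every real mass `t ≥ ξ⁻²`** -/
theorem thmAexp_t {b1 : ℝ} (hb1 : 0 < b1) (b2 a : ℝ) :
    ∃ W₀ : ℝ, ∃ c C ys : ℝ, ∃ X : ℕ, 0 < c ∧ 0 < C ∧ 0 < ys ∧ 1 ≤ X ∧ ∀ W : ℝ, W₀ ≤ W →
    ∀ (N : ℕ) [NeZero N] (b : ℝ) (ξ : ℕ) (y : ℝ),
      TM.Spec.Rng b1 b2 a W ys X N b ξ y → (N : ℝ) * y ≤ c * ξ →
      ∀ t : ℝ, 1 / (ξ : ℝ) ^ 2 ≤ t →
        ∑ w : Tor N, H37.Gt N b t w * Real.exp (c * sn w / ξ) ≤ C * (ξ : ℝ) ^ 2 := by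
  obtain ⟨W₀, c, C, ys, X, hc, hC, hys, hX, h⟩ := TM.H352.thmAexp' hb1 b2 a
  refine ⟨W₀, c, C, ys, X, hc, hC, hys, hX, ?_⟩
  intro W hW N _ b ξ y hR hN t ht
  have hb : 0 ≤ b := hb1.le.trans hR.hb1
  have hξ : 0 < ξ := by
    have := hR.hX
    omega
  refine (Finset.sum_le_sum fun w _ => ?_).trans (h W hW N b ξ y hR hN)
  exact mul_le_mul_of_nonneg_right (Gt_le_GT hb hξ ht w) (Real.exp_pos _).le

/-- **(LB4) at every real mass `τ ≥ ξ⁻²`** -/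
theorem lb4t {b1 : ℝ} (hb1 : 0 < b1) (b2 a : ℝ) :
    ∃ W₀ : ℝ, ∃ c C ys : ℝ, ∃ X : ℕ, 0 < c ∧ 1 ≤ C ∧ 0 < ys ∧ 1 ≤ X ∧ ∀ W : ℝ, W₀ ≤ W →
    ∀ (N : ℕ) [NeZero N] (b : ℝ) (ξ : ℕ) (y : ℝ),
      TM.Spec.Rng b1 b2 a W ys X N b ξ y → (N : ℝ) * y ≤ c * ξ →
      ∀ (u v : Tor N → ℝ) (A B D : ℝ), 0 < A → 0 < B → 0 ≤ D →
        ∑ x, u x ^ 2 ≤ A ^ 2 * (1 / (ξ : ℝ) ^ 2) → ∑ x, v x ^ 2 ≤ B ^ 2 * (1 / (ξ : ℝ) ^ 2) →
        (∀ x z, u x ≠ 0 → v z ≠ 0 → D * ξ ≤ sd x z) →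
        ∀ τ : ℝ, 1 / (ξ : ℝ) ^ 2 ≤ τ →
        Far (wt N b τ) u v A B (C * Real.exp (-(c * D))) := by
  obtain ⟨W₀, c, C, ys, X, hc, hC, hys, hX, h⟩ := TM.H352.thmAexp' hb1 b2 a
  refine ⟨W₀, c / 4, max 1 (2100 * √C + 33 * √(√C) + C), ys, X, by positivity,
    le_max_left _ _, hys, hX, ?_⟩
  intro W hW N _ b ξ y hR hN u v A B D hA hB hD hu hv hsup τ hτ
  have hb : 0 ≤ b := hb1.le.trans hR.hb1
  have hξ : 0 < ξ := by
    have := hR.hX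
    omega
  have hξR : (0 : ℝ) < ξ := by exact_mod_cast hξ
  have hN' : (N : ℝ) * y ≤ c * ξ := by
    refine hN.trans ?_
    nlinarith
  have hsum := h W hW N b ξ y hR hN'
  have ht : (0 : ℝ) < 1 / (ξ : ℝ) ^ 2 := by positivity
  have hτ0 : 0 < τ := ht.trans_le hτ
  have hcov := (Cv_abs_mass_mono hb ht hτ u v).trans (S_le hb hξ hc hsum hA hB hu hv hsup)
  exact far_of (H789.em_wt hb hτ0) H789.ev_wt (H789.pk_wt hb hτ0) (hol_wt (N := N) hb _) hτ0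
    (subG_wt (N := N) hb hτ0) hA hB hc hC hD
    (hu.trans (mul_le_mul_of_nonneg_left hτ (by positivity)))
    (hv.trans (mul_le_mul_of_nonneg_left hτ (by positivity))) hcov (le_max_right _ _)

/-- change of the constants -/
theorem Far.scale {μ : (Tor N → ℤ) → ℝ} {u v : Tor N → ℝ} {A B r q : ℝ}
    (h : Far μ u v (q * A) (q * B) r) (hq : 1 ≤ q) (hA : 0 ≤ A) (hB : 0 ≤ B) (hr : 0 ≤ r) :
    Far μ u v A B (q ^ 4 * r) := by
  have h2 : q ^ 2 ≤ q ^ 4 := pow_le_pow_right₀ hq (by norm_num)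
  have key : q * A * (q * B) * r ≤ A * B * (q ^ 4 * r) := by
    have h3 := mul_le_mul_of_nonneg_right h2 (by positivity : 0 ≤ A * B * r)
    calc q * A * (q * B) * r = q ^ 2 * (A * B * r) := by ring
      _ ≤ q ^ 4 * (A * B * r) := h3
      _ = _ := by ring
  have key' : ∀ x : ℝ, x * (q * A) * (q * B) * r ≤ x * A * B * (q ^ 4 * r) ∨ x < 0 := by
    intro x
    rcases lt_or_ge x 0 with hx | hx
    · exact Or.inr hx
    · left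
      calc x * (q * A) * (q * B) * r = x * (q * A * (q * B) * r) := by ring
        _ ≤ x * (A * B * (q ^ 4 * r)) := mul_le_mul_of_nonneg_left key hx
        _ = _ := by ring
  have ke : ∀ y : ℝ, Real.exp y * (q * A) * (q * B) * r ≤ Real.exp y * A * B * (q ^ 4 * r) :=
    fun y => (key' (Real.exp y)).resolve_right (not_lt.2 (Real.exp_pos y).le)
  constructor
  · exact h.cov.trans key
  · refine h.en.trans (le_of_eq ?_)
    ring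
  · exact fun J => (h.bg J).trans (ke _)
  · exact fun J0 τ hτ => (h.lg J0 τ hτ).trans (ke _)
  · exact fun J0 τ hτ => (h.rs J0 τ hτ).trans (ke _)

/-- the same in background letters, `ξ⁻² ≤ t ≤ 4 ξ⁻²`: fields `f`, `g` with sources `t f`, `t g` -/
theorem lb4f {b1 : ℝ} (hb1 : 0 < b1) (b2 a : ℝ) :
    ∃ W₀ : ℝ, ∃ c C ys : ℝ, ∃ X : ℕ, 0 < c ∧ 1 ≤ C ∧ 0 < ys ∧ 1 ≤ X ∧ ∀ W : ℝ, W₀ ≤ W →
    ∀ (N : ℕ) [NeZero N] (b : ℝ) (ξ : ℕ) (y : ℝ),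
      TM.Spec.Rng b1 b2 a W ys X N b ξ y → (N : ℝ) * y ≤ c * ξ →
      ∀ (f g : Tor N → ℝ) (A B D : ℝ), 0 < A → 0 < B → 0 ≤ D →
        ∑ x, f x ^ 2 ≤ A ^ 2 * (ξ : ℝ) ^ 2 → ∑ x, g x ^ 2 ≤ B ^ 2 * (ξ : ℝ) ^ 2 →
        (∀ x z, f x ≠ 0 → g z ≠ 0 → D * ξ ≤ sd x z) →
        ∀ t : ℝ, 1 / (ξ : ℝ) ^ 2 ≤ t → t ≤ 4 / (ξ : ℝ) ^ 2 →
        Far (wt N b t) (t • f) (t • g) A B (C * Real.exp (-(c * D))) := by
  obtain ⟨W₀, c, C, ys, X, hc, hC, hys, hX, h⟩ := lb4t hb1 b2 a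
  refine ⟨W₀, c, 4 ^ 4 * C, ys, X, hc, by linarith, hys, hX, ?_⟩
  intro W hW N _ b ξ y hR hN f g A B D hA hB hD hf hg hsup t ht1 ht2
  have hξ : 0 < ξ := by
    have := hR.hX
    omega
  have hξR : (0 : ℝ) < ξ := by exact_mod_cast hξ
  have ht0 : (0 : ℝ) < 1 / (ξ : ℝ) ^ 2 := by positivity
  have ht : 0 < t := ht0.trans_le ht1
  have htx : t * (ξ : ℝ) ^ 2 ≤ 4 := by
    calc t * (ξ : ℝ) ^ 2 ≤ 4 / (ξ : ℝ) ^ 2 * (ξ : ℝ) ^ 2 :=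
          mul_le_mul_of_nonneg_right ht2 (by positivity)
      _ = 4 := by field_simp
  have sq : ∀ (f : Tor N → ℝ) (A : ℝ), ∑ x, f x ^ 2 ≤ A ^ 2 * (ξ : ℝ) ^ 2 →
      ∑ x, (t • f) x ^ 2 ≤ (4 * A) ^ 2 * (1 / (ξ : ℝ) ^ 2) := by
    intro f A hf
    have e : ∑ x, (t • f) x ^ 2 = t ^ 2 * ∑ x, f x ^ 2 := by
      rw [Finset.mul_sum]
      refine Finset.sum_congr rfl fun x _ => ?_
      rw [Pi.smul_apply, smul_eq_mul, mul_pow]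
    rw [e]
    have h1 : 0 ≤ t * (ξ : ℝ) ^ 2 := by positivity
    have h2 : (t * (ξ : ℝ) ^ 2) ^ 2 ≤ 4 ^ 2 := pow_le_pow_left₀ h1 htx 2
    calc t ^ 2 * ∑ x, f x ^ 2 ≤ t ^ 2 * (A ^ 2 * (ξ : ℝ) ^ 2) :=
          mul_le_mul_of_nonneg_left hf (by positivity)
      _ = A ^ 2 * (1 / (ξ : ℝ) ^ 2) * (t * (ξ : ℝ) ^ 2) ^ 2 := by
          field_simp
      _ ≤ A ^ 2 * (1 / (ξ : ℝ) ^ 2) * 4 ^ 2 := mul_le_mul_of_nonneg_left h2 (by positivity)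
      _ = _ := by ring
  have hfar := h W hW N b ξ y hR hN (t • f) (t • g) (4 * A) (4 * B) D (by positivity)
    (by positivity) hD (sq f A hf) (sq g B hg)
    (fun x z hx hz => hsup x z (fun e => hx (by rw [Pi.smul_apply, e, smul_zero]))
      fun e => hz (by rw [Pi.smul_apply, e, smul_zero])) t ht1
  have h2 := hfar.scale (by norm_num) hA.le hB.le (by positivity)
  have e : (4 : ℝ) ^ 4 * C * Real.exp (-(c * D)) = 4 ^ 4 * (C * Real.exp (-(c * D))) := by ring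
  rw [e]
  exact h2

/-- distant supports are disjoint -/
theorem dis_of_sup {ξ : ℕ} (hξ : 0 < ξ) {f g : Tor N → ℝ} {D : ℝ} (hD : 0 < D)
    (hsup : ∀ x z, f x ≠ 0 → g z ≠ 0 → D * ξ ≤ sd x z) (x : Tor N) : f x = 0 ∨ g x = 0 := by
  have hξR : (0 : ℝ) < ξ := by exact_mod_cast hξ
  by_contra hx
  rw [not_or] at hx
  have h1 := hsup x x hx.1 hx.2
  have h2 : (sd x x : ℝ) = 0 := by
    have : sd x x = 0 := by
      unfold sd
      rw [sub_self]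
      exact TM.H459.sn_zero
    exact_mod_cast this
  rw [h2] at h1
  have : 0 < D * ξ := by positivity
  linarith

/-- **(LOC2) at every real mass `t ∈ [ξ⁻², 4 ξ⁻²]`** -/
theorem loc2t {b1 : ℝ} (hb1 : 0 < b1) (b2 a : ℝ) :
    ∃ W₀ : ℝ, ∃ c C ys : ℝ, ∃ X : ℕ, 0 < c ∧ 1 ≤ C ∧ 0 < ys ∧ 1 ≤ X ∧ ∀ W : ℝ, W₀ ≤ W →
    ∀ (N : ℕ) [NeZero N] (b : ℝ) (ξ : ℕ) (y : ℝ),
      TM.Spec.Rng b1 b2 a W ys X N b ξ y → (N : ℝ) * y ≤ c * ξ →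
      ∀ (F f g : Tor N → ℝ) (A B D ω τ : ℝ), 0 < A → 0 < B → 0 < D →
        ∑ x, f x ^ 2 ≤ A ^ 2 * (ξ : ℝ) ^ 2 → ∑ x, g x ^ 2 ≤ B ^ 2 * (ξ : ℝ) ^ 2 →
        (∀ x z, f x ≠ 0 → g z ≠ 0 → D * ξ ≤ sd x z) →
        ∀ t : ℝ, 1 / (ξ : ℝ) ^ 2 ≤ t → t ≤ 4 / (ξ : ℝ) ^ 2 →
        H145.OscZ (wT b N) (t • (1 : Matrix (Tor N) (Tor N) ℝ)) ω → ω ≤ 1 / 2 →
        (∀ c ∈ Set.Icc (0 : ℝ) 1, ∀ p ∈ Set.Icc (0 : ℝ) 1, ∀ q ∈ Set.Icc (-1 : ℝ) 1,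
          Tq (wt N b t) (t • (H145.cs (F + p • f + q • g) c)) ≤ τ) →
        |D2 (wT b N) (t • 1) (F + f) g - D2 (wT b N) (t • 1) F g| ≤
          2 * (Real.exp (τ / 2) * A * B * (C * Real.exp (-(c * D)))) + 16 * ω ^ 2 := by
  obtain ⟨W₀, c, C, ys, X, hc, hC, hys, hX, h⟩ := lb4f hb1 b2 a
  refine ⟨W₀, c, C, ys, X, hc, hC, hys, hX, ?_⟩
  intro W hW N _ b ξ y hR hN F f g A B D ω τ hA hB hD hf hg hsup t ht1 ht2 hO hω hτ
  have hb : 0 ≤ b := hb1.le.trans hR.hb1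
  have hξ : 0 < ξ := by
    have := hR.hX
    omega
  have hξR : (0 : ℝ) < ξ := by exact_mod_cast hξ
  have ht0 : (0 : ℝ) < 1 / (ξ : ℝ) ^ 2 := by positivity
  have ht : 0 < t := ht0.trans_le ht1
  have hfar := h W hW N b ξ y hR hN f g A B D hA hB hD.le hf hg hsup t ht1 ht2
  have hM : (t • (1 : Matrix (Tor N) (Tor N) ℝ)).transpose = t • 1 := by
    rw [Matrix.transpose_smul, Matrix.transpose_one]
  have hE : EM (wt N b t) := H789.em_wt hb ht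
  refine Far.loc2 (w := wT b N) (M := t • 1) ?_ hM hE hO hω
    (bf_one_smul_zero t (dis_of_sup hξ hD hsup)) ?_
  · rw [mulVec_one_smul, mulVec_one_smul]
    exact hfar
  · intro c hc p hp q hq
    rw [mulVec_one_smul]
    exact hτ c hc p hp q hq

/-- **(LB4^D) at every real mass `t ≥ ξ⁻²`**: every dislocation, every background -/
theorem lb4Dt {b1 : ℝ} (hb1 : 0 < b1) (b2 a : ℝ) :
    ∃ W₀ : ℝ, ∃ c C ys : ℝ, ∃ X : ℕ, 0 < c ∧ 1 ≤ C ∧ 0 < ys ∧ 1 ≤ X ∧ ∀ W : ℝ, W₀ ≤ W →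
    ∀ (N : ℕ) [NeZero N] (b : ℝ) (ξ : ℕ) (y : ℝ),
      TM.Spec.Rng b1 b2 a W ys X N b ξ y → (N : ℝ) * y ≤ c * ξ →
      ∀ (u v : Tor N → ℝ) (A B D : ℝ), 0 < A → 0 < B → 0 ≤ D →
        ∑ x, u x ^ 2 ≤ A ^ 2 * (1 / (ξ : ℝ) ^ 2) → ∑ x, v x ^ 2 ≤ B ^ 2 * (1 / (ξ : ℝ) ^ 2) →
        (∀ x z, u x ≠ 0 → v z ≠ 0 → D * ξ ≤ sd x z) →
        ∀ t : ℝ, 1 / (ξ : ℝ) ^ 2 ≤ t →
        ∀ (η : H770.Ed N → ℤ) (J : Tor N → ℝ) (τ : ℝ),
          |TM.H104.Cv (H770.wtD N b t η) J (li u) (li v)| ≤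
            Real.exp (H770.TD (H770.wtD N b t) η J / 2) * A * B * (C * Real.exp (-(c * D))) ∧
          ((∀ p ∈ Set.Icc (0 : ℝ) 1, ∀ q ∈ Set.Icc (0 : ℝ) 1,
            H770.TD (H770.wtD N b t) η (J + p • u + q • v) ≤ τ) →
          |Lg (H770.wtD N b t η) (J + u + v) - Lg (H770.wtD N b t η) (J + u) -
              Lg (H770.wtD N b t η) (J + v) + Lg (H770.wtD N b t η) J| ≤
            Real.exp (τ / 2) * A * B * (C * Real.exp (-(c * D)))) := by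
  obtain ⟨W₀, c, C, ys, X, hc, hC, hys, hX, h⟩ := lb4t hb1 b2 a
  refine ⟨W₀, c / 2, C, ys, X, by positivity, hC, hys, hX, ?_⟩
  intro W hW N _ b ξ y hR hN u v A B D hA hB hD hu hv hsup t ht1 η J τ
  have hb : 0 < b := lt_of_lt_of_le hb1 hR.hb1
  have hξ : 0 < ξ := by
    have := hR.hX
    omega
  have hξR : (0 : ℝ) < ξ := by exact_mod_cast hξ
  have ht0 : (0 : ℝ) < 1 / (ξ : ℝ) ^ 2 := by positivity
  have ht : 0 < t := ht0.trans_le ht1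
  have hN' : (N : ℝ) * y ≤ c * ξ := by
    refine hN.trans ?_
    nlinarith
  have hfar := h W hW N b ξ y hR hN' u v A B D hA hB hD hu hv hsup t ht1
  rw [← H770.wtD_zero] at hfar
  have hW' : H770.DisF (H770.wtD N b t) := H770.disF_wtD hb ht
  have hr : 0 ≤ C * Real.exp (-(c * D)) := by positivity
  have hs := sqrt_rate (c := c) (D := D) hC
  refine ⟨?_, fun hτ => ?_⟩
  · refine (hfar.bgD hW' hA.le hB.le hr η J).trans ?_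
    exact mul_le_mul_of_nonneg_left hs (by positivity)
  · refine (hfar.lgD hW' hA.le hB.le hr η J hτ).trans ?_
    exact mul_le_mul_of_nonneg_left hs (by positivity)

end Vale.Agent.P159.H612
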