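import Vale.Agent.P159.H612.Nker1
import Vale.Agent.P159.H612.LocTau

/-!
P159 / second order flow, module NKER (helper612), part 2: the torus. The neutral kernel
`S = t G⁰ + 1/N²` is nonnegative with row sums `1`; the averaged kernel has row sums in `[0,1]`.
-/

namespace Vale.Agent.P159.H612

open Real Finset Filter Topology MeasureTheory Matrix
open Vale.Agent.P159.TM.H104
open Vale.Agent.P159.H37
open Vale.Agent.P159.H963 (GW MF nM Zc GrI Neu pin ntr gw_wT mf_smul Gn Gnh nwt)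
open Vale.Agent.P159.H864 (TI sym tra TInv)
open Vale.Agent.P159.TM.SpecC (Tor wT ms)
open Vale.Agent.P159.TM.H764 (cN sN dt)
open Vale.Agent.P159.T1.H897 (Hol)

set_option linter.unusedSectionVars false

noncomputable section

/-! ### the tangent inequality -/

/-- `log Z` lies above its tangents -/
theorem Lg_tangent {V : Type*} [Fintype V] {μ : (V → ℤ) → ℝ} (hμ : EM μ) (J v : V → ℝ) :
    Lg μ J + Ex μ J (li v) ≤ Lg μ (J + v) := by
  have hd : ∀ s : ℝ, HasDerivAt (fun s : ℝ => Lg μ (J + s • v)) (Ex μ (J + s • v) (li v)) s :=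
    fun s => hasDerivAt_Lg hμ J v s
  have hd2 : ∀ s : ℝ, HasDerivAt (fun s : ℝ => Ex μ (J + s • v) (li v))
      (Cv μ (J + s • v) (li v) (li v)) s := fun s => hasDerivAt_Ex hμ (Gr.li v) J v s
  have hdf : deriv (fun s : ℝ => Lg μ (J + s • v)) = fun s => Ex μ (J + s • v) (li v) :=
    funext fun s => (hd s).deriv
  have hconv : ConvexOn ℝ Set.univ fun s : ℝ => Lg μ (J + s • v) := by
    refine convexOn_univ_of_deriv2_nonneg (fun s => (hd s).differentiableAt) ?_ ?_
    · rw [hdf]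
      exact fun s => (hd2 s).differentiableAt
    · intro s
      have e2 : deriv^[2] (fun s : ℝ => Lg μ (J + s • v)) =
          deriv (deriv fun s : ℝ => Lg μ (J + s • v)) := rfl
      rw [e2, hdf, (hd2 s).deriv]
      exact H864.Cv_self_nonneg hμ (Gr.li v) _
  have h1 := hconv.le_slope_of_hasDerivAt (Set.mem_univ 0) (Set.mem_univ 1) one_pos (hd 0)
  rw [slope_def_field] at h1
  simp only [zero_smul, add_zero, one_smul, sub_zero, div_one] at h1
  linarith

section torus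

variable {N : ℕ} [NeZero N] {b t : ℝ}

/-- the average of the covariances of the constant backgrounds -/
def GA (N : ℕ) [NeZero N] (b t : ℝ) : Matrix (Tor N) (Tor N) ℝ :=
  Gav (wT b N) (t • (1 : Matrix (Tor N) (Tor N) ℝ)) t

lemma const_perm (a : Tor N) (s : ℝ) : (fun _ : Tor N => s) ∘ (tra a) = fun _ => s := rfl

lemma tinv_wt (b t : ℝ) : TInv (wt N b t) :=
  H864.tinv_wM (H864.tinv_wT b) (TI.one.smul t)

lemma ti_Cc (b t s : ℝ) : TI (Cm (wt N b t) fun _ => s) := by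
  refine H864.ti_of_perm (fun a x y => ?_) fun x y => H864.Cm_symm _ x y
  have := H864.Cm_perm (tinv_wt (N := N) b t a) (fun _ => s) x y
  rw [const_perm] at this
  exact this.symm

lemma Cc_nonneg (hb : 0 ≤ b) (ht : 0 < t) (J : Tor N → ℝ) (x y : Tor N) :
    0 ≤ Cm (wt N b t) J x y := by
  unfold Cm
  rw [Matrix.of_apply]
  refine fkg (H789.em_wt hb ht) (hol_wt (N := N) hb _) J (gr_site x) (gr_site y) ?_ ?_ <;>
  · intro h h' hh
    exact Int.cast_le.2 (hh _)

lemma ti_GA (_ : 0 ≤ b) (_ : 0 < t) : TI (GA N b t) := by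
  constructor
  · intro a x y
    unfold GA Gav
    rw [Matrix.of_apply, Matrix.of_apply]
    congr 1
    funext c
    exact (ti_Cc b t (t * c)).tr a x y
  · intro x y
    unfold GA Gav
    rw [Matrix.of_apply, Matrix.of_apply]
    congr 1
    funext c
    exact (ti_Cc b t (t * c)).sy x y

lemma GA_nonneg (hb : 0 ≤ b) (ht : 0 < t) (x y : Tor N) : 0 ≤ GA N b t x y := by
  have hw := gw_wT (N := N) hb
  have hM := mf_smul (N := N) ht
  have h1 := pav_mono hw hM (f := fun _ => 0)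
    (g := fun c => Cm (wM (wT b N) (t • (1 : Matrix (Tor N) (Tor N) ℝ))) (fun _ => t * c) x y)
    continuous_const (cont_Cmc hw hM x y) fun c => Cc_nonneg hb ht _ x y
  rw [pav_const hw hM] at h1
  exact h1

/-- the means of neutral functions vanish in constant backgrounds -/
lemma Ex_const_neu (hb : 0 ≤ b) (ht : 0 < t) (s : ℝ) {u : Tor N → ℝ} (hu : Neu u) :
    Ex (wt N b t) (fun _ => s) (li u) = 0 := by
  have hE := H789.em_wt (N := N) hb ht
  have h1 : ∀ x : Tor N, mn (wt N b t) (fun _ => s) x = mn (wt N b t) (fun _ => s) 0 := by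
    intro x
    have h2 := H864.mn_perm (tinv_wt (N := N) b t x) (fun _ => s) 0
    rw [const_perm, H864.tra_apply, zero_add] at h2
    exact h2.symm
  have h3 : Ex (wt N b t) (fun _ => s) (li u) = ∑ x, u x * mn (wt N b t) (fun _ => s) x := by
    have e : (li u : (Tor N → ℤ) → ℝ) = fun h => ∑ x, u x * (h x : ℝ) := rfl
    rw [e, H864.Ex_sum hE _ fun x _ => (gr_site x).cmul (u x)]
    refine Finset.sum_congr rfl fun x _ => ?_
    rw [Ex_cmul]
    rfl
  rw [h3]
  simp only [h1]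
  rw [← Finset.sum_mul, hu, zero_mul]

/-- **(NK1) on the torus** -/
theorem qf_nwt_eq (hb : 0 ≤ b) (ht : 0 < t) {u : Tor N → ℝ} (hu : Neu u) :
    qf (Gm (nwt N b t 0)) u = qf (GA N b t) u :=
  qf_nM_eq (gw_wT hb) (mf_smul ht) 0 hu fun c => Ex_const_neu hb ht (t * c) hu

/-- the symbol of the average is the neutral symbol -/
theorem sym_GA (hb : 0 ≤ b) (ht : 0 < t) {k : Tor N} (hk : k ≠ 0) :
    sym (GA N b t) k = Gnh N b t k := by
  have h1 := H864.qf_wave (ti_GA (N := N) hb ht) k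
  have h2 := H963.qf_Gnh_wave (N := N) hb ht hk
  rw [← qf_nwt_eq hb ht (H963.neu_cN hk), ← qf_nwt_eq hb ht (H963.neu_sN k), ← h2] at h1
  exact (mul_left_cancel₀ H864.N_pos.ne' h1).symm

/-! ### row sums -/

/-- the derivative of `log Z(c)` -/
def ph1 (N : ℕ) [NeZero N] (b t c : ℝ) : ℝ :=
  -(t * (N : ℝ) ^ 2 * c) + Ex (wt N b t) (fun _ => t * c) (li fun _ => t)

/-- the second derivative of `log Z(c)` -/
def ph2 (N : ℕ) [NeZero N] (b t c : ℝ) : ℝ :=
  -(t * (N : ℝ) ^ 2) + Cv (wt N b t) (fun _ => t * c) (li fun _ => t) (li fun _ => t)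

/-- `Z` in the constant background `c` -/
def ZC (N : ℕ) [NeZero N] (b t c : ℝ) : ℝ :=
  Zc (wT b N) (t • (1 : Matrix (Tor N) (Tor N) ℝ)) t 0 c

lemma card_tor : (Fintype.card (Tor N) : ℝ) = (N : ℝ) ^ 2 := by
  have : Fintype.card (Tor N) = N * N := by
    unfold Tor
    rw [Fintype.card_prod, ZMod.card]
  rw [this]
  push_cast
  ring

lemma src_eq (c : ℝ) : (fun _ : Tor N => t * c) = (0 : Tor N → ℝ) + c • fun _ => t := by
  funext x
  simp [mul_comm]

lemma ZC_eq (c : ℝ) : ZC N b t c =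
    Real.exp (-(t * (N : ℝ) ^ 2 / 2 * c ^ 2)) * Zs (wt N b t) (fun _ => t * c) := by
  unfold ZC Zc
  rw [card_tor, zero_add]
  rfl

lemma ZC_pos (hb : 0 ≤ b) (ht : 0 < t) (c : ℝ) : 0 < ZC N b t c :=
  Zc_pos (gw_wT hb) (mf_smul ht) c

lemma log_ZC (hb : 0 ≤ b) (ht : 0 < t) (c : ℝ) : Real.log (ZC N b t c) =
    -(t * (N : ℝ) ^ 2 / 2 * c ^ 2) + Lg (wt N b t) (fun _ => t * c) := by
  have hE := H789.em_wt (N := N) hb ht
  rw [ZC_eq, Real.log_mul (Real.exp_pos _).ne' (Zs_pos hE _).ne', Real.log_exp]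
  rfl

lemma hasDerivAt_log_ZC (hb : 0 ≤ b) (ht : 0 < t) (c : ℝ) :
    HasDerivAt (fun c => Real.log (ZC N b t c)) (ph1 N b t c) c := by
  have hE := H789.em_wt (N := N) hb ht
  have e : (fun c => Real.log (ZC N b t c)) = fun c : ℝ => -(t * (N : ℝ) ^ 2 / 2 * c ^ 2) +
      Lg (wt N b t) ((0 : Tor N → ℝ) + c • fun _ => t) := by
    funext c
    rw [log_ZC hb ht, src_eq]
  rw [e]
  have h1 := hasDerivAt_Lg hE (0 : Tor N → ℝ) (fun _ => t) c
  have h2 : HasDerivAt (fun c : ℝ => -(t * (N : ℝ) ^ 2 / 2 * c ^ 2)) (-(t * (N : ℝ) ^ 2 * c)) c := by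
    have h3 := (((hasDerivAt_id c).pow 2).const_mul (t * (N : ℝ) ^ 2 / 2)).neg
    refine h3.congr_deriv ?_
    simp only [id_eq, Nat.cast_ofNat]
    ring
  refine (h2.add h1).congr_deriv ?_
  unfold ph1
  rw [src_eq]

lemma hasDerivAt_ph1 (hb : 0 ≤ b) (ht : 0 < t) (c : ℝ) :
    HasDerivAt (ph1 N b t) (ph2 N b t c) c := by
  have hE := H789.em_wt (N := N) hb ht
  have e : ph1 N b t = fun c : ℝ => -(t * (N : ℝ) ^ 2 * c) +
      Ex (wt N b t) ((0 : Tor N → ℝ) + c • fun _ => t) (li fun _ => t) := by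
    funext c
    unfold ph1
    rw [src_eq]
  rw [e]
  have h1 := hasDerivAt_Ex hE (Gr.li fun _ : Tor N => t) (0 : Tor N → ℝ) (fun _ => t) c
  have h2 : HasDerivAt (fun c : ℝ => -(t * (N : ℝ) ^ 2 * c)) (-(t * (N : ℝ) ^ 2)) c := by
    have h3 := ((hasDerivAt_id c).const_mul (t * (N : ℝ) ^ 2)).neg
    refine h3.congr_deriv ?_
    ring
  refine (h2.add h1).congr_deriv ?_
  unfold ph2
  rw [src_eq]

lemma hasDerivAt_ZC (hb : 0 ≤ b) (ht : 0 < t) (c : ℝ) :
    HasDerivAt (ZC N b t) (ZC N b t c * ph1 N b t c) c := by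
  have h1 := (hasDerivAt_log_ZC (N := N) hb ht c).exp
  have e : (fun c => Real.exp (Real.log (ZC N b t c))) = ZC N b t := by
    funext c
    exact Real.exp_log (ZC_pos hb ht c)
  rw [e, Real.exp_log (ZC_pos hb ht c)] at h1
  exact h1

lemma ZC_per (hb : 0 ≤ b) (ht : 0 < t) : Function.Periodic (ZC N b t) 1 := by
  have hw := gw_wT (N := N) hb
  have hM := mf_smul (N := N) ht
  exact H963.Zc_per hw.grd hM.symm hM.row (J := (0 : Tor N → ℝ)) (by
    unfold Neu
    simp)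

lemma cont_ph1 (hb : 0 ≤ b) (ht : 0 < t) : Continuous (ph1 N b t) :=
  continuous_iff_continuousAt.2 fun c => (hasDerivAt_ph1 (N := N) hb ht c).continuousAt

lemma cont_ph2 (hb : 0 ≤ b) (ht : 0 < t) : Continuous (ph2 N b t) := by
  unfold ph2
  exact continuous_const.add (cont_Cvc (gw_wT (N := N) hb) (mf_smul (N := N) ht) (Gr.li _) (Gr.li _))

lemma cont_ZC (hb : 0 ≤ b) (ht : 0 < t) : Continuous (ZC N b t) :=
  Zc_cont (gw_wT hb) (mf_smul ht)

/-- the average on the torus -/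
def pv (N : ℕ) [NeZero N] (b t : ℝ) (f : ℝ → ℝ) : ℝ :=
  pav (wT b N) (t • (1 : Matrix (Tor N) (Tor N) ℝ)) t f

/-- `∫ p φ'' = - ∫ p φ'²` -/
theorem pv_ph2 (hb : 0 ≤ b) (ht : 0 < t) :
    pv N b t (ph2 N b t) = -pv N b t fun c => ph1 N b t c ^ 2 := by
  have hw := gw_wT (N := N) hb
  have hM := mf_smul (N := N) ht
  have hZ := cont_ZC (N := N) hb ht
  have h1c := cont_ph1 (N := N) hb ht
  have h2c := cont_ph2 (N := N) hb ht
  have hd : ∀ c : ℝ, HasDerivAt (fun c => ZC N b t c * ph1 N b t c)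
      (ZC N b t c * ph2 N b t c + ZC N b t c * ph1 N b t c ^ 2) c := by
    intro c
    refine ((hasDerivAt_ZC (N := N) hb ht c).mul (hasDerivAt_ph1 (N := N) hb ht c)).congr_deriv ?_
    ring
  have hper : ZC N b t 1 * ph1 N b t 1 = ZC N b t 0 * ph1 N b t 0 := by
    have h1 := hasDerivAt_ZC (N := N) hb ht (0 + 1)
    have h2 := h1.comp_add_const 0 1
    have e : (fun c => ZC N b t (c + 1)) = ZC N b t := funext fun c => ZC_per hb ht c
    rw [e, zero_add] at h2
    exact h2.unique (hasDerivAt_ZC (N := N) hb ht 0)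
  have hi := intervalIntegral.integral_eq_sub_of_hasDerivAt (a := 0) (b := 1)
    (f := fun c => ZC N b t c * ph1 N b t c)
    (f' := fun c => ZC N b t c * ph2 N b t c + ZC N b t c * ph1 N b t c ^ 2)
    (fun c _ => hd c)
    (((hZ.mul h2c).add (hZ.mul (h1c.pow 2))).intervalIntegrable 0 1)
  rw [hper, sub_self] at hi
  have hs := intervalIntegral.integral_add (μ := volume) (a := 0) (b := 1)
    (f := fun c => ZC N b t c * ph2 N b t c) (g := fun c => ZC N b t c * ph1 N b t c ^ 2)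
    ((hZ.mul h2c).intervalIntegrable 0 1) ((hZ.mul (h1c.pow 2)).intervalIntegrable 0 1)
  rw [hs] at hi
  have h3 : (∫ c in (0 : ℝ)..1, ZC N b t c * ph2 N b t c) =
      -∫ c in (0 : ℝ)..1, ZC N b t c * ph1 N b t c ^ 2 := by linarith
  unfold pv pav
  have h3' : (∫ c in (0 : ℝ)..1, Zc (wT b N) (t • (1 : Matrix (Tor N) (Tor N) ℝ)) t 0 c *
      ph2 N b t c) = -∫ c in (0 : ℝ)..1, Zc (wT b N) (t • (1 : Matrix (Tor N) (Tor N) ℝ)) t 0 c *
        ph1 N b t c ^ 2 := h3
  rw [h3', neg_div]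

/-- **row sums of the average** -/
theorem row_GA (hb : 0 ≤ b) (ht : 0 < t) :
    t * ∑ z, GA N b t 0 z = 1 - (pv N b t fun c => ph1 N b t c ^ 2) / (t * (N : ℝ) ^ 2) := by
  have hw := gw_wT (N := N) hb
  have hM := mf_smul (N := N) ht
  have hE := H789.em_wt (N := N) hb ht
  have hN := H864.N_pos (N := N)
  have h1 : qf (GA N b t) (fun _ => t) = pv N b t fun c =>
      Cv (wt N b t) (fun _ => t * c) (li fun _ => t) (li fun _ => t) := by
    unfold GA pv
    rw [qf_Gav hw hM]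
    congr 1
    funext c
    exact H789.qf_Cm hE _ _
  have h2 : qf (GA N b t) (fun _ => t) = t ^ 2 * ((N : ℝ) ^ 2 * ∑ z, GA N b t 0 z) := by
    unfold qf
    have e : ∀ x : Tor N, ∑ y, t * GA N b t x y * t = t ^ 2 * ∑ z, GA N b t 0 z := by
      intro x
      rw [Finset.mul_sum, ← Equiv.sum_comp (Equiv.addLeft x)]
      refine Finset.sum_congr rfl fun z _ => ?_
      rw [Equiv.coe_addLeft, (ti_GA hb ht).eq x (x + z), add_sub_cancel_left]
      ring
    simp only [e]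
    rw [Finset.sum_const, Finset.card_univ, nsmul_eq_mul, card_tor]
    ring
  have h3 : pv N b t (ph2 N b t) = -(t * (N : ℝ) ^ 2) + pv N b t fun c =>
      Cv (wt N b t) (fun _ => t * c) (li fun _ => t) (li fun _ => t) := by
    have h4 := pav_add hw hM (f := fun _ => -(t * (N : ℝ) ^ 2))
      (g := fun c => Cv (wt N b t) (fun _ => t * c) (li fun _ => t) (li fun _ => t))
      continuous_const (cont_Cvc hw hM (Gr.li _) (Gr.li _))
    rw [pav_const hw hM] at h4
    exact h4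
  rw [pv_ph2 hb ht, ← h1, h2] at h3
  have h6 : (pv N b t fun c => ph1 N b t c ^ 2) =
      t * (N : ℝ) ^ 2 - t ^ 2 * ((N : ℝ) ^ 2 * ∑ z, GA N b t 0 z) := by linarith
  have hNne : (N : ℝ) ≠ 0 := Nat.cast_ne_zero.2 (NeZero.ne N)
  rw [h6]
  field_simp
  ring

/-- Landau inequality for `log Z(c)` -/
theorem ph1_sq_le (hb : 0 ≤ b) (ht : 0 < t) {δ : ℝ}
    (hδ : ∀ c d : ℝ, Real.log (ZC N b t c) - Real.log (ZC N b t d) ≤ δ) (c : ℝ) :
    ph1 N b t c ^ 2 ≤ 2 * (t * (N : ℝ) ^ 2) * δ := by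
  have hE := H789.em_wt (N := N) hb ht
  have hN := H864.N_pos (N := N)
  have hA : 0 < t * (N : ℝ) ^ 2 := by positivity
  set A := t * (N : ℝ) ^ 2 with hAd
  set p := ph1 N b t c with hp
  have h1 := Lg_tangent hE (fun _ => t * c) ((p / A) • fun _ : Tor N => t)
  have e1 : Ex (wt N b t) (fun _ => t * c) (li ((p / A) • fun _ : Tor N => t)) =
      p / A * Ex (wt N b t) (fun _ => t * c) (li fun _ => t) := H770.Ex_li_smul _ _ _ _
  have e2 : (fun _ : Tor N => t * c) + ((p / A) • fun _ : Tor N => t) =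
      fun _ => t * (c + p / A) := by
    funext x
    simp only [Pi.add_apply, Pi.smul_apply, smul_eq_mul]
    ring
  rw [e1, e2] at h1
  have h2 := hδ (c + p / A) c
  rw [log_ZC hb ht, log_ZC hb ht, ← hAd] at h2
  have e3 : Ex (wt N b t) (fun _ => t * c) (li fun _ => t) = p + A * c := by
    rw [hp]
    unfold ph1
    rw [← hAd]
    ring
  rw [e3] at h1
  have h3 : p / A * p - A / 2 * (p / A) ^ 2 ≤ δ := by
    have e4 : -(A / 2 * (c + p / A) ^ 2) = -(A / 2 * c ^ 2) - A * c * (p / A) -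
      A / 2 * (p / A) ^ 2 := by ring
    rw [e4] at h2
    linarith
  have h4 : p / A * p - A / 2 * (p / A) ^ 2 = p ^ 2 / (2 * A) := by
    field_simp
    ring
  rw [h4, div_le_iff₀ (by positivity)] at h3
  linarith

/-- **row sums of the average are close to one** -/
theorem row_GA_bounds (hb : 0 ≤ b) (ht : 0 < t) {δ : ℝ}
    (hδ : ∀ c d : ℝ, Real.log (ZC N b t c) - Real.log (ZC N b t d) ≤ δ) :
    1 - 2 * δ ≤ t * ∑ z, GA N b t 0 z ∧ t * ∑ z, GA N b t 0 z ≤ 1 := by
  have hw := gw_wT (N := N) hb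
  have hM := mf_smul (N := N) ht
  have hN := H864.N_pos (N := N)
  have hA : 0 < t * (N : ℝ) ^ 2 := by positivity
  have h1c := cont_ph1 (N := N) hb ht
  rw [row_GA hb ht]
  have h1 : 0 ≤ pv N b t fun c => ph1 N b t c ^ 2 := by
    have := pav_mono hw hM (f := fun _ => 0) (g := fun c => ph1 N b t c ^ 2) continuous_const
      (h1c.pow 2) fun c => sq_nonneg _
    rw [pav_const hw hM] at this
    exact this
  have h2 : (pv N b t fun c => ph1 N b t c ^ 2) ≤ 2 * (t * (N : ℝ) ^ 2) * δ := by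
    have := pav_mono hw hM (f := fun c => ph1 N b t c ^ 2)
      (g := fun _ => 2 * (t * (N : ℝ) ^ 2) * δ) (h1c.pow 2) continuous_const
      fun c => ph1_sq_le hb ht hδ c
    rw [pav_const hw hM] at this
    exact this
  constructor
  · have h3 : (pv N b t fun c => ph1 N b t c ^ 2) / (t * (N : ℝ) ^ 2) ≤ 2 * δ := by
      rw [div_le_iff₀ hA]
      linarith
    linarith
  · have h3 : 0 ≤ (pv N b t fun c => ph1 N b t c ^ 2) / (t * (N : ℝ) ^ 2) :=
      div_nonneg h1 hA.le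
    linarith

end torus

end

end Vale.Agent.P159.H612
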