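import Vale.Agent.P159.H612.Nker2
import Vale.Agent.P159.TM.H265.Dec

/-!
P159 / second order flow, module NKER (helper612), part 3: exponential moments of the neutral
kernel at real masses; the kernel `S = t G⁰ + 1/N²`.
-/

namespace Vale.Agent.P159.H612

open Real Finset Filter Topology MeasureTheory Matrix
open Vale.Agent.P159.TM.H104
open Vale.Agent.P159.H37
open Vale.Agent.P159.H145 (LM L0 OscZ cs)
open Vale.Agent.P159.H963 (GW MF nM Zc GrI Neu pin ntr gw_wT mf_smul Gn Gnh nwt)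
open Vale.Agent.P159.H864 (TI sym tra TInv)
open Vale.Agent.P159.TM.SpecC (Tor wT ms)
open Vale.Agent.P159.TM.H764 (cN sN dt)
open Vale.Agent.P159.TM.H459 (sn sd ball mem_ball sn_add_le sn_neg)

set_option linter.unusedSectionVars false

noncomputable section

variable {N : ℕ} [NeZero N] {b t : ℝ}

/-- oscillation of `log Z(c)` from `OscZ` -/
theorem osc_ZC (hb : 0 ≤ b) (ht : 0 < t) {ω : ℝ}
    (hO : OscZ (wT b N) (t • (1 : Matrix (Tor N) (Tor N) ℝ)) ω) (hω : ω ≤ 1 / 2) (c d : ℝ) :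
    Real.log (ZC N b t c) - Real.log (ZC N b t d) ≤ 4 * ω := by
  have hE := H789.em_wt (N := N) hb ht
  have hM : (t • (1 : Matrix (Tor N) (Tor N) ℝ)).transpose = t • 1 := by
    rw [Matrix.transpose_smul, Matrix.transpose_one]
  have hper : H145.Per (wT b N) := by
    have := per_wTD (N := N) (b := b) 0
    rwa [H770.wTD_zero] at this
  have key : ∀ c : ℝ, Real.log (ZC N b t c) = LM (wT b N) (t • 1) (cs (0 : Tor N → ℝ) c) := by
    intro c
    rw [log_ZC hb ht, H145.LM_eq hM hE]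
    have e1 : (t • (1 : Matrix (Tor N) (Tor N) ℝ)).mulVec (cs (0 : Tor N → ℝ) c) =
        fun _ => t * c := by
      rw [mulVec_one_smul]
      funext x
      simp [cs]
    have e2 : qf (t • (1 : Matrix (Tor N) (Tor N) ℝ)) (cs (0 : Tor N → ℝ) c) =
        t * (N : ℝ) ^ 2 * c ^ 2 := by
      rw [qf_smul_one]
      have e3 : ∀ x : Tor N, cs (0 : Tor N → ℝ) c x ^ 2 = c ^ 2 := fun x => by simp [cs]
      simp only [e3]
      rw [Finset.sum_const, Finset.card_univ, nsmul_eq_mul, card_tor]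
      ring
    rw [e1, e2]
    have e4 : wM (wT b N) (t • (1 : Matrix (Tor N) (Tor N) ℝ)) = wt N b t := rfl
    rw [e4]
    ring
  have h1 := abs_le.1 (H145.LM_sub_L0 hper hM hE hO hω (0 : Tor N → ℝ) c)
  have h2 := abs_le.1 (H145.LM_sub_L0 hper hM hE hO hω (0 : Tor N → ℝ) d)
  rw [key, key]
  linarith [h1.1, h1.2, h2.1, h2.2]

/-- `T` in a constant background -/
theorem Tq_const_le (hb : 0 ≤ b) (ht : 0 < t) {δ : ℝ}
    (hδ : ∀ c d : ℝ, Real.log (ZC N b t c) - Real.log (ZC N b t d) ≤ δ) (c : ℝ) :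
    Tq (wt N b t) (fun _ => t * c) ≤ 4 * δ := by
  have e0 : ((2 : ℝ) • fun _ : Tor N => t * c) = fun _ => t * (2 * c) := by
    funext x
    simp only [Pi.smul_apply, smul_eq_mul]
    ring
  have e1 : (0 : Tor N → ℝ) = fun _ => t * 0 := by
    funext x
    simp
  unfold Tq
  rw [e0, e1]
  have h1 := log_ZC (N := N) hb ht (2 * c)
  have h2 := log_ZC (N := N) hb ht c
  have h3 := log_ZC (N := N) hb ht 0
  have d1 := hδ (2 * c) c
  have d2 := hδ 0 c
  have e2 : -(t * (N : ℝ) ^ 2 / 2 * (2 * c) ^ 2) = 4 * -(t * (N : ℝ) ^ 2 / 2 * c ^ 2) := by ring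
  have e3 : -(t * (N : ℝ) ^ 2 / 2 * (0 : ℝ) ^ 2) = 0 := by ring
  rw [e2] at h1
  rw [e3] at h3
  linarith

/-- an annulus -/
def ann (N : ℕ) [NeZero N] (r s : ℕ) : Finset (Tor N) := univ.filter fun z => r ≤ sn z ∧ sn z < s

lemma mem_ann {r s : ℕ} {z : Tor N} : z ∈ ann N r s ↔ r ≤ sn z ∧ sn z < s := by
  simp [ann]

/-- the indicator of a finite set -/
def ind1 (S : Finset (Tor N)) (x : Tor N) : ℝ := if x ∈ S then 1 else 0

lemma sum_ind1_sq (S : Finset (Tor N)) : ∑ x, ind1 S x ^ 2 = S.card := by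
  unfold ind1
  simp

/-- mass of a translation invariant kernel in an annulus -/
theorem ann_le {A : Matrix (Tor N) (Tor N) ℝ} (hA : TI A) (h0 : ∀ x y, 0 ≤ A x y) {ξ r s : ℕ} :
    ((ball (0 : Tor N) ξ).card : ℝ) * ∑ w ∈ ann N (r + ξ) s, A 0 w ≤
      bf A (ind1 (ball (0 : Tor N) ξ)) (ind1 (ann N r (s + ξ))) := by
  classical
  have h1 : bf A (ind1 (ball (0 : Tor N) ξ)) (ind1 (ann N r (s + ξ))) =
      ∑ x ∈ ball (0 : Tor N) ξ, ∑ z ∈ ann N r (s + ξ), A x z := by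
    unfold bf ind1
    have h2 : ∀ x : Tor N, ∑ z, (if x ∈ ball (0 : Tor N) ξ then (1 : ℝ) else 0) * A x z *
        (if z ∈ ann N r (s + ξ) then 1 else 0) =
        if x ∈ ball (0 : Tor N) ξ then ∑ z ∈ ann N r (s + ξ), A x z else 0 := by
      intro x
      split_ifs
      · simp only [one_mul, mul_ite, mul_one, mul_zero]
        rw [← Finset.sum_filter]
        congr 1
        ext z
        simp
      · simp
    simp only [h2]
    rw [← Finset.sum_filter]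
    congr 1
    ext x
    simp
  rw [h1, ← nsmul_eq_mul, ← Finset.sum_const]
  refine Finset.sum_le_sum fun x hx => ?_
  have hx' : sn x ≤ ξ := by
    have := mem_ball.1 hx
    unfold sd at this
    rwa [sub_zero] at this
  have h3 : ∑ w ∈ ann N (r + ξ) s, A 0 w =
      ∑ z ∈ (ann N (r + ξ) s).map (Equiv.addLeft x).toEmbedding, A x z := by
    rw [Finset.sum_map]
    refine Finset.sum_congr rfl fun w _ => ?_
    simp only [Equiv.coe_toEmbedding, Equiv.coe_addLeft]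
    rw [hA.eq x (x + w), add_sub_cancel_left]
  rw [h3]
  refine Finset.sum_le_sum_of_subset_of_nonneg ?_ fun z _ _ => h0 x z
  intro z hz
  rw [Finset.mem_map] at hz
  obtain ⟨w, hw, rfl⟩ := hz
  simp only [Equiv.coe_toEmbedding, Equiv.coe_addLeft]
  rw [mem_ann] at hw ⊢
  have k1 := sn_add_le x w
  have k2 := sn_add_le (x + w) (-x)
  have e : x + w + -x = w := by abel
  rw [e, sn_neg] at k2
  omega

lemma card_ann_le (r s : ℕ) : ((ann N r s).card : ℝ) ≤ (2 * s + 1 : ℝ) ^ 2 := by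
  have h1 : ann N r s ⊆ ball (0 : Tor N) s := by
    intro z hz
    rw [mem_ann] at hz
    rw [mem_ball]
    unfold sd
    rw [sub_zero]
    omega
  have h2 := (Finset.card_le_card h1).trans (TM.H459.card_ball_le (0 : Tor N) s)
  calc ((ann N r s).card : ℝ) ≤ (((2 * s + 1) ^ 2 : ℕ) : ℝ) := by exact_mod_cast h2
    _ = _ := by push_cast; ring

/-- mass of the covariance kernel of the background `J` in the annulus of radii `k ξ` -/
theorem ann_cov {J : Tor N → ℝ} (hb : 0 ≤ b) (ht : 0 < t) (hT : TI (Cm (wt N b t) J))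
    {ξ : ℕ} (hξ : 0 < ξ) (h2 : 2 * ξ ≤ N) {c C τ : ℝ} (hC : 0 ≤ C) (hτ : Tq (wt N b t) J ≤ τ)
    (hfar : ∀ (u v : Tor N → ℝ) (A B D : ℝ), 0 < A → 0 < B → 0 ≤ D →
        ∑ x, u x ^ 2 ≤ A ^ 2 * (1 / (ξ : ℝ) ^ 2) → ∑ x, v x ^ 2 ≤ B ^ 2 * (1 / (ξ : ℝ) ^ 2) →
        (∀ x z, u x ≠ 0 → v z ≠ 0 → D * ξ ≤ sd x z) →
        Far (wt N b t) u v A B (C * Real.exp (-(c * D)))) (k : ℕ) :
    ∑ w ∈ ann N ((k + 3) * ξ) ((k + 4) * ξ), Cm (wt N b t) J 0 w ≤
      Real.exp (τ / 2) * (3 * (k + 5)) * C * Real.exp (-(c * (k + 1))) * (ξ : ℝ) ^ 2 := by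
  have hE := H789.em_wt (N := N) hb ht
  have hξR : (0 : ℝ) < ξ := by exact_mod_cast hξ
  have hξ1 : (1 : ℝ) ≤ ξ := by exact_mod_cast hξ
  set Q := ball (0 : Tor N) ξ with hQ
  set R := ann N ((k + 2) * ξ) ((k + 4) * ξ + ξ) with hR
  have hQc : (ξ : ℝ) ^ 2 ≤ Q.card := by
    have := TM.H265.card_ball_ge (N := N) h2 0
    exact_mod_cast this
  have hQ0 : (0 : ℝ) < Q.card := by
    have : (0 : ℝ) < (ξ : ℝ) ^ 2 := by positivity
    linarith
  have h1 := ann_le (N := N) hT (Cc_nonneg hb ht J) (ξ := ξ) (r := (k + 2) * ξ)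
    (s := (k + 4) * ξ)
  have e1 : (k + 2) * ξ + ξ = (k + 3) * ξ := by ring
  rw [e1] at h1
  have hRc : (R.card : ℝ) ≤ (3 * (k + 5) * ξ) ^ 2 := by
    refine (card_ann_le _ _).trans ?_
    have e2 : (2 * (((k + 4) * ξ + ξ : ℕ) : ℝ) + 1) ≤ 3 * (k + 5) * ξ := by
      push_cast
      nlinarith [hξ1, (Nat.cast_nonneg k : (0 : ℝ) ≤ k)]
    exact pow_le_pow_left₀ (by positivity) e2 2
  set A := (ξ : ℝ) * √(Q.card : ℝ) with hA
  set B := (ξ : ℝ) * (3 * (k + 5) * ξ) with hB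
  have hA0 : 0 < A := by positivity
  have hB0 : 0 < B := by positivity
  have hu : ∑ x, ind1 Q x ^ 2 ≤ A ^ 2 * (1 / (ξ : ℝ) ^ 2) := by
    rw [sum_ind1_sq, hA, mul_pow, Real.sq_sqrt hQ0.le]
    refine le_of_eq ?_
    field_simp
  have hv : ∑ x, ind1 R x ^ 2 ≤ B ^ 2 * (1 / (ξ : ℝ) ^ 2) := by
    rw [sum_ind1_sq, hB, mul_pow]
    refine hRc.trans (le_of_eq ?_)
    field_simp
  have hD : ∀ x z, ind1 Q x ≠ 0 → ind1 R z ≠ 0 → ((k : ℝ) + 1) * ξ ≤ sd x z := by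
    intro x z hx hz
    have hx' : x ∈ Q := by
      by_contra h
      exact hx (by unfold ind1; rw [if_neg h])
    have hz' : z ∈ R := by
      by_contra h
      exact hz (by unfold ind1; rw [if_neg h])
    rw [hQ, mem_ball] at hx'
    rw [hR, mem_ann] at hz'
    unfold sd at hx' ⊢
    rw [sub_zero] at hx'
    have k1 := sn_add_le (z - x) x
    rw [sub_add_cancel] at k1
    have k2 : (k + 1) * ξ ≤ sn (z - x) := by
      have e3 : (k + 2) * ξ = (k + 1) * ξ + ξ := by ring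
      omega
    exact_mod_cast k2
  have hf := (hfar _ _ A B ((k : ℝ) + 1) hA0 hB0 (by positivity) hu hv hD).bg J
  rw [← H789.bf_Cm hE] at hf
  have h3 := h1.trans ((le_abs_self _).trans hf)
  have hS : √(Q.card : ℝ) ^ 2 = Q.card := Real.sq_sqrt hQ0.le
  have hs1 : (ξ : ℝ) ≤ √(Q.card : ℝ) := Real.le_sqrt_of_sq_le hQc
  have hs0 : 0 < √(Q.card : ℝ) := by positivity
  -- divide by the square root of the cardinality
  set S := ∑ w ∈ ann N ((k + 3) * ξ) ((k + 4) * ξ), Cm (wt N b t) J 0 w with hSd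
  have hS0 : 0 ≤ S := Finset.sum_nonneg fun w _ => Cc_nonneg hb ht J 0 w
  have hexp : Real.exp (Tq (wt N b t) J / 2) ≤ Real.exp (τ / 2) :=
    Real.exp_le_exp.2 (by linarith)
  have h4 : (Q.card : ℝ) * S ≤ Real.exp (τ / 2) * A * B * (C * Real.exp (-(c * (k + 1)))) := by
    refine h3.trans ?_
    gcongr
  have h5 : √(Q.card : ℝ) * (√(Q.card : ℝ) * S) ≤ √(Q.card : ℝ) *
      (Real.exp (τ / 2) * ξ * B * (C * Real.exp (-(c * (k + 1))))) := by
    have e4 : √(Q.card : ℝ) * (√(Q.card : ℝ) * S) = (Q.card : ℝ) * S := by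
      rw [← mul_assoc, ← pow_two, hS]
    rw [e4]
    refine h4.trans (le_of_eq ?_)
    rw [hA]
    ring
  have h6 := le_of_mul_le_mul_left h5 hs0
  have h7 : (ξ : ℝ) * S ≤ √(Q.card : ℝ) * S := mul_le_mul_of_nonneg_right hs1 hS0
  have h8 : (ξ : ℝ) * S ≤ ξ * (Real.exp (τ / 2) * B * (C * Real.exp (-(c * (k + 1))))) := by
    refine (h7.trans h6).trans (le_of_eq ?_)
    ring
  have h9 := le_of_mul_le_mul_left h8 hξR
  refine h9.trans (le_of_eq ?_)
  rw [hB]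
  ring

/-! ### the average -/

lemma pv_Cm_sum (hb : 0 ≤ b) (ht : 0 < t) (S : Finset (Tor N)) (x : Tor N) :
    ∑ w ∈ S, GA N b t x w = pv N b t fun c => ∑ w ∈ S, Cm (wt N b t) (fun _ => t * c) x w := by
  have hw := gw_wT (N := N) hb
  have hM := mf_smul (N := N) ht
  exact (pav_sum hw hM S (f := fun y (c : ℝ) => Cm (wt N b t) (fun _ => t * c) x y)
    fun y _ => cont_Cmc hw hM x y).symm

lemma ann_GA (hb : 0 ≤ b) (ht : 0 < t) {ξ : ℕ} (hξ : 0 < ξ) (h2 : 2 * ξ ≤ N) {c C δ : ℝ}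
    (hC : 0 ≤ C) (hδ : ∀ c d : ℝ, Real.log (ZC N b t c) - Real.log (ZC N b t d) ≤ δ)
    (hfar : ∀ (u v : Tor N → ℝ) (A B D : ℝ), 0 < A → 0 < B → 0 ≤ D →
        ∑ x, u x ^ 2 ≤ A ^ 2 * (1 / (ξ : ℝ) ^ 2) → ∑ x, v x ^ 2 ≤ B ^ 2 * (1 / (ξ : ℝ) ^ 2) →
        (∀ x z, u x ≠ 0 → v z ≠ 0 → D * ξ ≤ sd x z) →
        Far (wt N b t) u v A B (C * Real.exp (-(c * D)))) (k : ℕ) :
    ∑ w ∈ ann N ((k + 3) * ξ) ((k + 4) * ξ), GA N b t 0 w ≤
      Real.exp (2 * δ) * (3 * (k + 5)) * C * Real.exp (-(c * (k + 1))) * (ξ : ℝ) ^ 2 := by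
  have hw := gw_wT (N := N) hb
  have hM := mf_smul (N := N) ht
  rw [pv_Cm_sum hb ht]
  have h1 := pav_mono hw hM (f := fun c => ∑ w ∈ ann N ((k + 3) * ξ) ((k + 4) * ξ),
    Cm (wt N b t) (fun _ => t * c) 0 w)
    (g := fun _ => Real.exp (2 * δ) * (3 * (k + 5)) * C * Real.exp (-(c * (k + 1))) *
      (ξ : ℝ) ^ 2)
    (continuous_finsetSum _ fun y _ => cont_Cmc hw hM 0 y) continuous_const fun s => by
      have h2 := ann_cov hb ht (ti_Cc b t (t * s)) hξ h2 hC (Tq_const_le hb ht hδ s) hfar k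
      have e : 4 * δ / 2 = 2 * δ := by ring
      rwa [e] at h2
  rw [pav_const hw hM] at h1
  exact h1

lemma sn_le_N (z : Tor N) : sn z ≤ N := by
  unfold sn
  have h1 := ZMod.natAbs_valMinAbs_le z.1
  have h2 := ZMod.natAbs_valMinAbs_le z.2
  omega

/-- summation over the annuli -/
theorem sum_ann_le {f : Tor N → ℝ} (hf : ∀ z, 0 ≤ f z) {ξ : ℕ} (hξ : 0 < ξ) :
    ∑ z, f z ≤ ∑ z ∈ univ.filter (fun z => sn z < 3 * ξ), f z +
      ∑ k ∈ range (N + 1), ∑ z ∈ ann N ((k + 3) * ξ) ((k + 4) * ξ), f z := by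
  classical
  have e2 : ∀ k, ∑ z ∈ ann N ((k + 3) * ξ) ((k + 4) * ξ), f z =
      ∑ z, if z ∈ ann N ((k + 3) * ξ) ((k + 4) * ξ) then f z else 0 := by
    intro k
    rw [← Finset.sum_filter]
    congr 1
    ext z
    simp
  rw [Finset.sum_filter]
  simp only [e2]
  rw [Finset.sum_comm, ← Finset.sum_add_distrib]
  refine Finset.sum_le_sum fun z _ => ?_
  by_cases hz : sn z < 3 * ξ
  · rw [if_pos hz]
    have : 0 ≤ ∑ k ∈ range (N + 1),
        if z ∈ ann N ((k + 3) * ξ) ((k + 4) * ξ) then f z else 0 :=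
      Finset.sum_nonneg fun k _ => by split_ifs; exacts [hf z, le_rfl]
    linarith
  · rw [if_neg hz, zero_add]
    push Not at hz
    set k := sn z / ξ - 3 with hk
    have h3 : 3 ≤ sn z / ξ := (Nat.le_div_iff_mul_le hξ).2 hz
    have hk3 : k + 3 = sn z / ξ := by omega
    have hkN : k ∈ range (N + 1) := by
      rw [mem_range]
      have h4 : sn z / ξ ≤ sn z := Nat.div_le_self _ _
      have h5 := sn_le_N z
      omega
    have hmem : z ∈ ann N ((k + 3) * ξ) ((k + 4) * ξ) := by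
      rw [mem_ann]
      have e4 : k + 4 = sn z / ξ + 1 := by omega
      rw [e4, hk3]
      exact ⟨Nat.div_mul_le_self _ _, by
        have := Nat.lt_div_mul_add (a := sn z) hξ
        have e5 : (sn z / ξ + 1) * ξ = sn z / ξ * ξ + ξ := by ring
        omega⟩
    have h6 := Finset.single_le_sum
      (f := fun k => if z ∈ ann N ((k + 3) * ξ) ((k + 4) * ξ) then f z else 0)
      (fun k _ => by split_ifs; exacts [hf z, le_rfl]) hkN
    simp only [hmem, if_true] at h6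
    exact h6

/-- the series -/
lemma series_le {a : ℝ} (ha : 0 < a) (ha1 : a ≤ 1) (n : ℕ) :
    ∑ k ∈ range n, ((k : ℝ) + 5) * Real.exp (-(a * k)) ≤
      10 / a * (1 - Real.exp (-(a / 2)))⁻¹ := by
  have hr0 : 0 ≤ Real.exp (-(a / 2)) := (Real.exp_pos _).le
  have hr1 : Real.exp (-(a / 2)) < 1 := by
    rw [Real.exp_lt_one_iff]
    linarith
  have h1 : ∀ k : ℕ, ((k : ℝ) + 5) * Real.exp (-(a * k)) ≤
      10 / a * Real.exp (-(a / 2)) ^ k := by
    intro k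
    rw [← Real.exp_nat_mul]
    have h2 : (k : ℝ) + 5 ≤ 10 / a * Real.exp (a * k / 2) := by
      have h3 := Real.add_one_le_exp (a * k / 2)
      have h4 : (k : ℝ) + 5 ≤ 10 / a * (a * k / 2 + 1) := by
        have e : 10 / a * (a * k / 2 + 1) = 5 * k + 10 / a := by
          field_simp
          ring
        rw [e]
        have h5 : 10 ≤ 10 / a := by
          rw [le_div_iff₀ ha]
          linarith
        have : (0 : ℝ) ≤ k := Nat.cast_nonneg k
        linarith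
      exact h4.trans (mul_le_mul_of_nonneg_left h3 (by positivity))
    calc ((k : ℝ) + 5) * Real.exp (-(a * k)) ≤
        10 / a * Real.exp (a * k / 2) * Real.exp (-(a * k)) :=
          mul_le_mul_of_nonneg_right h2 (Real.exp_pos _).le
      _ = 10 / a * Real.exp ((k : ℝ) * -(a / 2)) := by
          rw [mul_assoc, ← Real.exp_add]
          congr 2
          ring
  refine (Finset.sum_le_sum fun k _ => h1 k).trans ?_
  rw [← Finset.mul_sum]
  refine mul_le_mul_of_nonneg_left ?_ (by positivity)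
  rw [← tsum_geometric_of_lt_one hr0 hr1]
  exact (summable_geometric_of_lt_one hr0 hr1).sum_le_tsum _ fun k _ => pow_nonneg hr0 k

/-- **(NK3)** exponential moments of the averaged kernel at every real mass in `[ξ⁻², 4 ξ⁻²]` -/
theorem ga_exp {b1 : ℝ} (hb1 : 0 < b1) (b2 a : ℝ) :
    ∃ W₀ : ℝ, ∃ c C ys : ℝ, ∃ X : ℕ, 0 < c ∧ 1 ≤ C ∧ 0 < ys ∧ 1 ≤ X ∧ ∀ W : ℝ, W₀ ≤ W →
    ∀ (N : ℕ) [NeZero N] (b : ℝ) (ξ : ℕ) (y : ℝ),
      TM.Spec.Rng b1 b2 a W ys X N b ξ y → (N : ℝ) * y ≤ c * ξ →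
      ∀ t : ℝ, 1 / (ξ : ℝ) ^ 2 ≤ t → t ≤ 4 / (ξ : ℝ) ^ 2 →
        (∀ c d : ℝ, Real.log (ZC N b t c) - Real.log (ZC N b t d) ≤ 1) →
        t * ∑ z, GA N b t 0 z * Real.exp (c * sn z / ξ) ≤ C := by
  obtain ⟨W₀, c0, C0, ys, X, hc0, hC0, hys, hX, h⟩ := lb4t hb1 b2 a
  set a' : ℝ := min c0 1 / 2 with ha'
  have hm0 : 0 < min c0 1 := lt_min hc0 one_pos
  have ha0 : 0 < a' := by positivity
  have ha1 : a' ≤ 1 := by
    have := min_le_right c0 1
    rw [ha']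
    linarith
  have hac : 2 * a' ≤ c0 := by
    have := min_le_left c0 1
    rw [ha']
    linarith
  set C1 : ℝ := Real.exp (3 * a') + 12 * Real.exp 2 * C0 * Real.exp (4 * a') *
    (10 / a' * (1 - Real.exp (-(a' / 2)))⁻¹) with hC1
  refine ⟨W₀, a', max 1 C1, ys, max X 2, ha0, le_max_left _ _, hys,
    hX.trans (le_max_left _ _), ?_⟩
  intro W hW N _ b ξ y hR hN t ht1 ht2 hosc
  have hb : 0 ≤ b := hb1.le.trans hR.hb1
  have hR' : TM.Spec.Rng b1 b2 a W ys X N b ξ y :=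
    { hb1 := hR.hb1, hb2 := hR.hb2, hX := (le_max_left _ _).trans hR.hX,
      hK := (Nat.mul_le_mul_right ξ (le_max_left _ _)).trans hR.hK, hd := hR.hd, y0 := hR.y0,
      y1 := hR.y1, hyp := hR.hyp }
  have h2N : 2 * ξ ≤ N := (Nat.mul_le_mul_right ξ (le_max_right X 2)).trans hR.hK
  have hξ : 0 < ξ := by
    have := hR'.hX
    omega
  have hξR : (0 : ℝ) < ξ := by exact_mod_cast hξ
  have ht0 : (0 : ℝ) < 1 / (ξ : ℝ) ^ 2 := by positivity
  have ht : 0 < t := ht0.trans_le ht1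
  have htx : t * (ξ : ℝ) ^ 2 ≤ 4 := by
    calc t * (ξ : ℝ) ^ 2 ≤ 4 / (ξ : ℝ) ^ 2 * (ξ : ℝ) ^ 2 :=
          mul_le_mul_of_nonneg_right ht2 (by positivity)
      _ = 4 := by field_simp
  have hN' : (N : ℝ) * y ≤ c0 * ξ := by
    refine hN.trans (mul_le_mul_of_nonneg_right ?_ hξR.le)
    linarith
  have hfar := fun (u v : Tor N → ℝ) (A B D : ℝ) (hA : 0 < A) (hB : 0 < B) (hD : 0 ≤ D)
    (hu : ∑ x, u x ^ 2 ≤ A ^ 2 * (1 / (ξ : ℝ) ^ 2))
    (hv : ∑ x, v x ^ 2 ≤ B ^ 2 * (1 / (ξ : ℝ) ^ 2))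
    (hs : ∀ x z, u x ≠ 0 → v z ≠ 0 → D * ξ ≤ sd x z) =>
    h W hW N b ξ y hR' hN' u v A B D hA hB hD hu hv hs t ht1
  have hG0 := GA_nonneg (N := N) hb ht
  have hC0' : 0 ≤ C0 := by linarith
  -- the decomposition
  have h1 := sum_ann_le (N := N) (f := fun z => GA N b t 0 z * Real.exp (a' * sn z / ξ))
    (fun z => mul_nonneg (hG0 0 z) (Real.exp_pos _).le) hξ
  -- near part
  have h3 : ∑ z ∈ univ.filter (fun z : Tor N => sn z < 3 * ξ),
      GA N b t 0 z * Real.exp (a' * sn z / ξ) ≤ Real.exp (3 * a') * ∑ z, GA N b t 0 z := by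
    rw [Finset.mul_sum, Finset.sum_filter]
    refine Finset.sum_le_sum fun z _ => ?_
    split_ifs with hz
    · rw [mul_comm]
      refine mul_le_mul_of_nonneg_right (Real.exp_le_exp.2 ?_) (hG0 0 z)
      rw [div_le_iff₀ hξR]
      have : (sn z : ℝ) ≤ 3 * ξ := by exact_mod_cast hz.le
      nlinarith
    · exact mul_nonneg (Real.exp_pos _).le (hG0 0 z)
  -- far part
  have h4 : ∀ k ∈ range (N + 1), ∑ z ∈ ann N ((k + 3) * ξ) ((k + 4) * ξ),
      GA N b t 0 z * Real.exp (a' * sn z / ξ) ≤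
      3 * Real.exp 2 * C0 * Real.exp (4 * a') * (ξ : ℝ) ^ 2 *
        (((k : ℝ) + 5) * Real.exp (-(a' * k))) := by
    intro k _
    have h5 : ∑ z ∈ ann N ((k + 3) * ξ) ((k + 4) * ξ),
        GA N b t 0 z * Real.exp (a' * sn z / ξ) ≤
        Real.exp (a' * (k + 4)) * ∑ z ∈ ann N ((k + 3) * ξ) ((k + 4) * ξ), GA N b t 0 z := by
      rw [Finset.mul_sum]
      refine Finset.sum_le_sum fun z hz => ?_
      rw [mul_comm]
      refine mul_le_mul_of_nonneg_right (Real.exp_le_exp.2 ?_) (hG0 0 z)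
      rw [div_le_iff₀ hξR]
      have h6 : (sn z : ℝ) ≤ (k + 4) * ξ := by
        have := (mem_ann.1 hz).2.le
        exact_mod_cast this
      nlinarith
    have h7 := ann_GA hb ht hξ h2N hC0' hosc hfar k
    rw [mul_one] at h7
    refine h5.trans ((mul_le_mul_of_nonneg_left h7 (Real.exp_pos _).le).trans ?_)
    have e1 : Real.exp (a' * (k + 4)) * (Real.exp 2 * (3 * (k + 5)) * C0 *
        Real.exp (-(c0 * (k + 1))) * (ξ : ℝ) ^ 2) =
        3 * Real.exp 2 * C0 * (ξ : ℝ) ^ 2 * ((k : ℝ) + 5) *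
          (Real.exp (a' * (k + 4)) * Real.exp (-(c0 * (k + 1)))) := by ring
    have e2 : 3 * Real.exp 2 * C0 * Real.exp (4 * a') * (ξ : ℝ) ^ 2 *
        (((k : ℝ) + 5) * Real.exp (-(a' * k))) =
        3 * Real.exp 2 * C0 * (ξ : ℝ) ^ 2 * ((k : ℝ) + 5) *
          (Real.exp (4 * a') * Real.exp (-(a' * k))) := by ring
    rw [e1, e2, ← Real.exp_add, ← Real.exp_add]
    refine mul_le_mul_of_nonneg_left (Real.exp_le_exp.2 ?_) (by positivity)
    have hk : (0 : ℝ) ≤ k := Nat.cast_nonneg k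
    nlinarith
  have h8 : ∑ k ∈ range (N + 1), ∑ z ∈ ann N ((k + 3) * ξ) ((k + 4) * ξ),
      GA N b t 0 z * Real.exp (a' * sn z / ξ) ≤
      3 * Real.exp 2 * C0 * Real.exp (4 * a') * (ξ : ℝ) ^ 2 *
        (10 / a' * (1 - Real.exp (-(a' / 2)))⁻¹) := by
    refine (Finset.sum_le_sum h4).trans ?_
    rw [← Finset.mul_sum]
    exact mul_le_mul_of_nonneg_left (series_le ha0 ha1 _) (by positivity)
  have hrow := (row_GA_bounds hb ht hosc).2
  have hS0 : 0 < 1 - Real.exp (-(a' / 2)) := by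
    have : Real.exp (-(a' / 2)) < 1 := by
      rw [Real.exp_lt_one_iff]
      linarith
    linarith
  have h9 : t * ∑ z, GA N b t 0 z * Real.exp (a' * sn z / ξ) ≤ C1 := by
    refine (mul_le_mul_of_nonneg_left (h1.trans (add_le_add h3 h8)) ht.le).trans ?_
    rw [mul_add]
    have k1 : t * (Real.exp (3 * a') * ∑ z, GA N b t 0 z) ≤ Real.exp (3 * a') := by
      calc t * (Real.exp (3 * a') * ∑ z, GA N b t 0 z)
          = Real.exp (3 * a') * (t * ∑ z, GA N b t 0 z) := by ring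
        _ ≤ Real.exp (3 * a') * 1 := mul_le_mul_of_nonneg_left hrow (Real.exp_pos _).le
        _ = _ := mul_one _
    have k2 : t * (3 * Real.exp 2 * C0 * Real.exp (4 * a') * (ξ : ℝ) ^ 2 *
        (10 / a' * (1 - Real.exp (-(a' / 2)))⁻¹)) ≤
        12 * Real.exp 2 * C0 * Real.exp (4 * a') *
          (10 / a' * (1 - Real.exp (-(a' / 2)))⁻¹) := by
      have k3 : 0 ≤ 3 * Real.exp 2 * C0 * Real.exp (4 * a') *
        (10 / a' * (1 - Real.exp (-(a' / 2)))⁻¹) := by positivity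
      calc t * (3 * Real.exp 2 * C0 * Real.exp (4 * a') * (ξ : ℝ) ^ 2 *
          (10 / a' * (1 - Real.exp (-(a' / 2)))⁻¹))
          = (t * (ξ : ℝ) ^ 2) * (3 * Real.exp 2 * C0 * Real.exp (4 * a') *
            (10 / a' * (1 - Real.exp (-(a' / 2)))⁻¹)) := by ring
        _ ≤ 4 * (3 * Real.exp 2 * C0 * Real.exp (4 * a') *
            (10 / a' * (1 - Real.exp (-(a' / 2)))⁻¹)) := mul_le_mul_of_nonneg_right htx k3
        _ = _ := by ring
    rw [hC1]
    linarith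
  exact h9.trans (le_max_right _ _)

/-! ### the kernel `S = t G⁰ + 1/N²` -/

/-- the constant kernel with row sums `1` -/
def Jm (N : ℕ) [NeZero N] : Matrix (Tor N) (Tor N) ℝ := Matrix.of fun _ _ => ((N : ℝ) ^ 2)⁻¹

lemma ti_Jm : TI (Jm N) := ⟨fun _ _ _ => rfl, fun _ _ => rfl⟩

lemma sym_Jm (k : Tor N) : sym (Jm N) k = if k = 0 then 1 else 0 := by
  rw [H864.sym_def]
  have hN := H864.N_pos (N := N)
  unfold Jm
  simp only [Matrix.of_apply]
  rw [← Finset.mul_sum, H864.sum_cN]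
  split_ifs
  · exact inv_mul_cancel₀ hN.ne'
  · exact mul_zero _

/-- the neutral kernel, normalised -/
def Sn (N : ℕ) [NeZero N] (b t : ℝ) : Matrix (Tor N) (Tor N) ℝ := t • Gn N b t + Jm N

theorem ti_Sn (hb : 0 ≤ b) (ht : 0 < t) : TI (Sn N b t) :=
  ((H963.ti_Gn hb ht).smul t).add ti_Jm

theorem sym_Sn (k : Tor N) : sym (Sn N b t) k = if k = 0 then 1 else t * Gnh N b t k := by
  unfold Sn
  rw [H864.sym_add, H864.sym_smul, sym_Jm]
  split_ifs with hk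
  · rw [hk]
    have : sym (Gn N b t) 0 = 0 := H963.Gnh_zero N b t
    rw [this]
    ring
  · rw [add_zero]
    rfl

lemma sym_zero_arg (A : Matrix (Tor N) (Tor N) ℝ) : sym A 0 = ∑ z, A 0 z := by
  rw [H864.sym_def]
  refine Finset.sum_congr rfl fun z _ => ?_
  rw [H864.dt_zero_left, TM.H764.cN_zero, mul_one]

/-- **(NK2)** the neutral kernel is the averaged kernel plus a small constant -/
theorem Sn_eq (hb : 0 ≤ b) (ht : 0 < t) :
    Sn N b t = t • GA N b t + (1 - t * ∑ z, GA N b t 0 z) • Jm N := by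
  refine H864.sym_inj (ti_Sn hb ht) (((ti_GA hb ht).smul t).add (ti_Jm.smul _)) fun k => ?_
  rw [sym_Sn, H864.sym_add, H864.sym_smul, H864.sym_smul, sym_Jm]
  split_ifs with hk
  · rw [hk, sym_zero_arg]
    ring
  · rw [sym_GA hb ht hk, mul_zero, add_zero]

/-- **the neutral kernel is nonnegative** -/
theorem Sn_nonneg (hb : 0 ≤ b) (ht : 0 < t) (x y : Tor N) : 0 ≤ Sn N b t x y := by
  have hw := gw_wT (N := N) hb
  have hM := mf_smul (N := N) ht
  have hN := H864.N_pos (N := N)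
  rw [Sn_eq hb ht]
  have h1 : 0 ≤ 1 - t * ∑ z, GA N b t 0 z := by
    rw [row_GA hb ht]
    have h2 : 0 ≤ pv N b t fun c => ph1 N b t c ^ 2 := by
      have := pav_mono hw hM (f := fun _ => 0) (g := fun c => ph1 N b t c ^ 2) continuous_const
        ((cont_ph1 (N := N) hb ht).pow 2) fun c => sq_nonneg _
      rw [pav_const hw hM] at this
      exact this
    have h3 : 0 ≤ (pv N b t fun c => ph1 N b t c ^ 2) / (t * (N : ℝ) ^ 2) :=
      div_nonneg h2 (by positivity)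
    linarith
  rw [Matrix.add_apply, Matrix.smul_apply, Matrix.smul_apply, smul_eq_mul, smul_eq_mul]
  refine add_nonneg (mul_nonneg ht.le (GA_nonneg hb ht x y)) (mul_nonneg h1 ?_)
  unfold Jm
  rw [Matrix.of_apply]
  positivity

/-- row sums -/
theorem Sn_row : ∑ z, Sn N b t 0 z = 1 := by
  rw [← sym_zero_arg, sym_Sn, if_pos rfl]

/-- weighted sums of the neutral kernel -/
theorem Sn_sum_le (hb : 0 ≤ b) (ht : 0 < t) {δ : ℝ}
    (hδ : ∀ c d : ℝ, Real.log (ZC N b t c) - Real.log (ZC N b t d) ≤ δ) {P : Tor N → ℝ} {B : ℝ}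
    (hB : ∀ z, P z ≤ B) (hP : ∀ z, 0 ≤ P z) :
    ∑ z, Sn N b t 0 z * P z ≤ t * ∑ z, GA N b t 0 z * P z + 2 * δ * B := by
  have hN := H864.N_pos (N := N)
  have h1 := (row_GA_bounds (N := N) hb ht hδ).1
  have h1' := (row_GA_bounds (N := N) hb ht hδ).2
  rw [Sn_eq hb ht]
  have e : ∀ z, (t • GA N b t + (1 - t * ∑ z, GA N b t 0 z) • Jm N) 0 z * P z =
      t * (GA N b t 0 z * P z) + (1 - t * ∑ z, GA N b t 0 z) * (((N : ℝ) ^ 2)⁻¹ * P z) := by
    intro z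
    rw [Matrix.add_apply, Matrix.smul_apply, Matrix.smul_apply, smul_eq_mul, smul_eq_mul]
    unfold Jm
    rw [Matrix.of_apply]
    ring
  simp only [e]
  rw [Finset.sum_add_distrib, ← Finset.mul_sum, ← Finset.mul_sum, ← Finset.mul_sum]
  refine add_le_add le_rfl ?_
  have h2 : ((N : ℝ) ^ 2)⁻¹ * ∑ z, P z ≤ B := by
    have h3 : ∑ z, P z ≤ (N : ℝ) ^ 2 * B := by
      refine (Finset.sum_le_sum fun z _ => hB z).trans (le_of_eq ?_)
      rw [Finset.sum_const, Finset.card_univ, nsmul_eq_mul, card_tor]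
    rw [inv_mul_le_iff₀ hN]
    exact h3
  have h4 : 0 ≤ ((N : ℝ) ^ 2)⁻¹ * ∑ z, P z :=
    mul_nonneg (inv_nonneg.2 hN.le) (Finset.sum_nonneg fun z _ => hP z)
  have hB0 : 0 ≤ B := h4.trans h2
  calc (1 - t * ∑ z, GA N b t 0 z) * (((N : ℝ) ^ 2)⁻¹ * ∑ z, P z)
      ≤ (1 - t * ∑ z, GA N b t 0 z) * B := mul_le_mul_of_nonneg_left h2 (by linarith)
    _ ≤ 2 * δ * B := mul_le_mul_of_nonneg_right (by linarith) hB0

/-- **moments of the neutral kernel** at every real mass in `[ξ⁻², 4 ξ⁻²]`: exponential moments of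
the averaged part and polynomial moments of `S` -/
theorem nker {b1 : ℝ} (hb1 : 0 < b1) (b2 a : ℝ) :
    ∃ W₀ : ℝ, ∃ c C ys : ℝ, ∃ X : ℕ, 0 < c ∧ 1 ≤ C ∧ 0 < ys ∧ 1 ≤ X ∧ ∀ W : ℝ, W₀ ≤ W →
    ∀ (N : ℕ) [NeZero N] (b : ℝ) (ξ : ℕ) (y : ℝ),
      TM.Spec.Rng b1 b2 a W ys X N b ξ y → (N : ℝ) * y ≤ c * ξ →
      ∀ t ω : ℝ, 1 / (ξ : ℝ) ^ 2 ≤ t → t ≤ 4 / (ξ : ℝ) ^ 2 →
        OscZ (wT b N) (t • (1 : Matrix (Tor N) (Tor N) ℝ)) ω → ω ≤ 1 / 4 →
        (∀ x z, 0 ≤ GA N b t x z) ∧ (∀ x z, 0 ≤ Sn N b t x z) ∧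
        (∀ k, k ≠ 0 → sym (GA N b t) k = Gnh N b t k) ∧
        (∀ k, k ≠ 0 → sym (Sn N b t) k = t * Gnh N b t k) ∧
        1 - 8 * ω ≤ t * ∑ z, GA N b t 0 z ∧ t * ∑ z, GA N b t 0 z ≤ 1 ∧
        ∑ z, Sn N b t 0 z = 1 ∧
        t * ∑ z, GA N b t 0 z * Real.exp (c * sn z / ξ) ≤ C ∧
        (∀ p : ℕ, t * ∑ z, GA N b t 0 z * (sn z : ℝ) ^ p ≤
          C * (p.factorial / c ^ p) * (ξ : ℝ) ^ p) ∧
        (∀ p : ℕ, ∑ z, Sn N b t 0 z * (sn z : ℝ) ^ p ≤
          C * (p.factorial / c ^ p) * (ξ : ℝ) ^ p + 8 * ω * (N : ℝ) ^ p) := by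
  obtain ⟨W₀, c, C, ys, X, hc, hC, hys, hX, h⟩ := ga_exp hb1 b2 a
  refine ⟨W₀, c, C, ys, X, hc, hC, hys, hX, ?_⟩
  intro W hW N _ b ξ y hR hN t ω ht1 ht2 hO hω
  have hb : 0 ≤ b := hb1.le.trans hR.hb1
  have hξ : 0 < ξ := by
    have := hR.hX
    omega
  have hξR : (0 : ℝ) < ξ := by exact_mod_cast hξ
  have ht0 : (0 : ℝ) < 1 / (ξ : ℝ) ^ 2 := by positivity
  have ht : 0 < t := ht0.trans_le ht1
  have hosc : ∀ c d : ℝ, Real.log (ZC N b t c) - Real.log (ZC N b t d) ≤ 4 * ω :=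
    osc_ZC hb ht hO (by linarith)
  have hosc1 : ∀ c d : ℝ, Real.log (ZC N b t c) - Real.log (ZC N b t d) ≤ 1 := fun c d =>
    (hosc c d).trans (by linarith)
  have hexp := h W hW N b ξ y hR hN t ht1 ht2 hosc1
  have hrow := row_GA_bounds (N := N) hb ht hosc
  have hG0 := GA_nonneg (N := N) hb ht
  have hmom : ∀ p : ℕ, t * ∑ z, GA N b t 0 z * (sn z : ℝ) ^ p ≤
      C * (p.factorial / c ^ p) * (ξ : ℝ) ^ p := by
    intro p
    have h1 : ∀ z : Tor N, (sn z : ℝ) ^ p ≤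
        Real.exp (c * sn z / ξ) * ((p.factorial / c ^ p) * (ξ : ℝ) ^ p) := by
      intro z
      have hx : 0 ≤ c * sn z / ξ := by positivity
      have h2 := Real.pow_div_factorial_le_exp (c * sn z / ξ) hx p
      rw [div_le_iff₀ (by positivity)] at h2
      have e : (c * sn z / ξ) ^ p = (sn z : ℝ) ^ p * (c ^ p / (ξ : ℝ) ^ p) := by
        rw [div_pow, mul_pow]
        ring
      rw [e] at h2
      have h3 : (sn z : ℝ) ^ p = (sn z : ℝ) ^ p * (c ^ p / (ξ : ℝ) ^ p) *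
          ((ξ : ℝ) ^ p / c ^ p) := by
        field_simp
      rw [h3]
      refine (mul_le_mul_of_nonneg_right h2 (by positivity)).trans (le_of_eq ?_)
      ring
    have h2 : ∑ z, GA N b t 0 z * (sn z : ℝ) ^ p ≤
        (∑ z, GA N b t 0 z * Real.exp (c * sn z / ξ)) *
          ((p.factorial / c ^ p) * (ξ : ℝ) ^ p) := by
      rw [Finset.sum_mul]
      refine Finset.sum_le_sum fun z _ => ?_
      rw [mul_assoc]
      exact mul_le_mul_of_nonneg_left (h1 z) (hG0 0 z)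
    calc t * ∑ z, GA N b t 0 z * (sn z : ℝ) ^ p
        ≤ t * ((∑ z, GA N b t 0 z * Real.exp (c * sn z / ξ)) *
          ((p.factorial / c ^ p) * (ξ : ℝ) ^ p)) := mul_le_mul_of_nonneg_left h2 ht.le
      _ = (t * ∑ z, GA N b t 0 z * Real.exp (c * sn z / ξ)) *
          ((p.factorial / c ^ p) * (ξ : ℝ) ^ p) := by ring
      _ ≤ C * ((p.factorial / c ^ p) * (ξ : ℝ) ^ p) :=
          mul_le_mul_of_nonneg_right hexp (by positivity)
      _ = _ := by ring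
  refine ⟨hG0, Sn_nonneg hb ht, fun k hk => sym_GA hb ht hk,
    fun k hk => by rw [sym_Sn, if_neg hk], by linarith [hrow.1], hrow.2, Sn_row, hexp, hmom,
    fun p => ?_⟩
  have h1 := Sn_sum_le (N := N) hb ht hosc (P := fun z => (sn z : ℝ) ^ p) (B := (N : ℝ) ^ p)
    (fun z => pow_le_pow_left₀ (Nat.cast_nonneg _) (by exact_mod_cast sn_le_N z) p)
    fun z => by positivity
  refine h1.trans ?_
  have e : 2 * (4 * ω) * (N : ℝ) ^ p = 8 * ω * (N : ℝ) ^ p := by ring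
  rw [e]
  exact add_le_add (hmom p) le_rfl

end

end Vale.Agent.P159.H612
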