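import Vale.Agent.P159.H37.Spec0

/-!
P159 / second order flow, module LOCAL (helper612): locality in every background from the positive
semidefinite duplication kernel.

(LB1) `lb1`: `C_J[u,v]^2 ≤ (1/2) exp (T(J)) Cov_0(X_u^2, X_v^2)`.
(LB2) `mixed_eq`, `lb2`: mixed second differences of `log Z`.
-/

namespace Vale.Agent.P159.H612

open Real Finset Filter Topology
open Vale.Agent.P159.TM.H104
open Vale.Agent.P159.H37


variable {V : Type*} [Fintype V] {μ : (V → ℤ) → ℝ}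

/-! ### calculus lemmas -/

/-- second order Taylor limit at a critical point -/
theorem quad_lim {g g' : ℝ → ℝ} {c : ℝ} (h1 : ∀ s, HasDerivAt g (g' s) s)
    (h2 : HasDerivAt g' c 0) (h0 : g' 0 = 0) :
    Tendsto (fun s => (g s - g 0) / s ^ 2) (𝓝[≠] 0) (𝓝 (c / 2)) := by
  have hs : Tendsto (fun s => g' s / (2 * s)) (𝓝[≠] 0) (𝓝 (c / 2)) := by
    have h3 := hasDerivAt_iff_tendsto_slope.1 h2
    have h4 : (fun s => g' s / (2 * s)) =ᶠ[𝓝[≠] 0] fun s => slope g' 0 s / 2 := by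
      filter_upwards [self_mem_nhdsWithin] with s hs
      have hs' : s ≠ 0 := hs
      rw [slope_def_field, h0]
      field_simp
      ring
    exact (h3.div_const 2).congr' h4.symm
  refine HasDerivAt.lhopital_zero_nhdsNE (f := fun s => g s - g 0) (f' := g')
    (g := fun s => s ^ 2) (g' := fun s => 2 * s) ?_ ?_ ?_ ?_ ?_ hs
  · filter_upwards with s
    exact (h1 s).sub_const _
  · filter_upwards with s
    simpa using hasDerivAt_pow 2 s
  · filter_upwards [self_mem_nhdsWithin] with s hs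
    have hs' : s ≠ 0 := hs
    simpa using hs'
  · have h5 : Tendsto (fun s => g s - g 0) (𝓝 0) (𝓝 (g 0 - g 0)) :=
      ((h1 0).continuousAt.tendsto).sub_const _
    rw [sub_self] at h5
    exact h5.mono_left nhdsWithin_le_nhds
  · have h6 : Tendsto (fun s : ℝ => s ^ 2) (𝓝 0) (𝓝 ((0 : ℝ) ^ 2)) :=
      (continuous_pow 2).continuousAt.tendsto
    rw [zero_pow two_ne_zero] at h6
    exact h6.mono_left nhdsWithin_le_nhds

/-! ### evenness -/

theorem li_neg_h (u : V → ℝ) (h : V → ℤ) : li u (-h) = -li u h := by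
  simp [li]

theorem T_even (hev : Ev μ) (J : V → ℝ) (F : (V → ℤ) → ℝ) :
    TM.H104.T μ (-J) F = TM.H104.T μ J fun h => F (-h) := by
  unfold TM.H104.T
  rw [← (Equiv.neg (V → ℤ)).tsum_eq]
  refine tsum_congr fun h => ?_
  simp only [Equiv.neg_apply]
  rw [hev h, li_neg_h, li_neg, neg_neg]

theorem Zs_neg (hev : Ev μ) (J : V → ℝ) : Zs μ (-J) = Zs μ J := T_even hev J _

theorem Zs_pos (hμ : EM μ) (J : V → ℝ) : 0 < Zs μ J := T_one_pos hμ J

theorem Ker_comm (hev : Ev μ) (a c : V → ℝ) : Ker μ a c = Ker μ c a := by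
  unfold Ker
  rw [add_comm a c]
  congr 1
  rw [← Zs_neg hev (c - a), neg_sub]

/-- the three point inequality -/
theorem three (hev : Ev μ) (hpk : PK μ) (a p q : V → ℝ) :
    (Ker μ a p - Ker μ a q) ^ 2 ≤
      Ker μ a a * (Ker μ p p + Ker μ q q - 2 * Ker μ p q) := by
  have key : ∀ c : ℝ, 0 ≤ Ker μ a a * (c * c) + 2 * (Ker μ a p - Ker μ a q) * c +
      (Ker μ p p + Ker μ q q - 2 * Ker μ p q) := by
    intro c
    have h := hpk 3 ![a, p, q] ![c, 1, -1]
    simp only [Fin.sum_univ_three, Matrix.cons_val_zero, Matrix.cons_val_one,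
      Matrix.cons_val] at h
    rw [Ker_comm hev p a, Ker_comm hev q a, Ker_comm hev q p] at h
    linarith
  have h := discrim_le_zero key
  unfold discrim at h
  nlinarith [h]

/-- the kernel near the diagonal: `Z(0) (Z(2(p)) + ..)` in terms of `cosh` -/
theorem T_zero_cosh (hμ : EM μ) (hev : Ev μ) (u : V → ℝ) :
    Zs μ u = TM.H104.T μ 0 fun h => Real.cosh (li u h) := by
  have h1 : Zs μ u = TM.H104.T μ 0 fun h => Real.exp (li u h) := by
    unfold Zs TM.H104.T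
    refine tsum_congr fun h => ?_
    rw [li_zero, Real.exp_zero]
    ring
  have h2 : Zs μ (-u) = TM.H104.T μ 0 fun h => Real.exp (-li u h) := by
    unfold Zs TM.H104.T
    refine tsum_congr fun h => ?_
    rw [li_zero, Real.exp_zero, li_neg]
    ring
  have h3 : Zs μ u = (Zs μ u + Zs μ (-u)) / 2 := by
    rw [Zs_neg hev]
    ring
  have h4 : Gr fun h : V → ℤ => Real.exp (-li u h) := by
    simpa only [li_neg] using Gr.exp_li (-u)
  rw [h3, h1, h2, ← T_add hμ (Gr.exp_li u) h4]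
  have h5 : (fun h => Real.cosh (li u h)) =
      fun h : V → ℤ => (1 / 2) * (Real.exp (li u h) + Real.exp (-li u h)) := by
    funext h
    rw [Real.cosh_eq]
    ring
  rw [h5, T_cmul]
  ring

theorem Gr_cosh (u : V → ℝ) : Gr fun h : V → ℤ => Real.cosh (li u h) := by
  have h4 : Gr fun h : V → ℤ => Real.exp (-li u h) := by
    simpa only [li_neg] using Gr.exp_li (-u)
  have h5 : (fun h => Real.cosh (li u h)) =
      fun h : V → ℤ => (1 / 2) * (Real.exp (li u h) + Real.exp (-li u h)) := by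
    funext h
    rw [Real.cosh_eq]
    ring
  rw [h5]
  exact ((Gr.exp_li u).add h4).cmul _

/-- the right side of `three` at `p = e (u+v)`, `q = e (u-v)` -/
theorem rhs_eq (hμ : EM μ) (hev : Ev μ) (u v : V → ℝ) :
    Ker μ (u + v) (u + v) + Ker μ (u - v) (u - v) - 2 * Ker μ (u + v) (u - v) =
      2 * Zs μ 0 ^ 2 *
        Cv μ 0 (fun h => Real.cosh (2 * li u h)) (fun h => Real.cosh (2 * li v h)) := by
  have hZ := (Zs_pos hμ (0 : V → ℝ)).ne'
  have e1 : Ker μ (u + v) (u + v) + Ker μ (u - v) (u - v) - 2 * Ker μ (u + v) (u - v) =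
      Zs μ 0 * (Zs μ ((2 : ℝ) • (u + v)) + Zs μ ((2 : ℝ) • (u - v))) -
        2 * (Zs μ ((2 : ℝ) • u) * Zs μ ((2 : ℝ) • v)) := by
    unfold Ker
    have a1 : u + v + (u + v) = (2 : ℝ) • (u + v) := (two_smul ℝ _).symm
    have a2 : u - v + (u - v) = (2 : ℝ) • (u - v) := (two_smul ℝ _).symm
    have a3 : u + v + (u - v) = (2 : ℝ) • u := by rw [two_smul]; abel
    have a4 : u + v - (u - v) = (2 : ℝ) • v := by rw [two_smul]; abel
    rw [sub_self, sub_self, a1, a2, a3, a4]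
    ring
  have gu := Gr_cosh ((2 : ℝ) • u)
  have gv := Gr_cosh ((2 : ℝ) • v)
  have e2 : Zs μ ((2 : ℝ) • (u + v)) + Zs μ ((2 : ℝ) • (u - v)) =
      2 * TM.H104.T μ 0 fun h => Real.cosh (2 * li u h) * Real.cosh (2 * li v h) := by
    rw [T_zero_cosh hμ hev, T_zero_cosh hμ hev, ← T_add hμ (Gr_cosh _) (Gr_cosh _), ← T_cmul]
    congr 1
    funext h
    rw [li_smul, li_smul, li_add, li_sub, mul_add, mul_sub, Real.cosh_add, Real.cosh_sub]
    ring
  rw [e1, e2, T_zero_cosh hμ hev ((2 : ℝ) • u), T_zero_cosh hμ hev ((2 : ℝ) • v)]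
  unfold Cv Ex
  simp only [li_smul]
  have hZ' : (TM.H104.T μ 0 fun _ => 1) = Zs μ 0 := rfl
  rw [hZ']
  field_simp

/-! ### the left side near the diagonal -/

theorem hasDerivAt_ker (hμ : EM μ) (a w : V → ℝ) (s : ℝ) :
    HasDerivAt (fun s : ℝ => Ker μ a (s • w))
      (TM.H104.T μ (a + s • w) (li w) * TM.H104.T μ (a + s • (-w)) (fun _ => 1) -
        TM.H104.T μ (a + s • w) (fun _ => 1) * TM.H104.T μ (a + s • (-w)) (li w)) s := by
  have h1 := hasDerivAt_T hμ (Gr.const 1) a w s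
  have h2 := hasDerivAt_T hμ (Gr.const 1) a (-w) s
  have h3 := h1.mul h2
  have e1 : (fun s : ℝ => Ker μ a (s • w)) =
      (fun s : ℝ => TM.H104.T μ (a + s • w) fun _ => 1) * fun s : ℝ => TM.H104.T μ (a + s • (-w)) fun _ => 1 := by
    funext s
    simp only [Ker, Zs, Pi.mul_apply, smul_neg, sub_eq_add_neg]
  rw [e1]
  refine h3.congr_deriv ?_
  have e2 : (fun h : V → ℤ => (1 : ℝ) * li (-w) h) = fun h => (-1) * li w h := by
    funext h
    rw [li_neg]
    ring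
  simp only [one_mul]
  have e3 : TM.H104.T μ (a + s • (-w)) (li (-w)) = -TM.H104.T μ (a + s • (-w)) (li w) := by
    have := T_cmul (μ := μ) (-1) (li w) (a + s • (-w))
    rw [neg_one_mul] at this
    rw [← this]
    congr 1
    funext h
    rw [li_neg]
    ring
  rw [e3]
  ring

theorem ker_quad (hμ : EM μ) (a w : V → ℝ) :
    Tendsto (fun s : ℝ => (Ker μ a (s • w) - Ker μ a ((0 : ℝ) • w)) / s ^ 2) (𝓝[≠] 0)
      (𝓝 (Zs μ a ^ 2 * Cv μ a (li w) (li w))) := by
  have hZ := (Zs_pos hμ a).ne'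
  have h2 : HasDerivAt (fun s : ℝ => TM.H104.T μ (a + s • w) (li w) * TM.H104.T μ (a + s • (-w)) (fun _ => 1) -
        TM.H104.T μ (a + s • w) (fun _ => 1) * TM.H104.T μ (a + s • (-w)) (li w))
      (2 * (Zs μ a ^ 2 * Cv μ a (li w) (li w))) 0 := by
    have d1 := hasDerivAt_T hμ (Gr.li w) a w 0
    have d2 := hasDerivAt_T hμ (Gr.const 1) a (-w) 0
    have d3 := hasDerivAt_T hμ (Gr.const 1) a w 0
    have d4 := hasDerivAt_T hμ (Gr.li w) a (-w) 0
    refine ((d1.mul d2).sub (d3.mul d4)).congr_deriv ?_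
    have e3 : TM.H104.T μ a (li (-w)) = -TM.H104.T μ a (li w) := by
      have := T_cmul (μ := μ) (-1) (li w) a
      rw [neg_one_mul] at this
      rw [← this]
      congr 1
      funext h
      rw [li_neg]
      ring
    have e4 : (TM.H104.T μ a fun h => li w h * li (-w) h) = -TM.H104.T μ a fun h => li w h * li w h := by
      have := T_cmul (μ := μ) (-1) (fun h => li w h * li w h) a
      rw [neg_one_mul] at this
      rw [← this]
      congr 1
      funext h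
      rw [li_neg]
      ring
    simp only [zero_smul, add_zero, one_mul]
    rw [e3, e4]
    unfold Cv Ex
    have hZ' : (TM.H104.T μ a fun _ => 1) = Zs μ a := rfl
    rw [hZ']
    field_simp
    ring
  have h := quad_lim (fun s => hasDerivAt_ker hμ a w s) h2 (by
    simp only [zero_smul, add_zero]
    ring)
  rwa [mul_div_cancel_left₀ _ (two_ne_zero)] at h

theorem Cv_add_left (hμ : EM μ) (J : V → ℝ) {F G H : (V → ℤ) → ℝ} (hF : Gr F) (hG : Gr G)
    (hH : Gr H) : Cv μ J (fun h => F h + G h) H = Cv μ J F H + Cv μ J G H := by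
  unfold Cv
  simp only [add_mul]
  rw [Ex_add hμ (hF.mul hH) (hG.mul hH), Ex_add hμ hF hG]
  ring

theorem Cv_cmul_left (c : ℝ) (J : V → ℝ) (F H : (V → ℤ) → ℝ) :
    Cv μ J (fun h => c * F h) H = c * Cv μ J F H := by
  unfold Cv
  simp only [mul_assoc]
  rw [Ex_cmul, Ex_cmul]
  ring

theorem Cv_polar (hμ : EM μ) (J u v : V → ℝ) :
    Cv μ J (li (u + v)) (li (u + v)) - Cv μ J (li (u - v)) (li (u - v)) =
      4 * Cv μ J (li u) (li v) := by
  have gu := Gr.li u
  have gv := Gr.li v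
  have e1 : li (u + v) = fun h : V → ℤ => li u h + li v h := funext fun h => li_add u v h
  have e2 : li (u - v) = fun h : V → ℤ => li u h + (-1) * li v h :=
    funext fun h => by rw [li_sub]; ring
  rw [e1, e2]
  have gm : Gr fun h : V → ℤ => (-1) * li v h := gv.cmul (-1)
  rw [Cv_add_left hμ J gu gv (gu.add gv), Cv_add_left hμ J gu gm (gu.add gm),
    Cv_comm J (li u), Cv_comm J (li v), Cv_comm J (li u) (fun h => li u h + (-1) * li v h),
    Cv_comm J (fun h => (-1) * li v h), Cv_add_left hμ J gu gv gu, Cv_add_left hμ J gu gv gv,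
    Cv_add_left hμ J gu gm gu, Cv_add_left hμ J gu gm gm, Cv_cmul_left, Cv_cmul_left,
    Cv_comm J (li u) (fun h => (-1) * li v h), Cv_cmul_left,
    Cv_comm J (li v) (fun h => (-1) * li v h), Cv_cmul_left, Cv_comm J (li v) (li u)]
  ring

/-! ### the right side near the diagonal -/

theorem cosh_sub_one_le (y : ℝ) : |Real.cosh y - 1| ≤ y ^ 2 * Real.exp |y| := by
  have h1 := Complex.norm_exp_sub_sum_le_norm_mul_exp (y : ℂ) 2
  have h2 := Complex.norm_exp_sub_sum_le_norm_mul_exp ((-y : ℝ) : ℂ) 2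
  have e1 : Complex.exp (y : ℂ) - ∑ m ∈ Finset.range 2, (y : ℂ) ^ m / (m.factorial : ℂ) =
      ((Real.exp y - 1 - y : ℝ) : ℂ) := by
    simp [Finset.sum_range_succ]
    ring
  have e2 : Complex.exp ((-y : ℝ) : ℂ) -
      ∑ m ∈ Finset.range 2, ((-y : ℝ) : ℂ) ^ m / (m.factorial : ℂ) =
      ((Real.exp (-y) - 1 + y : ℝ) : ℂ) := by
    simp [Finset.sum_range_succ]
    ring
  rw [e1, Complex.norm_real, Complex.norm_real, Real.norm_eq_abs, Real.norm_eq_abs, sq_abs] at h1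
  rw [e2, Complex.norm_real, Complex.norm_real, Real.norm_eq_abs, Real.norm_eq_abs, abs_neg,
    sq_abs] at h2
  have e3 : Real.cosh y - 1 = ((Real.exp y - 1 - y) + (Real.exp (-y) - 1 + y)) / 2 := by
    rw [Real.cosh_eq]
    ring
  rw [e3, abs_div, abs_two]
  have h3 := abs_add_le (Real.exp y - 1 - y) (Real.exp (-y) - 1 + y)
  linarith

/-- the rescaled function `(cosh (2 s x) - 1) / s²` -/
noncomputable def kc (s x : ℝ) : ℝ := (Real.cosh (2 * s * x) - 1) / s ^ 2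

theorem kc_le {s : ℝ} (hs : s ≠ 0) (hs1 : |s| ≤ 1) (x : ℝ) :
    |kc s x| ≤ 4 * x ^ 2 * Real.exp (2 * |x|) := by
  unfold kc
  rw [abs_div, abs_of_nonneg (sq_nonneg s), div_le_iff₀ (by positivity)]
  refine (cosh_sub_one_le _).trans ?_
  have h1 : |2 * s * x| ≤ 2 * |x| := by
    rw [abs_mul, abs_mul, abs_two]
    nlinarith [abs_nonneg x, abs_nonneg s]
  have h2 := Real.exp_le_exp.2 h1
  have h3 : (2 * s * x) ^ 2 = 4 * x ^ 2 * s ^ 2 := by ring
  rw [h3]
  nlinarith [mul_le_mul_of_nonneg_left h2 (by positivity : 0 ≤ 4 * x ^ 2 * s ^ 2)]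

theorem kc_lim (x : ℝ) : Tendsto (fun s => kc s x) (𝓝[≠] 0) (𝓝 (2 * x ^ 2)) := by
  have h1 : ∀ s : ℝ, HasDerivAt (fun s : ℝ => Real.cosh (2 * s * x))
      (2 * x * Real.sinh (2 * s * x)) s := by
    intro s
    have h2 : HasDerivAt (fun s : ℝ => 2 * s * x) (2 * x) s := by
      simpa using ((hasDerivAt_id s).const_mul 2).mul_const x
    refine (h2.cosh).congr_deriv ?_
    ring
  have h3 : HasDerivAt (fun s : ℝ => 2 * x * Real.sinh (2 * s * x)) (4 * x ^ 2) 0 := by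
    have h2 : HasDerivAt (fun s : ℝ => 2 * s * x) (2 * x) 0 := by
      simpa using ((hasDerivAt_id (0 : ℝ)).const_mul 2).mul_const x
    refine ((h2.sinh).const_mul (2 * x)).congr_deriv ?_
    simp
    ring
  have h := quad_lim h1 h3 (by simp)
  have e : (4 * x ^ 2) / 2 = 2 * x ^ 2 := by ring
  rw [e] at h
  refine h.congr fun s => ?_
  simp [kc]

theorem Gr_kc_bd (u : V → ℝ) : Gr fun h : V → ℤ => 4 * li u h ^ 2 * Real.exp (2 * |li u h|) := by
  have h1 : Gr fun h : V → ℤ => 4 * (li u h * li u h) := ((Gr.li u).mul (Gr.li u)).cmul 4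
  have h2 : Gr fun h : V → ℤ => Real.exp (2 * |li u h|) := by
    refine Gr.mk' (A := 1) (B := 2 * ‖u‖) fun h => ?_
    rw [abs_of_pos (Real.exp_pos _), one_mul]
    refine Real.exp_le_exp.2 ?_
    have := abs_li u h
    nlinarith
  have h3 := h1.mul h2
  have e : (fun h : V → ℤ => 4 * li u h ^ 2 * Real.exp (2 * |li u h|)) =
      fun h => 4 * (li u h * li u h) * Real.exp (2 * |li u h|) := by
    funext h
    ring
  rw [e]
  exact h3

theorem T_lim (hμ : EM μ) {F : ℝ → (V → ℤ) → ℝ} {F0 G : (V → ℤ) → ℝ} (hG : Gr G)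
    (hb : ∀ᶠ s in 𝓝[≠] (0 : ℝ), ∀ h, |F s h| ≤ G h)
    (hl : ∀ h, Tendsto (fun s => F s h) (𝓝[≠] 0) (𝓝 (F0 h))) (J : V → ℝ) :
    Tendsto (fun s => TM.H104.T μ J (F s)) (𝓝[≠] 0) (𝓝 (TM.H104.T μ J F0)) := by
  unfold TM.H104.T
  refine tendsto_tsum_of_dominated_convergence (bound := fun h => G h * μ h * Real.exp (li J h))
    (hμ.summ hG J) (fun h => ?_) ?_
  · exact ((hl h).mul_const _).mul_const _
  · filter_upwards [hb] with s hs h
    rw [Real.norm_eq_abs, abs_mul, abs_mul, abs_of_nonneg (hμ.nn h), abs_of_pos (Real.exp_pos _)]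
    exact mul_le_mul_of_nonneg_right (mul_le_mul_of_nonneg_right (hs h) (hμ.nn h))
      (Real.exp_pos _).le

theorem near_zero : ∀ᶠ s in 𝓝[≠] (0 : ℝ), s ≠ 0 ∧ |s| ≤ 1 := by
  have h1 : ∀ᶠ s in 𝓝 (0 : ℝ), |s| < 1 := by
    have : Tendsto (fun s : ℝ => |s|) (𝓝 0) (𝓝 |0|) := continuous_abs.tendsto 0
    rw [abs_zero] at this
    exact this.eventually_lt_const one_pos
  filter_upwards [self_mem_nhdsWithin, nhdsWithin_le_nhds h1] with s h2 h3
  exact ⟨h2, h3.le⟩

theorem Cv_cosh_kc (hμ : EM μ) (J u v : V → ℝ) {s : ℝ} (hs : s ≠ 0) :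
    Cv μ J (fun h => Real.cosh (2 * li (s • u) h)) (fun h => Real.cosh (2 * li (s • v) h)) =
      s ^ 4 * Cv μ J (fun h => kc s (li u h)) (fun h => kc s (li v h)) := by
  have gk : ∀ w : V → ℝ, Gr fun h : V → ℤ => kc s (li w h) := by
    intro w
    have h1 := Gr_cosh ((2 * s) • w)
    have h2 := (h1.sub (Gr.const 1)).cmul (s ^ 2)⁻¹
    refine (?_ : (fun h : V → ℤ => kc s (li w h)) = _) ▸ h2
    funext h
    unfold kc
    rw [li_smul]
    field_simp
  have e : ∀ w : V → ℝ, (fun h : V → ℤ => Real.cosh (2 * li (s • w) h)) =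
      fun h => s ^ 2 * kc s (li w h) + 1 := by
    intro w
    funext h
    unfold kc
    rw [li_smul, ← mul_assoc]
    field_simp
    ring
  rw [e u, e v]
  have g1 : ∀ w : V → ℝ, Gr fun h : V → ℤ => s ^ 2 * kc s (li w h) := fun w => (gk w).cmul _
  have c1 : ∀ (F : (V → ℤ) → ℝ), Gr F → Cv μ J (fun _ => (1 : ℝ)) F = 0 := by
    intro F hF
    unfold Cv
    simp only [one_mul]
    rw [Ex_one hμ]
    ring
  rw [Cv_add_left hμ J (g1 u) (Gr.const 1) ((g1 v).add (Gr.const 1)),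
    c1 _ ((g1 v).add (Gr.const 1)), Cv_comm J (fun h => s ^ 2 * kc s (li u h)),
    Cv_add_left hμ J (g1 v) (Gr.const 1) (g1 u), c1 _ (g1 u), Cv_cmul_left,
    Cv_comm J (fun h => kc s (li v h)), Cv_cmul_left]
  ring

theorem Cv_kc_lim (hμ : EM μ) (J u v : V → ℝ) :
    Tendsto (fun s : ℝ => Cv μ J (fun h => kc s (li u h)) (fun h => kc s (li v h))) (𝓝[≠] 0)
      (𝓝 (4 * Cv μ J (fun h => li u h ^ 2) (fun h => li v h ^ 2))) := by
  have t1 : ∀ w : V → ℝ, Tendsto (fun s : ℝ => TM.H104.T μ J fun h => kc s (li w h)) (𝓝[≠] 0)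
      (𝓝 (TM.H104.T μ J fun h => 2 * li w h ^ 2)) := by
    intro w
    refine T_lim hμ (Gr_kc_bd w) ?_ (fun h => kc_lim _) J
    filter_upwards [near_zero] with s hs h
    exact kc_le hs.1 hs.2 _
  have t2 : Tendsto (fun s : ℝ => TM.H104.T μ J fun h => kc s (li u h) * kc s (li v h)) (𝓝[≠] 0)
      (𝓝 (TM.H104.T μ J fun h => 2 * li u h ^ 2 * (2 * li v h ^ 2))) := by
    refine T_lim hμ ((Gr_kc_bd u).mul (Gr_kc_bd v)) ?_ (fun h => (kc_lim _).mul (kc_lim _)) J
    filter_upwards [near_zero] with s hs h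
    rw [abs_mul]
    exact mul_le_mul (kc_le hs.1 hs.2 _) (kc_le hs.1 hs.2 _) (abs_nonneg _) (by positivity)
  have hZ := (T_one_pos hμ J).ne'
  have h := ((t2.div_const (TM.H104.T μ J fun _ => 1)).sub
    (((t1 u).div_const (TM.H104.T μ J fun _ => 1)).mul ((t1 v).div_const (TM.H104.T μ J fun _ => 1))))
  have e : TM.H104.T μ J (fun h => 2 * li u h ^ 2 * (2 * li v h ^ 2)) / (TM.H104.T μ J fun _ => 1) -
      TM.H104.T μ J (fun h => 2 * li u h ^ 2) / (TM.H104.T μ J fun _ => 1) *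
        (TM.H104.T μ J (fun h => 2 * li v h ^ 2) / (TM.H104.T μ J fun _ => 1)) =
      4 * Cv μ J (fun h => li u h ^ 2) (fun h => li v h ^ 2) := by
    unfold Cv Ex
    have e1 : (TM.H104.T μ J fun h => 2 * li u h ^ 2 * (2 * li v h ^ 2)) =
        4 * TM.H104.T μ J fun h => li u h ^ 2 * li v h ^ 2 := by
      rw [← T_cmul]
      congr 1
      funext h
      ring
    rw [e1, T_cmul, T_cmul]
    field_simp
    ring
  rw [e] at h
  exact h

/-- **(LB1)** covariances in every background from the energy covariance at background `0` -/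
theorem lb1 (hμ : EM μ) (hev : Ev μ) (hpk : PK μ) (J u v : V → ℝ) :
    Cv μ J (li u) (li v) ^ 2 ≤
      1 / 2 * Real.exp (Tq μ J) * Cv μ 0 (fun h => li u h ^ 2) (fun h => li v h ^ 2) := by
  have hZJ := Zs_pos hμ J
  have hZ0 := Zs_pos hμ (0 : V → ℝ)
  have hZ2 := Zs_pos hμ ((2 : ℝ) • J)
  -- the inequality at `s ≠ 0`
  have h1 : ∀ s : ℝ, s ≠ 0 →
      ((Ker μ J (s • (u + v)) - Ker μ J ((0 : ℝ) • (u + v))) / s ^ 2 -
        (Ker μ J (s • (u - v)) - Ker μ J ((0 : ℝ) • (u - v))) / s ^ 2) ^ 2 ≤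
      Ker μ J J * (2 * Zs μ 0 ^ 2 *
        Cv μ 0 (fun h => kc s (li u h)) (fun h => kc s (li v h))) := by
    intro s hs
    have h2 := three hev hpk J (s • u + s • v) (s • u - s • v)
    rw [rhs_eq hμ hev, Cv_cosh_kc hμ 0 u v hs, ← smul_add, ← smul_sub] at h2
    have hs4 : 0 < s ^ 4 := by positivity
    have e1 : ((Ker μ J (s • (u + v)) - Ker μ J ((0 : ℝ) • (u + v))) / s ^ 2 -
        (Ker μ J (s • (u - v)) - Ker μ J ((0 : ℝ) • (u - v))) / s ^ 2) ^ 2 =
        (Ker μ J (s • (u + v)) - Ker μ J (s • (u - v))) ^ 2 / s ^ 4 := by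
      rw [zero_smul, zero_smul]
      field_simp
      ring
    rw [e1, div_le_iff₀ hs4]
    refine h2.trans (le_of_eq ?_)
    ring
  have h2 := ((ker_quad hμ J (u + v)).sub (ker_quad hμ J (u - v))).pow 2
  have h3 := ((Cv_kc_lim hμ 0 u v).const_mul (2 * Zs μ 0 ^ 2)).const_mul (Ker μ J J)
  have h4 := le_of_tendsto_of_tendsto h2 h3 (by
    filter_upwards [self_mem_nhdsWithin] with s hs
    exact h1 s hs)
  rw [← mul_sub, Cv_polar hμ] at h4
  have h5 : Real.exp (Tq μ J) = Zs μ ((2 : ℝ) • J) * Zs μ 0 ^ 3 / Zs μ J ^ 4 := by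
    unfold Tq Lg
    have e1 : Real.log (TM.H104.T μ ((2 : ℝ) • J) fun _ => 1) = Real.log (Zs μ ((2 : ℝ) • J)) := rfl
    have e2 : Real.log (TM.H104.T μ J fun _ => 1) = Real.log (Zs μ J) := rfl
    have e3 : Real.log (TM.H104.T μ 0 fun _ => 1) = Real.log (Zs μ 0) := rfl
    rw [e1, e2, e3]
    have e4 : Real.log (Zs μ ((2 : ℝ) • J)) - 4 * Real.log (Zs μ J) + 3 * Real.log (Zs μ 0) =
        Real.log (Zs μ ((2 : ℝ) • J) * Zs μ 0 ^ 3 / Zs μ J ^ 4) := by
      rw [Real.log_div (by positivity) (by positivity), Real.log_mul (by positivity) (by positivity),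
        Real.log_pow, Real.log_pow]
      push_cast
      ring
    rw [e4, Real.exp_log (by positivity)]
  have h6 : Ker μ J J = Zs μ ((2 : ℝ) • J) * Zs μ 0 := by
    unfold Ker
    rw [sub_self, two_smul]
  rw [h6] at h4
  rw [h5]
  have hC : 0 < Zs μ J ^ 4 := by positivity
  rw [mul_div_assoc', div_mul_eq_mul_div, le_div_iff₀ hC]
  nlinarith [h4]

/-! ### mixed differences -/

theorem hasDerivAt_Lg' (hμ : EM μ) (u v : V → ℝ) (s : ℝ) :
    HasDerivAt (fun s : ℝ => Lg μ (u + s • v)) (Ex μ (u + s • v) (li v)) s :=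
  hasDerivAt_Lg hμ u v s

/-- **(LB2), exact form**: the mixed difference of `log Z` is a covariance at an intermediate
source -/
theorem mixed_eq (hμ : EM μ) (J0 J1 J2 : V → ℝ) :
    ∃ a ∈ Set.Icc (0 : ℝ) 1, ∃ b ∈ Set.Icc (0 : ℝ) 1,
      Lg μ (J0 + J1 + J2) - Lg μ (J0 + J1) - Lg μ (J0 + J2) + Lg μ J0 =
        Cv μ (J0 + a • J1 + b • J2) (li J1) (li J2) := by
  -- first mean value theorem
  have h1 : ∀ s : ℝ, HasDerivAt (fun s : ℝ => Lg μ ((J0 + J2) + s • J1) - Lg μ (J0 + s • J1))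
      (Ex μ ((J0 + J2) + s • J1) (li J1) - Ex μ (J0 + s • J1) (li J1)) s := fun s =>
    (hasDerivAt_Lg hμ (J0 + J2) J1 s).sub (hasDerivAt_Lg hμ J0 J1 s)
  obtain ⟨a, ha, hae⟩ := exists_hasDerivAt_eq_slope
    (fun s : ℝ => Lg μ ((J0 + J2) + s • J1) - Lg μ (J0 + s • J1))
    (fun s => Ex μ ((J0 + J2) + s • J1) (li J1) - Ex μ (J0 + s • J1) (li J1)) one_pos
    (fun s _ => (h1 s).continuousAt.continuousWithinAt) fun s _ => h1 s
  have h2 : ∀ s : ℝ, HasDerivAt (fun s : ℝ => Ex μ ((J0 + a • J1) + s • J2) (li J1))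
      (Cv μ ((J0 + a • J1) + s • J2) (li J1) (li J2)) s := fun s =>
    hasDerivAt_Ex hμ (Gr.li J1) (J0 + a • J1) J2 s
  obtain ⟨b, hb, hbe⟩ := exists_hasDerivAt_eq_slope
    (fun s : ℝ => Ex μ ((J0 + a • J1) + s • J2) (li J1))
    (fun s => Cv μ ((J0 + a • J1) + s • J2) (li J1) (li J2)) one_pos
    (fun s _ => (h2 s).continuousAt.continuousWithinAt) fun s _ => h2 s
  refine ⟨a, ⟨ha.1.le, ha.2.le⟩, b, ⟨hb.1.le, hb.2.le⟩, ?_⟩
  rw [hbe]
  simp only [one_smul, zero_smul, add_zero, sub_zero, div_one] at hae ⊢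
  have e1 : J0 + J1 + J2 = J0 + J2 + J1 := by abel
  have e2 : J0 + a • J1 + J2 = J0 + J2 + a • J1 := by abel
  rw [e1, e2, hae]
  ring

/-- **(LB2)** -/
theorem lb2 (hμ : EM μ) (hev : Ev μ) (hpk : PK μ) (J0 J1 J2 : V → ℝ) {τ : ℝ}
    (hτ : ∀ a ∈ Set.Icc (0 : ℝ) 1, ∀ b ∈ Set.Icc (0 : ℝ) 1,
      Tq μ (J0 + a • J1 + b • J2) ≤ τ) :
    |Lg μ (J0 + J1 + J2) - Lg μ (J0 + J1) - Lg μ (J0 + J2) + Lg μ J0| ≤
      Real.exp (τ / 2) *
        √(Cv μ 0 (fun h => li J1 h ^ 2) (fun h => li J2 h ^ 2) / 2) := by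
  obtain ⟨a, ha, b, hb, he⟩ := mixed_eq hμ J0 J1 J2
  rw [he]
  have h1 := lb1 hμ hev hpk (J0 + a • J1 + b • J2) J1 J2
  have h2 := Real.exp_le_exp.2 (hτ a ha b hb)
  have h3 : 0 ≤ Cv μ 0 (fun h => li J1 h ^ 2) (fun h => li J2 h ^ 2) := by
    have h4 := (sq_nonneg _).trans h1
    have h5 : 0 < 1 / 2 * Real.exp (Tq μ (J0 + a • J1 + b • J2)) := by positivity
    exact nonneg_of_mul_nonneg_right h4 h5
  have h4 : Real.exp (τ / 2) * √(Cv μ 0 (fun h => li J1 h ^ 2) (fun h => li J2 h ^ 2) / 2) =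
      √(1 / 2 * Real.exp τ * Cv μ 0 (fun h => li J1 h ^ 2) (fun h => li J2 h ^ 2)) := by
    have e1 : Real.exp (τ / 2) = √(Real.exp τ) := by
      rw [eq_comm, Real.sqrt_eq_iff_mul_self_eq (Real.exp_pos _).le (Real.exp_pos _).le,
        ← Real.exp_add]
      congr 1
      ring
    rw [e1, ← Real.sqrt_mul (Real.exp_pos _).le]
    congr 1
    ring
  rw [h4, ← Real.sqrt_sq_eq_abs]
  refine Real.sqrt_le_sqrt (h1.trans ?_)
  nlinarith

end Vale.Agent.P159.H612
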