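import Vale.Agent.P159.H612.Nearg5
import Vale.Agent.P159.H239.Typ

/-!
P159 / GLUE P_up, module NEARG (helper612), part 6.

* `wsep_tn` : separation for windows `{x | tn (cx x - w) ≤ Kw}` (helper447's windows);
* `wsep_wnd` : any windows containing these cells;
* `NearH.of_typ` : `NearH` from `TypE` (helper239) at both priors and the window data `WinH`.
-/

set_option linter.unusedSectionVars false

namespace Vale.Agent.P159.H612

open Finset Matrix MeasureTheory ProbabilityTheory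
open Vale.Agent.P159.TM.H104 (EM Ex Cv K3 Lg li nh Gr)
open Vale.Agent.P159.H37
open Vale.Agent.P159.H159 (Ct)
open Vale.Agent.P159.TM.Spec (V)
open Vale.Agent.P159.TM.SpecC (wT)
open Vale.Agent.P159.TM.H459 (sd)
open Vale.Agent.P159.TM.H859 (tn tn_add_le tn_neg)
open Vale.Agent.P159.H963 (Neu nwt Pn obsN Gnc)
open Vale.Agent.P159.H447 (Maj NR CN SN Bnwt maj_nwt Tst K4S cl cl_nonneg psd_gram psd_conj_sub
  law_tor WA WinH ct_dB)
open Vale.Agent.P159.H692 (cx)
open Vale.Agent.P159.H730 (wN)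
open Vale.Agent.P159.H239 (cbM dNm TypE)
open Vale.Agent.P159.H859 (Sgn wc dB Lw)

noncomputable section

section geo

variable {N l nb m : ℕ} [NeZero N] [NeZero (N / l)] [NeZero nb] [NeZero m]

/-- **separation**: window `⊇ {tn (cx x - w) ≤ Kw}`, reference set in one further box `w₁` -/
theorem wsep_tn (hl : l ∣ N) (hn : N / l = nb * m) {K Kw : ℕ} (hK : K + 5 ≤ Kw) {w w' w₁ : V nb}
    (hw : tn (w' - w) ≤ K) {ww w₀ : Finset (V (N / l))}
    (h1 : ∀ x, tn (cx nb m x - w) ≤ Kw → x ∈ ww) (hne : w₀.Nonempty)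
    (h₀ : ∀ x ∈ w₀, cx nb m x = w₁) (hw1 : w₁ ≠ w) (hw1' : w₁ ≠ w') :
    Wsep (N := N) l ww w₀ (bxp (N / l) m w w') (((Kw - K : ℕ) : ℝ) * (l * m) / 2) := by
  have hS : ∀ x : V (N / l), x ∈ bxp (N / l) m w w' → cx nb m x = w ∨ cx nb m x = w' := by
    intro x hx
    unfold bxp at hx
    rw [Finset.mem_filter] at hx
    exact hx.2
  have hS' : ∀ x : V (N / l), x ∈ bxp (N / l) m w w' → tn (cx nb m x - w) ≤ K := by
    intro x hx
    rcases hS x hx with h | h
    · rw [h, sub_self]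
      have h0 : tn (0 : V nb) = 0 := H239.tn_zero'
      rw [h0]
      exact Nat.cast_nonneg K
    · rw [h]
      exact hw
  have hKK : (K : ℝ) ≤ Kw := by exact_mod_cast (by omega : K ≤ Kw)
  refine ⟨fun x hx => h1 x ((hS' x hx).trans hKK), hne, ?_, fun x z hx hz => ?_⟩
  · rw [Finset.disjoint_left]
    intro x hx hx'
    have h2 := h₀ x hx'
    rcases hS x hx with h | h
    · exact hw1 (h2.symm.trans h)
    · exact hw1' (h2.symm.trans h)
  · have h2 : (Kw : ℝ) < tn (cx nb m (H864.cl x : V (N / l)) - w) := by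
      by_contra hc
      exact hx (h1 _ (not_lt.1 hc))
    have h3 := hS' _ hz
    have h4 : cx nb m (H864.cl x : V (N / l)) - w =
        -(cx nb m (H864.cl z : V (N / l)) - cx nb m (H864.cl x : V (N / l))) +
          (cx nb m (H864.cl z : V (N / l)) - w) := by abel
    have h5 : tn (cx nb m (H864.cl x : V (N / l)) - w) ≤
        tn (cx nb m (H864.cl z : V (N / l)) - cx nb m (H864.cl x : V (N / l))) +
          tn (cx nb m (H864.cl z : V (N / l)) - w) := by
      rw [h4]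
      refine (tn_add_le _ _).trans ?_
      rw [tn_neg]
    have h6 : ((Kw - K : ℕ) : ℝ) <
        tn (cx nb m (H864.cl z : V (N / l)) - cx nb m (H864.cl x : V (N / l))) := by
      have e : ((Kw - K : ℕ) : ℝ) = (Kw : ℝ) - K := by
        rw [Nat.cast_sub (by omega)]
      rw [e]
      linarith
    exact H43.far_sd hl (NeZero.pos m) hn (K := Kw - K) (by omega) h6 rfl rfl

/-- a smaller distance -/
lemma Wsep.mono {w w₀ S : Finset (V (N / l))} {R R' : ℝ} (h : Wsep (N := N) l w w₀ S R)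
    (hR : R' ≤ R) : Wsep (N := N) l w w₀ S R' :=
  ⟨h.sub, h.ne, h.dj, fun x z hx hz => hR.trans (h.sep x z hx hz)⟩

end geo

section typ

variable {N l nb m : ℕ} [NeZero N] [NeZero (N / l)] [NeZero nb] [NeZero m]
variable {I J : Type*} [Fintype I] [Fintype J]

/-- **`NearH` from typical sources** -/
theorem NearH.of_typ {K : ℕ} {b T a c : ℝ} {Aa : Matrix (V (N / l)) I ℝ}
    {Ac : Matrix (V (N / l)) J ℝ} {ρw n : ℕ} {R D e lam p β q κ ω ρ pe Y ρ₁ p₁ : ℝ}
    (dl : l ∣ N) (b0 : 0 < b) (a0 : 0 < a) (ac : a ≤ c) (cT : c ≤ T / 2)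
    (ca : Aa * Aaᵀ = Sgn N l b T a) (cc : Ac * Acᵀ = Sgn N l b T c) (D0 : 0 < D) (lam0 : 0 ≤ lam)
    (q0 : 0 < q)
    (win : ∀ w w' : V nb, tn (w' - w) ≤ K → ∃ (ww w₀ : Finset (V (N / l))) (ce : V (N / l)),
      WinH N l b T a ww w₀ ce ρw n Aa D lam p β q ∧
      WinH N l b T c ww w₀ ce ρw n Ac D lam p β q ∧
      Wsep (N := N) l ww w₀ (bxp (N / l) m w w') R)
    (inc : 8 * (c / T) * wc N l ρw b T a ≤ 1) (e0 : 0 < e) (e1 : e ≤ 1) (k0 : 0 ≤ κ)
    (pu : PUH N b T R κ ω)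
    (ta : TypE N l b T a Y ρ₁ p₁) (tc : TypE N l b T c Y ρ₁ p₁) (hY : 4 ≤ Y) (hρ₁ : ρ₁ ≤ 1)
    (hp₁ : p₁ ≤ 1 / 2) (bX : 48 * p₁ ≤ β)
    (ea : TypE N l b T a 1 ρ pe) (ec : TypE N l b T c 1 ρ pe) (rho0 : 0 ≤ ρ) (pe1 : pe ≤ 1) :
    NearH N l nb m K b T a c Aa Ac ρw n R D e lam p β q (6 * p₁) κ ω ρ pe
      (fun _ => {J | Rs (nwt N b T 0) ((1 : ℝ) • J) ≤ ρ}) where
  dl := dl
  b0 := b0
  a0 := a0
  ac := ac
  cT := cT
  ca := ca
  D0 := D0
  lam0 := lam0
  q0 := q0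
  win := win
  inc := inc
  e0 := e0
  e1 := e1
  k0 := k0
  pu := pu
  xa := by
    have T0 : 0 < T := by linarith
    exact (H239.gauss_amp b0.le T0 _ (by norm_num) hY hρ₁).trans
      (ta.gauss b0.le dl a0 (by linarith) ca (by linarith) hρ₁ hp₁)
  xc := by
    have T0 : 0 < T := by linarith
    exact (H239.gauss_amp b0.le T0 _ (by norm_num) hY hρ₁).trans
      (tc.gauss b0.le dl (a0.trans_le ac) (by linarith) cc (by linarith) hρ₁ hp₁)
  bX := by linarith
  rho0 := rho0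
  pe0 := ea.nonneg b0.le dl a0 (by linarith)
  pe1 := pe1
  gm := fun s _ => H239.typ_meas b0.le (by linarith) 1 ρ
  gr := fun s _ J hJ => by
    have h1 : Rs (nwt N b T 0) ((1 : ℝ) • J) ≤ ρ := hJ
    rwa [one_smul] at h1
  gp := fun s hs => by
    rcases hs with hs | hs
    · rw [hs]
      exact ea
    · rw [hs]
      exact ec

end typ

end

end Vale.Agent.P159.H612
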