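import Vale.Agent.P159.H770.DisS

/-!
P159 / second order flow, module MEAND (helper612): comparison of two dislocated data through the
flattened data `X - Y` (exact inequalities of the half dislocation Gram kernel).
`X = (b; J)`, `Y = (c; K)`, `X - Y = (b - c; J - K)`.

* `mean3` : `(E^X u - E^Y u - E^{X-Y} u)² ≤ (e^{T'(X,Y)} - 1) (C^{X-Y} - C⁰)(u,u)`,
* `mean_cmp` : `(E^X u - E^Y u)² ≤ e^{T'(X,Y)} (E^{X-Y} u² - E⁰ u²)`,
* `lg_cmp` : real finite changes: `|Δ log Z| ≤ e^{τ/2} √(E^{X-Y} u² - E⁰ u²)`,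
* `locV` : two arbitrary (dislocated) changes `u`, `w` of an arbitrary background `P`, from the
  background `0`.
-/

open scoped Topology
open Finset Filter

namespace Vale.Agent.P159.H612

open Vale.Agent.P159.TM.H104 (EM T Ex Cv Lg li nh Gr)
open Vale.Agent.P159.H37
open Vale.Agent.P159.H770

/-- three point inequality of a symmetric PSD kernel -/
theorem three_psd {X : Type*} {K : X → X → ℝ} (h : PSDF K) (hs : ∀ a c, K a c = K c a)
    (a p q : X) : (K a p - K a q) ^ 2 ≤ K a a * (K p p + K q q - 2 * K p q) := by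
  have key : ∀ c d : ℝ, 0 ≤ c ^ 2 * K a a + 2 * (c * d * (K a p - K a q)) +
      d ^ 2 * (K p p + K q q - 2 * K p q) := by
    intro c d
    have h1 := h 3 ![a, p, q] ![c, d, -d]
    simp only [Fin.sum_univ_three, Matrix.cons_val_zero, Matrix.cons_val_one,
      Matrix.cons_val] at h1
    rw [hs p a, hs q a, hs q p] at h1
    linarith
  exact H789.disc key

section family

variable {B V : Type} [AddCommGroup B] [Fintype V] {W : B → (V → ℤ) → ℝ}

/-- `T'(X,Y) = log Z(X+Y) Z(X-Y) Z(0)² / (Z(X)² Z(Y)²)` -/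
noncomputable def TpD (W : B → (V → ℤ) → ℝ) (b c : B) (J K : V → ℝ) : ℝ :=
  Lg (W (b + c)) (J + K) + Lg (W (b - c)) (J - K) + 2 * Lg (W 0) 0 - 2 * Lg (W b) J -
    2 * Lg (W c) K

theorem TpD_nonneg (hW : DisF W) (b c : B) (J K : V → ℝ) : 0 ≤ TpD W b c J K := by
  have h := hW.gin b c J K
  have p1 := hW.pos b J
  have p2 := hW.pos c K
  have p3 := hW.pos 0 0
  have p4 := hW.pos (b + c) (J + K)
  have p5 := hW.pos (b - c) (J - K)
  have h1 := Real.log_le_log (by positivity) h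
  rw [Real.log_pow, Real.log_mul p1.ne' p2.ne', Real.log_mul (by positivity) (by positivity),
    Real.log_pow, Real.log_mul p4.ne' p5.ne'] at h1
  push_cast at h1
  unfold TpD
  have e : ∀ b : B, ∀ J : V → ℝ, Lg (W b) J = Real.log (Zs (W b) J) := fun _ _ => rfl
  rw [e, e, e, e, e]
  linarith

/-- the exponent of the metric inequality with base `X - Y` -/
noncomputable def dG (W : B → (V → ℤ) → ℝ) (b c : B) (J K a : V → ℝ) : ℝ :=
  Lg (W b) (J + a) + Lg (W c) (K - a) + Lg (W (b - c)) (J - K) + Lg (W 0) 0 -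
    Lg (W b) J - Lg (W c) K - Lg (W (b - c)) (J - K + a) - Lg (W 0) a

theorem dG_le (hW : DisF W) (b c : B) (J K a : V → ℝ) :
    (Real.exp (dG W b c J K a) - 1) ^ 2 ≤
      (Real.exp (TpD W b c J K) - 1) * (Real.exp (TqD W (b - c) (J - K) a) - 1) := by
  have h := met2 (hW.ppB (b - c, J - K)) hW.negB (fun a => hW.posB _) (fun a => hW.posB _)
    (c, K) (0, a)
  simp only [ZB, Prod.mk_add_mk, Prod.mk_sub_mk, Prod.fst_zero, Prod.snd_zero, add_zero,
    sub_add_cancel, sub_zero] at h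
  have e1 : b - c + (c + c) = b + c := by abel
  have e2 : J - K + (K + K) = J + K := by abel
  have e3 : J - K + (K + a) = J + a := by abel
  have e4 : b - c + c = b := by abel
  have e5 : J - K + K = J := by abel
  simp only [e1, e2, e3] at h
  rw [← exp_TqD hW] at h
  have q1 : Real.exp (dG W b c J K a) = Zs (W b) (J + a) * Zs (W c) (K - a) *
      (Zs (W (b - c)) (J - K) * Zs (W 0) 0) /
        (Zs (W b) J * Zs (W c) K * (Zs (W (b - c)) (J - K + a) * Zs (W 0) a)) := by
    unfold dG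
    simp only [← exp_LgB hW]
    simp only [← Real.exp_add, ← Real.exp_sub]
    congr 1
    ring
  have q2 : Real.exp (TpD W b c J K) = Zs (W (b + c)) (J + K) * Zs (W (b - c)) (J - K) *
      Zs (W 0) 0 ^ 2 / (Zs (W b) J * Zs (W c) K) ^ 2 := by
    unfold TpD
    simp only [← exp_LgB hW]
    simp only [← Real.exp_add, ← Real.exp_nat_mul, ← Real.exp_sub]
    congr 1
    push_cast
    ring
  rw [q1, q2]
  exact h

theorem hasDerivAt_dG (hW : DisF W) (b c : B) (J K u : V → ℝ) :
    HasDerivAt (fun s : ℝ => Real.exp (dG W b c J K (s • u)))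
      (Ex (W b) J (li u) - Ex (W c) K (li u) - Ex (W (b - c)) (J - K) (li u)) 0 := by
  have d1 := TM.H104.hasDerivAt_Lg (hW.em b) J u 0
  have d2 := TM.H104.hasDerivAt_Lg (hW.em c) K (-u) 0
  have d3 := TM.H104.hasDerivAt_Lg (hW.em (b - c)) (J - K) u 0
  have d4 := TM.H104.hasDerivAt_Lg (hW.em 0) 0 u 0
  have e : (fun s : ℝ => dG W b c J K (s • u)) = fun s : ℝ =>
      Lg (W b) (J + s • u) + Lg (W c) (K + s • (-u)) + Lg (W (b - c)) (J - K) + Lg (W 0) 0 -
        Lg (W b) J - Lg (W c) K - Lg (W (b - c)) (J - K + s • u) - Lg (W 0) (0 + s • u) := by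
    funext s
    unfold dG
    rw [zero_add, smul_neg, ← sub_eq_add_neg]
  have h := ((((((d1.add d2).add_const (Lg (W (b - c)) (J - K))).add_const
    (Lg (W 0) 0)).sub_const (Lg (W b) J)).sub_const (Lg (W c) K)).sub d3).sub d4
  have h' := h.congr_of_eventuallyEq (f₁ := fun s : ℝ => dG W b c J K (s • u))
    (Eventually.of_forall fun s => congrFun e s)
  have h2 := h'.exp
  have e0 : dG W b c J K ((0 : ℝ) • u) = 0 := by
    unfold dG
    rw [zero_smul, add_zero, sub_zero, add_zero]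
    ring
  refine h2.congr_deriv ?_
  rw [e0, Real.exp_zero]
  simp only [zero_smul, add_zero, H789.Ex_zero_li hW.ev0, Ex_li_neg]
  ring

/-- **mean comparison, three term form** -/
theorem mean3 (hW : DisF W) (b c : B) (J K u : V → ℝ) :
    (Ex (W b) J (li u) - Ex (W c) K (li u) - Ex (W (b - c)) (J - K) (li u)) ^ 2 ≤
      (Real.exp (TpD W b c J K) - 1) *
        (Cv (W (b - c)) (J - K) (li u) (li u) - Cv (W 0) 0 (li u) (li u)) := by
  have h2 := (hasDerivAt_iff_tendsto_slope.1 (hasDerivAt_dG hW b c J K u)).pow 2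
  have h3 := (lim_TqD hW (b - c) (J - K) u).const_mul (Real.exp (TpD W b c J K) - 1)
  refine le_of_tendsto_of_tendsto h2 h3 ?_
  filter_upwards [self_mem_nhdsWithin] with s hs
  have e0 : dG W b c J K 0 = 0 := by
    unfold dG
    rw [add_zero, sub_zero, add_zero]
    ring
  rw [slope_def_field, zero_smul, sub_zero, div_pow, e0, Real.exp_zero, ← mul_div_assoc]
  exact div_le_div_of_nonneg_right (dG_le hW b c J K (s • u)) (sq_nonneg s)

/-- the excess second moment `N(X;u) = E^X u² - E⁰ u²` -/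
noncomputable def NX (W : B → (V → ℤ) → ℝ) (b : B) (J u : V → ℝ) : ℝ :=
  Ex (W b) J (fun h => li u h ^ 2) - Ex (W 0) 0 (fun h => li u h ^ 2)

theorem NX_eq (hW : DisF W) (b : B) (J u : V → ℝ) :
    NX W b J u = (Cv (W b) J (li u) (li u) - Cv (W 0) 0 (li u) (li u)) +
      Ex (W b) J (li u) ^ 2 := by
  have e : (fun h : V → ℤ => li u h ^ 2) = fun h => li u h * li u h := by
    funext h
    ring
  unfold NX TM.H104.Cv
  rw [e, H789.Ex_zero_li hW.ev0]
  ring

theorem Cv_ex_nonneg (hW : DisF W) (b : B) (J u : V → ℝ) :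
    0 ≤ Cv (W b) J (li u) (li u) - Cv (W 0) 0 (li u) (li u) :=
  sub_nonneg.2 (Cv_monoD hW b J u)

theorem NX_nonneg (hW : DisF W) (b : B) (J u : V → ℝ) : 0 ≤ NX W b J u := by
  rw [NX_eq hW]
  exact add_nonneg (Cv_ex_nonneg hW b J u) (sq_nonneg _)

/-- **mean comparison**: two dislocated data -/
theorem mean_cmp (hW : DisF W) (b c : B) (J K u : V → ℝ) :
    (Ex (W b) J (li u) - Ex (W c) K (li u)) ^ 2 ≤
      Real.exp (TpD W b c J K) * NX W (b - c) (J - K) u := by
  have h := mean3 hW b c J K u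
  have hP := Cv_ex_nonneg hW (b - c) (J - K) u
  have hT := Real.one_le_exp (TpD_nonneg hW b c J K)
  rw [NX_eq hW]
  set d := Ex (W b) J (li u) - Ex (W c) K (li u) - Ex (W (b - c)) (J - K) (li u) with hd
  set m := Ex (W (b - c)) (J - K) (li u) with hm
  set P := Cv (W (b - c)) (J - K) (li u) (li u) - Cv (W 0) 0 (li u) (li u) with hPd
  set E := Real.exp (TpD W b c J K) with hE
  have e : Ex (W b) J (li u) - Ex (W c) K (li u) = d + m := by
    rw [hd]
    ring
  rw [e]
  have h0 : 0 ≤ P + (E - 1) * m ^ 2 := add_nonneg hP (mul_nonneg (by linarith) (sq_nonneg _))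
  have h1 : (2 * (d * m)) ^ 2 ≤ (P + (E - 1) * m ^ 2) ^ 2 := by
    have h2 : d ^ 2 * m ^ 2 ≤ (E - 1) * P * m ^ 2 := mul_le_mul_of_nonneg_right h (sq_nonneg m)
    nlinarith [sq_nonneg (P - (E - 1) * m ^ 2)]
  have h2 := abs_le_of_sq_le_sq h1 h0
  have h3 := (abs_le.1 h2).2
  nlinarith

/-- comparison of the values under a finite real change `u` -/
theorem lg_cmp (hW : DisF W) (b c : B) (J K u : V → ℝ) {τ : ℝ}
    (hτ : ∀ s ∈ Set.Icc (0 : ℝ) 1, TpD W b c (J + s • u) (K + s • u) ≤ τ) :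
    |Lg (W b) (J + u) - Lg (W b) J - Lg (W c) (K + u) + Lg (W c) K| ≤
      Real.exp (τ / 2) * √(NX W (b - c) (J - K) u) := by
  have h1 : ∀ s : ℝ, HasDerivAt (fun s : ℝ => Lg (W b) (J + s • u) - Lg (W c) (K + s • u))
      (Ex (W b) (J + s • u) (li u) - Ex (W c) (K + s • u) (li u)) s := fun s =>
    (TM.H104.hasDerivAt_Lg (hW.em b) J u s).sub (TM.H104.hasDerivAt_Lg (hW.em c) K u s)
  obtain ⟨s, hs, hse⟩ := exists_hasDerivAt_eq_slope
    (fun s : ℝ => Lg (W b) (J + s • u) - Lg (W c) (K + s • u))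
    (fun s => Ex (W b) (J + s • u) (li u) - Ex (W c) (K + s • u) (li u)) one_pos
    (fun s _ => (h1 s).continuousAt.continuousWithinAt) fun s _ => h1 s
  simp only [one_smul, zero_smul, add_zero, sub_zero, div_one] at hse
  have h2 : Lg (W b) (J + u) - Lg (W b) J - Lg (W c) (K + u) + Lg (W c) K =
      Ex (W b) (J + s • u) (li u) - Ex (W c) (K + s • u) (li u) := by
    rw [hse]
    ring
  have h3 := mean_cmp hW b c (J + s • u) (K + s • u) u
  have e : J + s • u - (K + s • u) = J - K := by abel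
  rw [e] at h3
  have hN := NX_nonneg hW (b - c) (J - K) u
  have h4 : Real.exp (TpD W b c (J + s • u) (K + s • u)) ≤ Real.exp τ :=
    Real.exp_le_exp.2 (hτ s ⟨hs.1.le, hs.2.le⟩)
  have h5 := h3.trans (mul_le_mul_of_nonneg_right h4 hN)
  rw [h2]
  refine abs_le_of_sq_le_sq ?_ (by positivity)
  rw [mul_pow, Real.sq_sqrt hN, ← Real.exp_nat_mul]
  refine h5.trans (le_of_eq ?_)
  congr 2
  push_cast
  ring

/-- **two arbitrary changes `u`, `w` of an arbitrary background `P`** (group elements of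
`B × (V → ℝ)`, dislocated or real), from the background `0` -/
theorem locV (hW : DisF W) (P u w : B × (V → ℝ)) :
    (ZB W (P + u + w) * ZB W P - ZB W (P + u) * ZB W (P + w)) ^ 2 ≤
      ZB W (P + P + u + w) * ZB W 0 *
        (ZB W 0 * (ZB W (u + w) + ZB W (u - w)) - 2 * (ZB W u * ZB W w)) := by
  have h := three_psd (hW.ppB (u + w)) (kp_symm hW.negB) P 0 (-w)
  simp only [kp] at h
  have e1 : u + w + (P + 0) = P + u + w := by abel
  have e2 : P - 0 = P := by abel
  have e3 : u + w + (P + -w) = P + u := by abel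
  have e4 : P - -w = P + w := by abel
  have e5 : u + w + (P + P) = P + P + u + w := by abel
  have e6 : P - P = 0 := by abel
  have e7 : u + w + (0 + 0) = u + w := by abel
  have e8 : (0 : B × (V → ℝ)) - 0 = 0 := by abel
  have e9 : u + w + (-w + -w) = u - w := by abel
  have e10 : -w - -w = 0 := by abel
  have e11 : u + w + (0 + -w) = u := by abel
  have e12 : (0 : B × (V → ℝ)) - -w = w := by abel
  rw [e1, e2, e3, e4, e5, e6, e7, e8, e9, e10, e11, e12] at h
  refine h.trans (le_of_eq ?_)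
  ring

/-- logarithms on the group -/
noncomputable def LB (W : B → (V → ℤ) → ℝ) (X : B × (V → ℝ)) : ℝ := Lg (W X.1) X.2

theorem exp_LB (hW : DisF W) (X : B × (V → ℝ)) : Real.exp (LB W X) = ZB W X :=
  exp_LgB hW X.1 X.2

/-- mixed difference of `log Z` at `P` -/
noncomputable def mx (W : B → (V → ℤ) → ℝ) (P u w : B × (V → ℝ)) : ℝ :=
  LB W (P + u + w) + LB W P - LB W (P + u) - LB W (P + w)

/-- the price -/
noncomputable def prc (W : B → (V → ℤ) → ℝ) (P u w : B × (V → ℝ)) : ℝ :=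
  LB W (P + P + u + w) + LB W u + LB W w - LB W 0 - 2 * LB W (P + u) - 2 * LB W (P + w) +
    2 * LB W 0

theorem exp_mx0 (hW : DisF W) (u w : B × (V → ℝ)) :
    Real.exp (mx W 0 u w) = ZB W (u + w) * ZB W 0 / (ZB W u * ZB W w) := by
  unfold mx
  simp only [← exp_LB hW, zero_add, ← Real.exp_add, ← Real.exp_sub]
  congr 1
  ring

theorem exp_mx0' (hW : DisF W) (u w : B × (V → ℝ)) :
    Real.exp (mx W 0 u (-w)) = ZB W (u - w) * ZB W 0 / (ZB W u * ZB W w) := by
  rw [exp_mx0 hW, hW.negB, ← sub_eq_add_neg]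

theorem mx_zero_ge (hW : DisF W) (u w : B × (V → ℝ)) :
    0 ≤ Real.exp (mx W 0 u w) + Real.exp (mx W 0 u (-w)) - 2 := by
  have h := hW.gin2 u.1 w.1 u.2 w.2
  have pu := hW.posB u
  have pw := hW.posB w
  rw [exp_mx0 hW, exp_mx0' hW, ← add_div, sub_nonneg, le_div_iff₀ (by positivity)]
  have h' : 2 * (ZB W u * ZB W w) ≤ ZB W 0 * (ZB W (u + w) + ZB W (u - w)) := h
  linarith

/-- `locV` in logarithms -/
theorem locV_log (hW : DisF W) (P u w : B × (V → ℝ)) :
    (Real.exp (mx W P u w) - 1) ^ 2 ≤ Real.exp (prc W P u w) *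
      (Real.exp (mx W 0 u w) + Real.exp (mx W 0 u (-w)) - 2) := by
  have h := locV hW P u w
  have e1 := exp_mx0 hW u w
  have e2 := exp_mx0' hW u w
  have e3 : Real.exp (mx W P u w) = ZB W (P + u + w) * ZB W P /
      (ZB W (P + u) * ZB W (P + w)) := by
    unfold mx
    simp only [← exp_LB hW, ← Real.exp_add, ← Real.exp_sub]
    congr 1
    ring
  have e4 : Real.exp (prc W P u w) = ZB W (P + P + u + w) * ZB W u * ZB W w * ZB W 0 /
      (ZB W (P + u) * ZB W (P + w)) ^ 2 := by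
    unfold prc
    simp only [← exp_LB hW, ← Real.exp_add, ← Real.exp_nat_mul, ← Real.exp_sub]
    congr 1
    push_cast
    ring
  have p0 := hW.posB 0
  have pu := hW.posB u
  have pw := hW.posB w
  have pPu := hW.posB (P + u)
  have pPw := hW.posB (P + w)
  rw [e1, e2, e3, e4]
  have l : (ZB W (P + u + w) * ZB W P / (ZB W (P + u) * ZB W (P + w)) - 1) ^ 2 =
      (ZB W (P + u + w) * ZB W P - ZB W (P + u) * ZB W (P + w)) ^ 2 /
        (ZB W (P + u) * ZB W (P + w)) ^ 2 := by
    rw [← div_pow]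
    congr 1
    field_simp
  rw [l]
  have r : ZB W (P + P + u + w) * ZB W u * ZB W w * ZB W 0 /
      (ZB W (P + u) * ZB W (P + w)) ^ 2 * (ZB W (u + w) * ZB W 0 / (ZB W u * ZB W w) +
        ZB W (u - w) * ZB W 0 / (ZB W u * ZB W w) - 2) =
      ZB W (P + P + u + w) * ZB W 0 *
        (ZB W 0 * (ZB W (u + w) + ZB W (u - w)) - 2 * (ZB W u * ZB W w)) /
        (ZB W (P + u) * ZB W (P + w)) ^ 2 := by
    field_simp
  rw [r]
  exact div_le_div_of_nonneg_right h (by positivity)

end family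

end Vale.Agent.P159.H612
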