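import Vale.Agent.P159.H612.OscD2
import Vale.Agent.P159.H612.MeanD

/-!
P159 / second order flow, S (helper612): neutral passage for group elements `X = (η, F)`
(row 5652 (5) of helper474).  `zc X c` : integer model in the background `X + c`; `zn X` : neutral
model.  The oscillation constant `ω` is the one of the undislocated model at background `0`.

* `neu_four` : mixed differences, pointwise in the constant ⇒ neutral;
* `neu_dd`, `neu_dd'` : from `locV` (dislocated changes `P`, `W`), price in neutral letters;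
* `neu_rd` : real `P`, dislocated `W`, through `N(W;u)`;
* `Tp0` : the price in neutral letters, `TpD_le_Tp0`.
-/

set_option linter.unusedSectionVars false

namespace Vale.Agent.P159.H612

open Real Finset Filter Topology MeasureTheory
open Vale.Agent.P159.TM.H104 (EM Lg Ex li Gr)
open Vale.Agent.P159.H37
open Vale.Agent.P159.H145 (LM L0 OscZ cs pair_src Per four osc_of Osc)
open Vale.Agent.P159.H770 (DisF EdW eW eWF ZB wTD eS eT Ed)
open Vale.Agent.P159.H353 (wI)
open Vale.Agent.P159.TM.SpecC (Tor wT)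

/-! ### scalar -/

theorem log_rel {a b κ : ℝ} (ha : 0 < a) (hb : 0 < b) (h : (a - b) ^ 2 ≤ (κ * b) ^ 2)
    (hκ : 0 ≤ κ) (hκ1 : κ ≤ 1 / 2) : |Real.log a - Real.log b| ≤ 2 * κ := by
  have h1 := abs_le_of_sq_le_sq h (by positivity)
  have h2 := abs_le.1 h1
  have ha' : (1 - κ) * b ≤ a := by linarith [h2.1]
  have hb' : a ≤ (1 + κ) * b := by linarith [h2.2]
  rw [← Real.log_div ha.ne' hb.ne']
  have hx : 0 < a / b := div_pos ha hb
  have l1 : 1 - κ ≤ a / b := by rwa [le_div_iff₀ hb]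
  have l2 : a / b ≤ 1 + κ := by rwa [div_le_iff₀ hb]
  rw [abs_le]
  constructor
  · have h3 := Real.one_sub_inv_le_log_of_pos hx
    have h4 : (a / b)⁻¹ ≤ (1 - κ)⁻¹ := inv_anti₀ (by linarith) l1
    have h5 : (1 - κ)⁻¹ ≤ 1 + 2 * κ := by
      rw [inv_le_iff_one_le_mul₀ (by linarith)]
      nlinarith
    linarith
  · have h3 := Real.log_le_sub_one_of_pos hx
    linarith

section edges

variable {V E : Type} [Fintype V] [Fintype E] (s t : E → V) (I : E → ℤ → ℝ) (M : Matrix V V ℝ)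

/-- integer model in the background `X + c` -/
noncomputable def zc (X : (E → ℤ) × (V → ℝ)) (c : ℝ) : ℝ := ZM (eW s t I X.1) M (cs X.2 c)

/-- neutral model -/
noncomputable def zn (X : (E → ℤ) × (V → ℝ)) : ℝ := Zn (eW s t I X.1) M X.2

/-- the oscillation constant of the undislocated model at background `0` -/
noncomputable def omE : ℝ := zc s t I M 0 0 / zn s t I M 0 - 1

/-- hypotheses on the model -/
structure EdM (m0 : ℝ) : Prop where
  hI : EdW I
  tr : M.transpose = M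
  mp : 0 < m0
  le : ∀ u : V → ℝ, m0 * ∑ x, u x ^ 2 ≤ qf M u

variable {s t I M} {m0 : ℝ}

namespace EdM

variable (h : EdM I M m0)
include h

theorem em (η : E → ℤ) : EM (wM (eW s t I η) M) := h.hI.em η h.mp h.le

theorem bg : DisF (eWF s t I M) := H770.disF_bg h.hI h.tr h.mp h.le

theorem src : DisF fun η : E → ℤ => wM (eW s t I η) M := H770.disF_edges h.hI h.mp h.le

theorem osc (η : E → ℤ) : OscZ (eW s t I η) M (omE s t I M) := by
  have h1 := oscZ_eW (s := s) (t := t) h.hI h.tr h.mp h.le η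
  have e : omE s t I M = ZM (eW s t I 0) M 0 / Zn (eW s t I 0) M 0 - 1 := by
    unfold omE zc zn
    simp only [Prod.fst_zero, Prod.snd_zero, H145.cs_zero]
  rw [e]
  exact h1

theorem zc_pos (X : (E → ℤ) × (V → ℝ)) (c : ℝ) : 0 < zc s t I M X c :=
  ZM_pos h.tr (h.em _) _

theorem zn_pos (X : (E → ℤ) × (V → ℝ)) : 0 < zn s t I M X :=
  H145.Zn_pos h.tr (h.em _) _

/-- the same oscillation constant in every background -/
theorem zc_osc (X : (E → ℤ) × (V → ℝ)) (c : ℝ) :
    |zc s t I M X c - zn s t I M X| ≤ omE s t I M * zn s t I M X :=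
  (h.osc X.1).all (per_eW X.1) X.2 c

theorem om_nonneg : 0 ≤ omE s t I M := by
  have h1 := h.zc_osc (s := s) (t := t) 0 0
  have h2 := h.zn_pos (s := s) (t := t) 0
  have h3 : 0 ≤ omE s t I M * zn s t I M 0 := (abs_nonneg _).trans h1
  exact nonneg_of_mul_nonneg_left h3 h2

theorem zc_eq (X : (E → ℤ) × (V → ℝ)) (c : ℝ) :
    zc s t I M X c = ZB (eWF s t I M) (X + (0, fun _ => c), 0) := by
  have e : X + ((0 : E → ℤ), fun _ : V => c) = (X.1, cs X.2 c) := by
    refine Prod.ext ?_ ?_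
    · show X.1 + 0 = X.1
      rw [add_zero]
    · rfl
  rw [e]
  exact (H770.Zs_eWF M (X.1, cs X.2 c)).symm

omit h in
theorem log_zn (X : (E → ℤ) × (V → ℝ)) :
    Real.log (zn s t I M X) = L0 (eW s t I X.1) M X.2 := rfl

/-- the oscillation of the logarithm -/
theorem osc1 (X : (E → ℤ) × (V → ℝ)) : Osc (omE s t I M) (zc s t I M X) :=
  osc_of h.tr (h.em _) (h.osc X.1) X.2

/-- **neutral passage**: four arbitrary group elements -/
theorem neu_four (hω : omE s t I M ≤ 1 / 2) {ε : ℝ} (X11 X10 X01 X00 : (E → ℤ) × (V → ℝ))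
    (hε : ∀ c ∈ Set.Icc (0 : ℝ) 1, |Real.log (zc s t I M X11 c) - Real.log (zc s t I M X10 c) -
      Real.log (zc s t I M X01 c) + Real.log (zc s t I M X00 c)| ≤ ε) :
    |Real.log (zn s t I M X11) - Real.log (zn s t I M X10) - Real.log (zn s t I M X01) +
      Real.log (zn s t I M X00)| ≤ ε + 8 * omE s t I M ^ 2 :=
  four (h.osc1 X11) (h.osc1 X10) (h.osc1 X01) (h.osc1 X00) hω hε

/-- the pointwise estimate of `locV` at the constant `c` -/
theorem gen (X P W : (E → ℤ) × (V → ℝ)) (c : ℝ) :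
    (zc s t I M (X + P + W) c * zc s t I M X c -
        zc s t I M (X + P) c * zc s t I M (X + W) c) ^ 2 ≤
      zc s t I M (X + X + P + W) (2 * c) * zc s t I M 0 0 *
        (zc s t I M (P + W) 0 * zc s t I M 0 0 + zc s t I M (P - W) 0 * zc s t I M 0 0 -
          2 * (zc s t I M P 0 * zc s t I M W 0)) := by
  set k : ℝ → (E → ℤ) × (V → ℝ) := fun c => ((0 : E → ℤ), fun _ : V => c) with hk
  have hk0 : k 0 = 0 := rfl
  have hkk : k c + k c = k (2 * c) := by
    rw [hk]
    refine Prod.ext ?_ ?_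
    · show (0 : E → ℤ) + 0 = 0
      rw [add_zero]
    · funext x
      show c + c = 2 * c
      ring
  have h1 := locV (h.bg (s := s) (t := t)) (X + k c, (0 : V → ℝ)) (P, 0) (W, 0)
  have e : ∀ (Y : (E → ℤ) × (V → ℝ)) (c : ℝ), ZB (eWF s t I M) (Y + k c, 0) =
      zc s t I M Y c := fun Y c => (h.zc_eq Y c).symm
  have e' : ∀ (Y : (E → ℤ) × (V → ℝ)), ZB (eWF s t I M) (Y, 0) = zc s t I M Y 0 := fun Y => by
    have := e Y 0
    rw [hk0, add_zero] at this
    exact this
  simp only [Prod.mk_add_mk, Prod.mk_sub_mk, add_zero, sub_zero] at h1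
  have a1 : X + k c + P + W = X + P + W + k c := by abel
  have a2 : X + k c + P = X + P + k c := by abel
  have a3 : X + k c + W = X + W + k c := by abel
  have a4 : X + k c + (X + k c) + P + W = X + X + P + W + (k c + k c) := by abel
  have a5 : (0 : ((E → ℤ) × (V → ℝ)) × (V → ℝ)) = ((0 : (E → ℤ) × (V → ℝ)), 0) := rfl
  rw [a4, a1, a2, a3, hkk, a5] at h1
  simp only [e, e'] at h1
  refine h1.trans (le_of_eq ?_)
  ring

/-- **two dislocated changes**, abstract form: denominator `Y10 Y01` -/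
theorem neu_dd_aux (hω : omE s t I M ≤ 1 / 16) (X P W : (E → ℤ) × (V → ℝ)) {δ η : ℝ} (hη : 0 ≤ η)
    (hbr : zc s t I M (P + W) 0 * zc s t I M 0 0 + zc s t I M (P - W) 0 * zc s t I M 0 0 -
      2 * (zc s t I M P 0 * zc s t I M W 0) ≤ δ * zc s t I M 0 0 ^ 2) (hδ : 0 ≤ δ)
    (c : ℝ) {A B : (E → ℤ) × (V → ℝ)}
    (hpr : δ * (zn s t I M (X + X + P + W) * zn s t I M 0 ^ 3) ≤
      η ^ 2 * (zn s t I M A * zn s t I M B) ^ 2) :
    (zc s t I M (X + P + W) c * zc s t I M X c -
        zc s t I M (X + P) c * zc s t I M (X + W) c) ^ 2 ≤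
      (2 * η * (zc s t I M A c * zc s t I M B c)) ^ 2 := by
  have hω0 := h.om_nonneg (s := s) (t := t)
  set ω := omE s t I M with hωd
  have h1 := h.gen X P W c (s := s) (t := t)
  have u1 : zc s t I M (X + X + P + W) (2 * c) ≤ (1 + ω) * zn s t I M (X + X + P + W) := by
    have := (abs_le.1 (h.zc_osc (X + X + P + W) (2 * c) (s := s) (t := t))).2
    linarith
  have u0 : zc s t I M 0 0 ≤ (1 + ω) * zn s t I M 0 := by
    have := (abs_le.1 (h.zc_osc 0 0 (s := s) (t := t))).2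
    linarith
  have lA : (1 - ω) * zn s t I M A ≤ zc s t I M A c := by
    have := (abs_le.1 (h.zc_osc A c (s := s) (t := t))).1
    linarith
  have lB : (1 - ω) * zn s t I M B ≤ zc s t I M B c := by
    have := (abs_le.1 (h.zc_osc B c (s := s) (t := t))).1
    linarith
  have pA := h.zn_pos A (s := s) (t := t)
  have pB := h.zn_pos B (s := s) (t := t)
  have p0 := h.zn_pos 0 (s := s) (t := t)
  have pX := h.zn_pos (X + X + P + W) (s := s) (t := t)
  have c0 := h.zc_pos 0 0 (s := s) (t := t)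
  have cX := h.zc_pos (X + X + P + W) (2 * c) (s := s) (t := t)
  have cA := h.zc_pos A c (s := s) (t := t)
  have cB := h.zc_pos B c (s := s) (t := t)
  have h2 : zc s t I M (X + X + P + W) (2 * c) * zc s t I M 0 0 *
      (zc s t I M (P + W) 0 * zc s t I M 0 0 + zc s t I M (P - W) 0 * zc s t I M 0 0 -
        2 * (zc s t I M P 0 * zc s t I M W 0)) ≤
      zc s t I M (X + X + P + W) (2 * c) * zc s t I M 0 0 * (δ * zc s t I M 0 0 ^ 2) :=
    mul_le_mul_of_nonneg_left hbr (by positivity)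
  have h3 : zc s t I M (X + X + P + W) (2 * c) * zc s t I M 0 0 * (δ * zc s t I M 0 0 ^ 2) =
      δ * (zc s t I M (X + X + P + W) (2 * c) * zc s t I M 0 0 ^ 3) := by ring
  have h4 : zc s t I M (X + X + P + W) (2 * c) * zc s t I M 0 0 ^ 3 ≤
      ((1 + ω) * zn s t I M (X + X + P + W)) * ((1 + ω) * zn s t I M 0) ^ 3 :=
    mul_le_mul u1 (pow_le_pow_left₀ c0.le u0 3) (by positivity) (by positivity)
  have h5 : (1 - ω) ^ 2 * (zn s t I M A * zn s t I M B) ≤ zc s t I M A c * zc s t I M B c := by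
    have := mul_le_mul lA lB (by nlinarith) cA.le
    calc _ = (1 - ω) * zn s t I M A * ((1 - ω) * zn s t I M B) := by ring
      _ ≤ _ := this
  have h6 : (1 + ω) ^ 4 ≤ 4 * (1 - ω) ^ 4 := by
    have h7 : (1 + ω) ^ 2 ≤ 2 * (1 - ω) ^ 2 := by nlinarith
    have h8 : ((1 + ω) ^ 2) ^ 2 ≤ (2 * (1 - ω) ^ 2) ^ 2 := pow_le_pow_left₀ (by positivity) h7 2
    nlinarith
  have h9 : 0 ≤ (1 - ω) ^ 2 * (zn s t I M A * zn s t I M B) := by positivity
  calc _ ≤ _ := h1
    _ ≤ δ * (zc s t I M (X + X + P + W) (2 * c) * zc s t I M 0 0 ^ 3) := h2.trans h3.le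
    _ ≤ δ * (((1 + ω) * zn s t I M (X + X + P + W)) * ((1 + ω) * zn s t I M 0) ^ 3) :=
        mul_le_mul_of_nonneg_left h4 hδ
    _ = (1 + ω) ^ 4 * (δ * (zn s t I M (X + X + P + W) * zn s t I M 0 ^ 3)) := by ring
    _ ≤ (1 + ω) ^ 4 * (η ^ 2 * (zn s t I M A * zn s t I M B) ^ 2) :=
        mul_le_mul_of_nonneg_left hpr (by positivity)
    _ ≤ 4 * (1 - ω) ^ 4 * (η ^ 2 * (zn s t I M A * zn s t I M B) ^ 2) :=
        mul_le_mul_of_nonneg_right h6 (by positivity)
    _ = (2 * η * ((1 - ω) ^ 2 * (zn s t I M A * zn s t I M B))) ^ 2 := by ring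
    _ ≤ (2 * η * (zc s t I M A c * zc s t I M B c)) ^ 2 := by
        refine pow_le_pow_left₀ (by positivity) ?_ 2
        exact mul_le_mul_of_nonneg_left h5 (by positivity)

/-- **(dd)** two dislocated changes, price with `Z(X+P) Z(X+W)` -/
theorem neu_dd (hω : omE s t I M ≤ 1 / 16) (X P W : (E → ℤ) × (V → ℝ)) {δ η : ℝ} (hη : 0 ≤ η)
    (hη1 : η ≤ 1 / 4)
    (hbr : zc s t I M (P + W) 0 * zc s t I M 0 0 + zc s t I M (P - W) 0 * zc s t I M 0 0 -
      2 * (zc s t I M P 0 * zc s t I M W 0) ≤ δ * zc s t I M 0 0 ^ 2) (hδ : 0 ≤ δ)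
    (hpr : δ * (zn s t I M (X + X + P + W) * zn s t I M 0 ^ 3) ≤
      η ^ 2 * (zn s t I M (X + P) * zn s t I M (X + W)) ^ 2) :
    |Real.log (zn s t I M (X + P + W)) - Real.log (zn s t I M (X + P)) -
      Real.log (zn s t I M (X + W)) + Real.log (zn s t I M X)| ≤
      4 * η + 8 * omE s t I M ^ 2 := by
  refine h.neu_four (by linarith) _ _ _ _ fun c _ => ?_
  have h1 := h.neu_dd_aux hω X P W hη hbr hδ c hpr
  have q1 := h.zc_pos (X + P + W) c (s := s) (t := t)
  have q2 := h.zc_pos X c (s := s) (t := t)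
  have q3 := h.zc_pos (X + P) c (s := s) (t := t)
  have q4 := h.zc_pos (X + W) c (s := s) (t := t)
  have h2 := log_rel (mul_pos q1 q2) (mul_pos q3 q4) h1 (by linarith) (by linarith)
  rw [Real.log_mul q1.ne' q2.ne', Real.log_mul q3.ne' q4.ne'] at h2
  refine (le_of_eq ?_).trans (h2.trans (by linarith))
  congr 1
  ring

/-- **(dd')** two dislocated changes, price with `Z(X) Z(X+P+W)` -/
theorem neu_dd' (hω : omE s t I M ≤ 1 / 16) (X P W : (E → ℤ) × (V → ℝ)) {δ η : ℝ} (hη : 0 ≤ η)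
    (hη1 : η ≤ 1 / 4)
    (hbr : zc s t I M (P + W) 0 * zc s t I M 0 0 + zc s t I M (P - W) 0 * zc s t I M 0 0 -
      2 * (zc s t I M P 0 * zc s t I M W 0) ≤ δ * zc s t I M 0 0 ^ 2) (hδ : 0 ≤ δ)
    (hpr : δ * (zn s t I M (X + X + P + W) * zn s t I M 0 ^ 3) ≤
      η ^ 2 * (zn s t I M (X + P + W) * zn s t I M X) ^ 2) :
    |Real.log (zn s t I M (X + P + W)) - Real.log (zn s t I M (X + P)) -
      Real.log (zn s t I M (X + W)) + Real.log (zn s t I M X)| ≤
      4 * η + 8 * omE s t I M ^ 2 := by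
  refine h.neu_four (by linarith) _ _ _ _ fun c _ => ?_
  have h1 := h.neu_dd_aux hω X P W hη hbr hδ c hpr
  have q1 := h.zc_pos (X + P + W) c (s := s) (t := t)
  have q2 := h.zc_pos X c (s := s) (t := t)
  have q3 := h.zc_pos (X + P) c (s := s) (t := t)
  have q4 := h.zc_pos (X + W) c (s := s) (t := t)
  have h1' : (zc s t I M (X + P) c * zc s t I M (X + W) c -
      zc s t I M (X + P + W) c * zc s t I M X c) ^ 2 ≤
      (2 * η * (zc s t I M (X + P + W) c * zc s t I M X c)) ^ 2 := by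
    refine le_trans (le_of_eq ?_) h1
    ring
  have h2 := log_rel (mul_pos q3 q4) (mul_pos q1 q2) h1' (by linarith) (by linarith)
  rw [Real.log_mul q1.ne' q2.ne', Real.log_mul q3.ne' q4.ne', abs_sub_comm] at h2
  refine (le_of_eq ?_).trans (h2.trans (by linarith))
  congr 1
  ring

end EdM

/-! ### the price in neutral letters -/

/-- `T'(X,Y)` in neutral letters -/
noncomputable def Tp0 (s t : E → V) (I : E → ℤ → ℝ) (M : Matrix V V ℝ)
    (X Y : (E → ℤ) × (V → ℝ)) : ℝ :=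
  Real.log (zn s t I M (X + Y)) + Real.log (zn s t I M (X - Y)) +
    2 * Real.log (zn s t I M 0) - 2 * Real.log (zn s t I M X) - 2 * Real.log (zn s t I M Y)

namespace EdM

variable (h : EdM I M m0)
include h

/-- integer model at the constants `c`, `c` against the neutral model -/
theorem TpD_le_Tp0 (hω : omE s t I M ≤ 1 / 2) (X Y : (E → ℤ) × (V → ℝ)) (c : ℝ) :
    TpD (fun η : E → ℤ => wM (eW s t I η) M) X.1 Y.1 (M.mulVec (cs X.2 c))
      (M.mulVec (cs Y.2 c)) ≤ Tp0 s t I M X Y + 16 * omE s t I M := by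
  have hE : ∀ η : E → ℤ, EM (wM (eW s t I η) M) := fun η => h.em η
  have key : ∀ (η : E → ℤ) (F : V → ℝ), Lg (wM (eW s t I η) M) (M.mulVec F) =
      LM (eW s t I η) M F + qf M F / 2 := fun η F => by
    rw [H145.LM_eq h.tr (hE η)]
    ring
  have l : ∀ (Z : (E → ℤ) × (V → ℝ)) (c : ℝ),
      |LM (eW s t I Z.1) M (cs Z.2 c) - Real.log (zn s t I M Z)| ≤ 2 * omE s t I M := fun Z c =>
    H145.LM_sub_L0 (per_eW Z.1) h.tr (hE _) (h.osc Z.1) hω Z.2 c
  unfold TpD Tp0
  have e1 : M.mulVec (cs X.2 c) + M.mulVec (cs Y.2 c) = M.mulVec (cs (X + Y).2 (2 * c)) := by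
    rw [← Matrix.mulVec_add]
    congr 1
    funext x
    simp only [cs, Pi.add_apply, Prod.snd_add]
    ring
  have e2 : M.mulVec (cs X.2 c) - M.mulVec (cs Y.2 c) = M.mulVec (cs (X - Y).2 0) := by
    rw [← Matrix.mulVec_sub]
    congr 1
    funext x
    simp only [cs, Pi.sub_apply, Prod.snd_sub]
    ring
  have e0 : (0 : V → ℝ) = M.mulVec (cs ((0 : (E → ℤ) × (V → ℝ))).2 0) := by
    have : cs ((0 : (E → ℤ) × (V → ℝ))).2 0 = 0 := by
      funext x
      simp [cs]
    rw [this, Matrix.mulVec_zero]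
  have q : qf M (cs (X + Y).2 (2 * c)) + qf M (cs (X - Y).2 0) =
      2 * qf M (cs X.2 c) + 2 * qf M (cs Y.2 c) := by
    have f1 : cs (X + Y).2 (2 * c) = cs X.2 c + cs Y.2 c := by
      funext x
      simp only [cs, Pi.add_apply, Prod.snd_add]
      ring
    have f2 : cs (X - Y).2 0 = cs X.2 c - cs Y.2 c := by
      funext x
      simp only [cs, Pi.sub_apply, Prod.snd_sub]
      ring
    rw [f1, f2, qf_add_vec h.tr, qf_sub_vec h.tr]
    ring
  have q0 : qf M (cs ((0 : (E → ℤ) × (V → ℝ))).2 0) = 0 := by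
    have : cs ((0 : (E → ℤ) × (V → ℝ))).2 0 = 0 := by
      funext x
      simp [cs]
    rw [this, qf_zero_vec]
  rw [e1, e2]
  conv_lhs => rw [e0]
  simp only [key]
  have a1 := (abs_le.1 (l (X + Y) (2 * c))).2
  have a2 := (abs_le.1 (l (X - Y) 0)).2
  have a3 := (abs_le.1 (l 0 0)).2
  have a4 := (abs_le.1 (l X c)).1
  have a5 := (abs_le.1 (l Y c)).1
  simp only [Prod.fst_add, Prod.fst_sub, Prod.fst_zero] at a1 a2 a3
  rw [q0]
  linarith

/-- **(rd)** a real change `f` and a dislocated change `W` -/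
theorem neu_rd (hω : omE s t I M ≤ 1 / 2) (X W : (E → ℤ) × (V → ℝ)) (f : V → ℝ)
    (hbf : bf M f W.2 = 0) {τ : ℝ}
    (hτ : ∀ p ∈ Set.Icc (0 : ℝ) 1, Tp0 s t I M (X + W + (0, p • f)) (X + (0, p • f)) ≤ τ) :
    |Real.log (zn s t I M (X + (0, f) + W)) - Real.log (zn s t I M (X + (0, f))) -
      Real.log (zn s t I M (X + W)) + Real.log (zn s t I M X)| ≤
      Real.exp ((τ + 16 * omE s t I M) / 2) *
        √(NX (fun η : E → ℤ => wM (eW s t I η) M) W.1 (M.mulVec W.2) (M.mulVec f)) +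
        8 * omE s t I M ^ 2 := by
  have hE : ∀ η : E → ℤ, EM (wM (eW s t I η) M) := fun η => h.em η
  refine h.neu_four hω _ _ _ _ fun c _ => ?_
  have h1 := lg_cmp (h.src (s := s) (t := t)) (X.1 + W.1) X.1
    (M.mulVec (cs (X.2 + W.2) c)) (M.mulVec (cs X.2 c)) (M.mulVec f)
    (τ := τ + 16 * omE s t I M) fun p hp => by
      have h2 := h.TpD_le_Tp0 hω (X + W + (0, p • f)) (X + (0, p • f)) c (s := s) (t := t)
      have e1 : cs (X + W + ((0 : E → ℤ), p • f)).2 c = cs (X.2 + W.2) c + p • f := by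
        funext x
        simp only [cs, Pi.add_apply, Prod.snd_add]
        ring
      have e2 : cs (X + ((0 : E → ℤ), p • f)).2 c = cs X.2 c + p • f := by
        funext x
        simp only [cs, Pi.add_apply, Prod.snd_add]
        ring
      have e3 : (X + W + ((0 : E → ℤ), p • f)).1 = X.1 + W.1 := by
        show X.1 + W.1 + 0 = _
        rw [add_zero]
      have e4 : (X + ((0 : E → ℤ), p • f)).1 = X.1 := by
        show X.1 + 0 = _
        rw [add_zero]
      rw [e1, e2, e3, e4, Matrix.mulVec_add, Matrix.mulVec_add, Matrix.mulVec_smul] at h2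
      exact h2.trans (by linarith [hτ p hp])
  have e5 : X.1 + W.1 - X.1 = W.1 := by abel
  have e6 : M.mulVec (cs (X.2 + W.2) c) - M.mulVec (cs X.2 c) = M.mulVec W.2 := by
    rw [← Matrix.mulVec_sub]
    congr 1
    funext x
    simp only [cs, Pi.add_apply, Pi.sub_apply]
    ring
  rw [e5, e6] at h1
  refine le_trans (le_of_eq ?_) h1
  have key : ∀ (η : E → ℤ) (F : V → ℝ), Lg (wM (eW s t I η) M) (M.mulVec F) =
      LM (eW s t I η) M F + qf M F / 2 := fun η F => by
    rw [H145.LM_eq h.tr (hE η)]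
    ring
  have g1 : M.mulVec (cs (X.2 + W.2) c) + M.mulVec f = M.mulVec (cs (X.2 + f + W.2) c) := by
    rw [← Matrix.mulVec_add]
    congr 1
    funext x
    simp only [cs, Pi.add_apply]
    ring
  have g2 : M.mulVec (cs X.2 c) + M.mulVec f = M.mulVec (cs (X.2 + f) c) := by
    rw [← Matrix.mulVec_add]
    congr 1
    funext x
    simp only [cs, Pi.add_apply]
    ring
  rw [g1, g2]
  simp only [key]
  have q : qf M (cs (X.2 + f + W.2) c) - qf M (cs (X.2 + W.2) c) - qf M (cs (X.2 + f) c) +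
      qf M (cs X.2 c) = 0 := by
    have f1 : cs (X.2 + f + W.2) c = cs X.2 c + f + W.2 := by
      funext x
      simp only [cs, Pi.add_apply]
      ring
    have f2 : cs (X.2 + W.2) c = cs X.2 c + W.2 := by
      funext x
      simp only [cs, Pi.add_apply]
      ring
    have f3 : cs (X.2 + f) c = cs X.2 c + f := by
      funext x
      simp only [cs, Pi.add_apply]
      ring
    rw [f1, f2, f3, qf_add_vec h.tr (cs X.2 c + f) W.2, qf_add_vec h.tr (cs X.2 c) W.2,
      bf_add_left, hbf]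
    ring
  have z1 : zc s t I M (X + (0, f) + W) c = ZM (eW s t I (X.1 + W.1)) M (cs (X.2 + f + W.2) c) := by
    unfold zc
    have : (X + ((0 : E → ℤ), f) + W).1 = X.1 + W.1 := by
      show X.1 + 0 + W.1 = _
      rw [add_zero]
    rw [this]
    rfl
  have z2 : zc s t I M (X + (0, f)) c = ZM (eW s t I X.1) M (cs (X.2 + f) c) := by
    unfold zc
    have : (X + ((0 : E → ℤ), f)).1 = X.1 := by
      show X.1 + 0 = _
      rw [add_zero]
    rw [this]
    rfl
  have z3 : zc s t I M (X + W) c = ZM (eW s t I (X.1 + W.1)) M (cs (X.2 + W.2) c) := rfl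
  have z4 : zc s t I M X c = ZM (eW s t I X.1) M (cs X.2 c) := rfl
  rw [z1, z2, z3, z4]
  unfold LM
  congr 1
  linarith

end EdM

end edges

/-! ### the torus -/

section torus

variable {N : ℕ} [NeZero N] {b : ℝ} {M : Matrix (Tor N) (Tor N) ℝ} {m0 : ℝ}

theorem edM_torus (hb : 0 < b) (hMt : M.transpose = M) (hm0 : 0 < m0)
    (hM : ∀ u : Tor N → ℝ, m0 * ∑ x, u x ^ 2 ≤ qf M u) : EdM (fun _ : Ed N => wI b) M m0 :=
  ⟨H770.edW_wI hb, hMt, hm0, hM⟩

theorem zn_torus (X : (Ed N → ℤ) × (Tor N → ℝ)) :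
    zn (eS N) (eT N) (fun _ => wI b) M X = Zn (wTD N b X.1) M X.2 := rfl

theorem zc_torus (X : (Ed N → ℤ) × (Tor N → ℝ)) (c : ℝ) :
    zc (eS N) (eT N) (fun _ => wI b) M X c = ZM (wTD N b X.1) M (cs X.2 c) := rfl

theorem omE_torus : omE (eS N) (eT N) (fun _ => wI b) M = om0 N b M := by
  unfold omE om0
  rw [zn_torus, zc_torus]
  simp only [Prod.fst_zero, Prod.snd_zero, H145.cs_zero, H770.wTD_zero]

end torus

end Vale.Agent.P159.H612
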