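import Vale.Agent.P159.H612.Local4
import Vale.Agent.P159.H789.Ray

/-!
P159 / second order flow, module LOCAL (helper612), part (LB5): consumer forms of (LB4).
Hypotheses on `T` only at the vertices (convexity of `R`), first derivatives, second differences.
-/

namespace Vale.Agent.P159.H612

open Real Finset Filter Topology
open Vale.Agent.P159.TM.H104
open Vale.Agent.P159.H37 (Ev Zs Cm Gm qf bf Rs Tq K4 Ker PK wM wt re)
open Vale.Agent.P159.T1.H897 (Hol)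
open Vale.Agent.P159.TM.SpecC (Tor wT ms)
open Vale.Agent.P159.TM.H459 (sn sd)

section hull

variable {V : Type*} [Fintype V] {μ : (V → ℤ) → ℝ}

/-- `T(J) ≤ R(2J)` -/
theorem Tq_le (hμ : EM μ) (he : Ev μ) (hK : PK μ) (J : V → ℝ) :
    Tq μ J ≤ Rs μ ((2 : ℝ) • J) := by
  rw [H789.Tq_eq]
  linarith [H789.Rs_nonneg hμ he hK J]

/-- `R(2(J0 + p J1 + q J2)) ≤ τ` on the unit square if it holds at the vertices -/
theorem hull (hμ : EM μ) (he : Ev μ) (hK : PK μ) {J0 J1 J2 : V → ℝ} {τ : ℝ}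
    (h00 : Rs μ ((2 : ℝ) • J0) ≤ τ) (h10 : Rs μ ((2 : ℝ) • (J0 + J1)) ≤ τ)
    (h01 : Rs μ ((2 : ℝ) • (J0 + J2)) ≤ τ) (h11 : Rs μ ((2 : ℝ) • (J0 + J1 + J2)) ≤ τ)
    {p q : ℝ} (hp : p ∈ Set.Icc (0 : ℝ) 1) (hq : q ∈ Set.Icc (0 : ℝ) 1) :
    Tq μ (J0 + p • J1 + q • J2) ≤ τ := by
  refine (Tq_le hμ he hK _).trans ?_
  have hc := H789.Rs_convex hμ he hK
  -- one edge
  have edge : ∀ (A B : V → ℝ), Rs μ ((2 : ℝ) • A) ≤ τ → Rs μ ((2 : ℝ) • (A + B)) ≤ τ →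
      ∀ s ∈ Set.Icc (0 : ℝ) 1, Rs μ ((2 : ℝ) • (A + s • B)) ≤ τ := by
    intro A B hA hB s hs
    have e : (2 : ℝ) • (A + s • B) =
        (1 - s) • ((2 : ℝ) • A) + s • ((2 : ℝ) • (A + B)) := by
      ext x
      simp only [Pi.smul_apply, Pi.add_apply, smul_eq_mul]
      ring
    rw [e]
    refine (hc.2 (Set.mem_univ _) (Set.mem_univ _) (by linarith [hs.2]) hs.1 (by ring)).trans ?_
    simp only [smul_eq_mul]
    nlinarith [hs.1, hs.2]
  have e0 := edge J0 J1 h00 h10 p hp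
  have e1 : Rs μ ((2 : ℝ) • (J0 + p • J1 + J2)) ≤ τ := by
    have h01' : Rs μ ((2 : ℝ) • (J0 + J2 + J1)) ≤ τ := by
      have : J0 + J2 + J1 = J0 + J1 + J2 := by abel
      rw [this]
      exact h11
    have := edge (J0 + J2) J1 h01 h01' p hp
    have e : J0 + J2 + p • J1 = J0 + p • J1 + J2 := by abel
    rwa [e] at this
  exact edge (J0 + p • J1) J2 e0 e1 q hq

/-- difference of the mean along a far source -/
theorem Ex_li_diff (hμ : EM μ) (J0 J1 u : V → ℝ) :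
    ∃ s ∈ Set.Icc (0 : ℝ) 1, Ex μ (J0 + J1) (li u) - Ex μ J0 (li u) =
      Cv μ (J0 + s • J1) (li u) (li J1) := by
  have h2 : ∀ s : ℝ, HasDerivAt (fun s : ℝ => Ex μ (J0 + s • J1) (li u))
      (Cv μ (J0 + s • J1) (li u) (li J1)) s := fun s =>
    hasDerivAt_Ex hμ (Gr.li u) J0 J1 s
  obtain ⟨b, hb, hbe⟩ := exists_hasDerivAt_eq_slope
    (fun s : ℝ => Ex μ (J0 + s • J1) (li u))
    (fun s => Cv μ (J0 + s • J1) (li u) (li J1)) one_pos
    (fun s _ => (h2 s).continuousAt.continuousWithinAt) fun s _ => h2 s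
  refine ⟨b, ⟨hb.1.le, hb.2.le⟩, ?_⟩
  rw [hbe]
  simp only [one_smul, zero_smul, add_zero, sub_zero, div_one]

end hull

/-! ### consumer forms on the torus -/

section

variable {N : ℕ} [NeZero N] {μ : (Tor N → ℤ) → ℝ} {u v : Tor N → ℝ} {A B r : ℝ}

/-- mixed differences of `log Z`, hypotheses at the vertices -/
theorem Far.lgv (h : Far μ u v A B r) (hμ : EM μ) (he : Ev μ) (hK : PK μ) {J0 : Tor N → ℝ}
    {τ : ℝ} (h00 : Rs μ ((2 : ℝ) • J0) ≤ τ) (h10 : Rs μ ((2 : ℝ) • (J0 + u)) ≤ τ)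
    (h01 : Rs μ ((2 : ℝ) • (J0 + v)) ≤ τ) (h11 : Rs μ ((2 : ℝ) • (J0 + u + v)) ≤ τ) :
    |Lg μ (J0 + u + v) - Lg μ (J0 + u) - Lg μ (J0 + v) + Lg μ J0| ≤
      Real.exp (τ / 2) * A * B * r :=
  h.lg J0 τ fun _ hp _ hq => hull hμ he hK h00 h10 h01 h11 hp hq

/-- mixed differences of `R`, hypotheses at the vertices -/
theorem Far.rsv (h : Far μ u v A B r) (hμ : EM μ) (he : Ev μ) (hK : PK μ) {J0 : Tor N → ℝ}
    {τ : ℝ} (h00 : Rs μ ((2 : ℝ) • J0) ≤ τ) (h10 : Rs μ ((2 : ℝ) • (J0 + u)) ≤ τ)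
    (h01 : Rs μ ((2 : ℝ) • (J0 + v)) ≤ τ) (h11 : Rs μ ((2 : ℝ) • (J0 + u + v)) ≤ τ) :
    |(Rs μ (J0 + u + v) - Rs μ (J0 + u)) - (Rs μ (J0 + v) - Rs μ J0)| ≤
      Real.exp (τ / 2) * A * B * r :=
  h.rs J0 τ fun _ hp _ hq => hull hμ he hK h00 h10 h01 h11 hp hq

theorem Far.r_nonneg (h : Far μ u v A B r) (hμ : EM μ) (hol : Hol μ μ) (hA : 0 < A)
    (hB : 0 < B) : 0 ≤ r := by
  have h1 : 0 ≤ Cv μ 0 (li fun x => |u x|) (li fun x => |v x|) := by
    refine fkg hμ hol 0 (Gr.li _) (Gr.li _) ?_ ?_ <;>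
    · intro k k' hk
      unfold li
      refine Finset.sum_le_sum fun x _ => mul_le_mul_of_nonneg_left ?_ (abs_nonneg _)
      exact_mod_cast hk x
  have h2 := h1.trans h.cov
  exact nonneg_of_mul_nonneg_right h2 (mul_pos hA hB)

/-- change of the mean `E_J X_u` under a far change `v` of the source (145's form (b)) -/
theorem Far.mean (h : Far μ u v A B r) (hμ : EM μ) (he : Ev μ) (hK : PK μ) (hA : 0 < A)
    (hB : 0 < B) (hr : 0 ≤ r) {J0 : Tor N → ℝ} {τ : ℝ} (h0 : Rs μ ((2 : ℝ) • J0) ≤ τ)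
    (h1 : Rs μ ((2 : ℝ) • (J0 + v)) ≤ τ) :
    |Ex μ (J0 + v) (li u) - Ex μ J0 (li u)| ≤ Real.exp (τ / 2) * A * B * r := by
  obtain ⟨s, hs, hse⟩ := Ex_li_diff hμ J0 v u
  rw [hse]
  refine (h.bg _).trans ?_
  have h2 : Tq μ (J0 + s • v) ≤ τ := by
    have h3 := hull hμ he hK (J0 := J0) (J1 := v) (J2 := 0) (τ := τ) h0 h1
      (by rwa [add_zero]) (by rwa [add_zero]) hs (q := 0) ⟨le_rfl, zero_le_one⟩
    simpa using h3
  have h3 := Real.exp_le_exp.2 (div_le_div_of_nonneg_right h2 (by norm_num : (0 : ℝ) ≤ 2))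
  gcongr

/-- the second difference of `R` at `J` in the direction `g` -/
noncomputable def sdR (μ : (Tor N → ℤ) → ℝ) (J g : Tor N → ℝ) : ℝ :=
  Rs μ (J + g) + Rs μ (J - g) - 2 * Rs μ J

/-- **window localisation of second differences**: a far change `v` of the source changes the
second difference in the direction `u` by at most `2 e^(τ/2) A B r` -/
theorem Far.sd (h : Far μ u v A B r) (hμ : EM μ) (he : Ev μ) (hK : PK μ) {J0 : Tor N → ℝ}
    {τ : ℝ} (h1 : Rs μ ((2 : ℝ) • (J0 + u)) ≤ τ) (h2 : Rs μ ((2 : ℝ) • (J0 - u)) ≤ τ)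
    (h3 : Rs μ ((2 : ℝ) • (J0 + v + u)) ≤ τ) (h4 : Rs μ ((2 : ℝ) • (J0 + v - u)) ≤ τ) :
    |sdR μ (J0 + v) u - sdR μ J0 u| ≤ 2 * (Real.exp (τ / 2) * A * B * r) := by
  have hc := H789.Rs_convex hμ he hK
  -- midpoints
  have mid : ∀ A B : Tor N → ℝ, Rs μ ((2 : ℝ) • (A + B)) ≤ τ → Rs μ ((2 : ℝ) • (A - B)) ≤ τ →
      Rs μ ((2 : ℝ) • A) ≤ τ := by
    intro A B hA hB
    have e : (2 : ℝ) • A =
        (1 / 2 : ℝ) • ((2 : ℝ) • (A + B)) + (1 / 2 : ℝ) • ((2 : ℝ) • (A - B)) := by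
      ext x
      simp only [Pi.smul_apply, Pi.add_apply, Pi.sub_apply, smul_eq_mul]
      ring
    rw [e]
    refine (hc.2 (Set.mem_univ _) (Set.mem_univ _) (by norm_num) (by norm_num)
      (by norm_num)).trans ?_
    simp only [smul_eq_mul]
    linarith
  have m0 := mid J0 u h1 h2
  have m1 := mid (J0 + v) u h3 h4
  have c1 : J0 + u + v = J0 + v + u := by abel
  have q1 := h.rsv hμ he hK (J0 := J0) (τ := τ) m0 h1 m1 (by rw [c1]; exact h3)
  -- direction `-u`: same bound through the base point `J0 - u`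
  have c2 : J0 - u + v = J0 + v - u := by abel
  have c3 : J0 - u + u = J0 := by abel
  have c4 : J0 - u + u + v = J0 + v := by abel
  have q2 := h.rsv hμ he hK (J0 := J0 - u) (τ := τ) h2 (by rw [c3]; exact m0)
    (by rw [c2]; exact h4) (by rw [c4]; exact m1)
  rw [c3, c2] at q2
  rw [c1] at q1
  have e : sdR μ (J0 + v) u - sdR μ J0 u =
      ((Rs μ (J0 + v + u) - Rs μ (J0 + u)) - (Rs μ (J0 + v) - Rs μ J0)) -
      ((Rs μ (J0 + v) - Rs μ J0) - (Rs μ (J0 + v - u) - Rs μ (J0 - u))) := by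
    unfold sdR
    ring
  rw [e]
  refine (abs_sub _ _).trans ?_
  linarith

end

end Vale.Agent.P159.H612
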