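import Vale.Agent.P159.H612.LocTau
import Vale.Agent.P159.H145.Loc2T
import Vale.Agent.P159.H963.NeuI

/-!
P159 / second order flow, module PU4I (helper612): pointwise locality of the NEUTRAL posterior
`nwt N b t x₀` at every real mass `t ≥ ξ⁻²`: mixed differences of `log Z` for two far neutral
sources (far modulo constants), hypotheses only `R(2 ·) ≤ τ` at the four vertices.
-/

namespace Vale.Agent.P159.H612

open Real Finset Matrix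
open Vale.Agent.P159.TM.H104
open Vale.Agent.P159.H37
open Vale.Agent.P159.H145 (LM L0 OscZ cs T0)
open Vale.Agent.P159.H963 (GW MF nM ntr Neu nwt gw_wT mf_smul em_nwt ev_nwt pk_nwt ntr_of_neu
  qf_ntr_neu)
open Vale.Agent.P159.TM.SpecC (Tor wT)
open Vale.Agent.P159.TM.H459 (sn sd)

section gen

variable {V : Type} [Fintype V] [DecidableEq V] [Nonempty V] {w : (V → ℤ) → ℝ}
  {M : Matrix V V ℝ} {m : ℝ}

/-- the neutral functional in the letters of the neutral weight -/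
theorem L0_eq (hw : GW w) (hM : MF M m) (x₀ : V) (F : V → ℝ) :
    L0 w M F = Real.log (Real.sqrt (2 * Real.pi / (m * Fintype.card V))) -
      qf (ntr M m) F / 2 + Lg (nM w M m x₀) (ntr M m *ᵥ F) := by
  have hN : (0 : ℝ) < Fintype.card V := Nat.cast_pos.2 Fintype.card_pos
  have hm := hM.pos
  have h1 : 0 < Real.sqrt (2 * Real.pi / (m * Fintype.card V)) := Real.sqrt_pos.2 (by positivity)
  have h2 : 0 < Zs (nM w M m x₀) (ntr M m *ᵥ F) := TM.H104.T_one_pos (hw.em_nM hM x₀) _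
  unfold L0
  rw [hw.Zn_eq hM x₀ F, Real.log_mul h1.ne' (mul_pos (Real.exp_pos _) h2).ne',
    Real.log_mul (Real.exp_pos _).ne' h2.ne', Real.log_exp]
  unfold Lg Zs
  ring

theorem T0_eq (hw : GW w) (hM : MF M m) (x₀ : V) (F : V → ℝ) :
    T0 w M F = Tq (nM w M m x₀) (ntr M m *ᵥ F) := by
  unfold T0 Tq
  rw [L0_eq hw hM x₀, L0_eq hw hM x₀, L0_eq hw hM x₀, qf_smul, Matrix.mulVec_smul,
    Matrix.mulVec_zero, qf_zero_vec]
  ring

end gen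

section torus

variable {N : ℕ} [NeZero N] {b t : ℝ}

lemma ntr_inv_smul (ht : 0 < t) {J : Tor N → ℝ} (hJ : Neu J) :
    ntr (t • (1 : Matrix (Tor N) (Tor N) ℝ)) t *ᵥ (t⁻¹ • J) = J := by
  rw [ntr_of_neu _ _ (hJ.smul _), mulVec_one_smul, smul_smul, mul_inv_cancel₀ ht.ne', one_smul]

/-- `log Z` of the neutral posterior at a neutral source -/
lemma Lg_nwt_eq (hb : 0 ≤ b) (ht : 0 < t) (x₀ : Tor N) {J : Tor N → ℝ} (hJ : Neu J) :
    Lg (nwt N b t x₀) J = L0 (wT b N) (t • (1 : Matrix (Tor N) (Tor N) ℝ)) (t⁻¹ • J) +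
      (∑ x, J x ^ 2) / (2 * t) -
      Real.log (Real.sqrt (2 * Real.pi / (t * Fintype.card (Tor N)))) := by
  have h := L0_eq (gw_wT hb) (mf_smul (N := N) ht) x₀ (t⁻¹ • J)
  rw [ntr_inv_smul ht hJ, qf_ntr_neu _ _ (hJ.smul _)] at h
  have hq : qf (t • (1 : Matrix (Tor N) (Tor N) ℝ)) (t⁻¹ • J) = (∑ x, J x ^ 2) / t := by
    rw [qf_eq, mulVec_one_smul, smul_smul, mul_inv_cancel₀ ht.ne', one_smul]
    simp only [dotProduct, Pi.smul_apply, smul_eq_mul]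
    rw [Finset.sum_div]
    exact Finset.sum_congr rfl fun x _ => by field_simp
  rw [hq] at h
  unfold nwt
  rw [h]
  field_simp
  ring

/-- `T⁰` and `T` of the neutral weight -/
lemma T0_nwt (hb : 0 ≤ b) (ht : 0 < t) (x₀ : Tor N) {J : Tor N → ℝ} (hJ : Neu J) :
    T0 (wT b N) (t • (1 : Matrix (Tor N) (Tor N) ℝ)) (t⁻¹ • J) = Tq (nwt N b t x₀) J := by
  rw [T0_eq (gw_wT hb) (mf_smul ht) x₀, ntr_inv_smul ht hJ]
  rfl

/-- **mixed differences of the neutral posterior**, far sources modulo constants: hull form -/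
theorem Far.nwt_hull {J u v : Tor N → ℝ} {κ₁ κ₂ A B r τ ω : ℝ}
    (h : Far (wt N b t) (cs u (-κ₁)) (cs v (-κ₂)) A B r) (hb : 0 ≤ b) (ht : 0 < t) (x₀ : Tor N)
    (hO : OscZ (wT b N) (t • (1 : Matrix (Tor N) (Tor N) ℝ)) ω) (hω : ω ≤ 1 / 2)
    (hs : ∑ x, (u x - κ₁) * (v x - κ₂) = 0) (hJ : Neu J) (hu : Neu u) (hv : Neu v)
    (hτ : ∀ p ∈ Set.Icc (0 : ℝ) 1, ∀ q ∈ Set.Icc (0 : ℝ) 1,
      Tq (nwt N b t x₀) (J + p • u + q • v) ≤ τ) :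
    |Lg (nwt N b t x₀) (J + u + v) - Lg (nwt N b t x₀) (J + u) - Lg (nwt N b t x₀) (J + v) +
      Lg (nwt N b t x₀) J - (∑ x, u x * v x) / t| ≤
      Real.exp ((τ + 16 * ω) / 2) * A * B * r + 8 * ω ^ 2 := by
  have hMs : (t • (1 : Matrix (Tor N) (Tor N) ℝ)).transpose = t • 1 := by
    rw [Matrix.transpose_smul, Matrix.transpose_one]
  have hE : EM (wt N b t) := H789.em_wt hb ht
  have hper : H145.Per (wT b N) := H145.per_wT
  have hti : t * t⁻¹ = 1 := mul_inv_cancel₀ ht.ne'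
  -- letters
  have e1 : (t • (1 : Matrix (Tor N) (Tor N) ℝ)).mulVec (t⁻¹ • cs u (-κ₁)) = cs u (-κ₁) := by
    rw [mulVec_one_smul, smul_smul, hti, one_smul]
  have e2 : (t • (1 : Matrix (Tor N) (Tor N) ℝ)).mulVec (t⁻¹ • cs v (-κ₂)) = cs v (-κ₂) := by
    rw [mulVec_one_smul, smul_smul, hti, one_smul]
  have hbf : bf (t • (1 : Matrix (Tor N) (Tor N) ℝ)) (t⁻¹ • cs u (-κ₁)) (t⁻¹ • cs v (-κ₂)) =
      0 := by
    rw [bf_eq, e2]
    have : (t⁻¹ • cs u (-κ₁)) ⬝ᵥ cs v (-κ₂) = t⁻¹ * ∑ x, (u x - κ₁) * (v x - κ₂) := by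
      simp only [dotProduct, Pi.smul_apply, smul_eq_mul, cs]
      rw [Finset.mul_sum]
      exact Finset.sum_congr rfl fun x _ => by ring
    rw [this, hs, mul_zero]
  have hfl : ∀ p q : ℝ, t⁻¹ • J + p • (t⁻¹ • cs u (-κ₁)) + q • (t⁻¹ • cs v (-κ₂)) =
      cs (t⁻¹ • (J + p • u + q • v)) (-(p * (t⁻¹ * κ₁)) - q * (t⁻¹ * κ₂)) := by
    intro p q
    funext x
    simp only [cs, Pi.add_apply, Pi.smul_apply, smul_eq_mul]
    ring
  have hneu : ∀ p q : ℝ, Neu (J + p • u + q • v) := fun p q => (hJ.add (hu.smul p)).add (hv.smul q)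
  have key := Far.mix0 (w := wT b N) (M := t • 1) (F := t⁻¹ • J) (f := t⁻¹ • cs u (-κ₁))
    (g := t⁻¹ • cs v (-κ₂)) (A := A) (B := B) (r := r) (ω := ω) (τ := τ + 16 * ω)
    (by rw [e1, e2]; exact h) hMs hE hO hω hbf (by
      intro c _ p hp q hq
      have h1 := (abs_le.1 (H145.Tq_le_T0 hper hMs hE hO hω
        (t⁻¹ • J + p • (t⁻¹ • cs u (-κ₁)) + q • (t⁻¹ • cs v (-κ₂))) c)).2
      rw [hfl, H145.T0_cs hper, T0_nwt hb ht x₀ (hneu p q)] at h1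
      have h2 := hτ p hp q hq
      rw [hfl]
      linarith)
  have c11 := hfl 1 1
  have c10 := hfl 1 0
  have c01 := hfl 0 1
  simp only [one_smul, zero_smul, add_zero, zero_mul, neg_zero, zero_sub] at c11 c10 c01
  rw [c11, c10, c01, H145.L0_cs hper, H145.L0_cs hper, H145.L0_cs hper] at key
  have n1 := hneu 1 1
  have n2 := hneu 1 0
  have n3 := hneu 0 1
  simp only [one_smul, zero_smul, add_zero] at n1 n2 n3
  rw [Lg_nwt_eq hb ht x₀ n1, Lg_nwt_eq hb ht x₀ n2, Lg_nwt_eq hb ht x₀ n3,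
    Lg_nwt_eq hb ht x₀ hJ]
  refine le_trans (le_of_eq ?_) key
  congr 1
  have hsq : ∑ x, (J + u + v) x ^ 2 - ∑ x, (J + u) x ^ 2 - ∑ x, (J + v) x ^ 2 + ∑ x, J x ^ 2 =
      2 * ∑ x, u x * v x := by
    rw [Finset.mul_sum, ← Finset.sum_sub_distrib, ← Finset.sum_sub_distrib,
      ← Finset.sum_add_distrib]
    refine Finset.sum_congr rfl fun x _ => ?_
    simp only [Pi.add_apply]
    ring
  have hsq' : (∑ x, (J + u + v) x ^ 2) / (2 * t) - (∑ x, (J + u) x ^ 2) / (2 * t) -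
      (∑ x, (J + v) x ^ 2) / (2 * t) + (∑ x, J x ^ 2) / (2 * t) = (∑ x, u x * v x) / t := by
    rw [← sub_div, ← sub_div, ← add_div, hsq]
    field_simp
  linarith

/-- vertex form: `R(2 ·) ≤ τ` at the four vertices -/
theorem Far.nwt_lg {J u v : Tor N → ℝ} {κ₁ κ₂ A B r τ ω : ℝ}
    (h : Far (wt N b t) (cs u (-κ₁)) (cs v (-κ₂)) A B r) (hb : 0 ≤ b) (ht : 0 < t) (x₀ : Tor N)
    (hO : OscZ (wT b N) (t • (1 : Matrix (Tor N) (Tor N) ℝ)) ω) (hω : ω ≤ 1 / 2)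
    (hs : ∑ x, (u x - κ₁) * (v x - κ₂) = 0) (hJ : Neu J) (hu : Neu u) (hv : Neu v)
    (h00 : Rs (nwt N b t x₀) ((2 : ℝ) • J) ≤ τ) (h10 : Rs (nwt N b t x₀) ((2 : ℝ) • (J + u)) ≤ τ)
    (h01 : Rs (nwt N b t x₀) ((2 : ℝ) • (J + v)) ≤ τ)
    (h11 : Rs (nwt N b t x₀) ((2 : ℝ) • (J + u + v)) ≤ τ) :
    |Lg (nwt N b t x₀) (J + u + v) - Lg (nwt N b t x₀) (J + u) - Lg (nwt N b t x₀) (J + v) +
      Lg (nwt N b t x₀) J - (∑ x, u x * v x) / t| ≤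
      Real.exp ((τ + 16 * ω) / 2) * A * B * r + 8 * ω ^ 2 :=
  h.nwt_hull hb ht x₀ hO hω hs hJ hu hv fun _ hp _ hq =>
    hull (em_nwt hb ht x₀) (ev_nwt hb t x₀) (pk_nwt hb ht x₀) h00 h10 h01 h11 hp hq

/-- `∑ u v = 0` for neutral `u`, `v`, one of them supported away from the non constant part of the
other -/
lemma sum_mul_zero {u v : Tor N → ℝ} {κ : ℝ} (hv : Neu v)
    (hd : ∀ x, u x - κ = 0 ∨ v x = 0) : ∑ x, u x * v x = 0 := by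
  have h1 : ∑ x, u x * v x = ∑ x, (u x - κ) * v x + κ * ∑ x, v x := by
    rw [Finset.mul_sum, ← Finset.sum_add_distrib]
    exact Finset.sum_congr rfl fun x _ => by ring
  have h2 : ∑ x, (u x - κ) * v x = 0 := Finset.sum_eq_zero fun x _ => by
    rcases hd x with h | h <;> rw [h] <;> ring
  rw [h1, h2, show ∑ x, v x = 0 from hv]
  ring

end torus

/-- **PU4I**: neutral posterior at every real mass `t ≥ ξ⁻²`, neutral sources `J`, `u`, `v`;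
`u` modulo a constant and `v` modulo a constant supported at distance `≥ D ξ` -/
theorem pu4 {b1 : ℝ} (hb1 : 0 < b1) (b2 a : ℝ) :
    ∃ W₀ : ℝ, ∃ c C ys : ℝ, ∃ X : ℕ, 0 < c ∧ 1 ≤ C ∧ 0 < ys ∧ 1 ≤ X ∧ ∀ W : ℝ, W₀ ≤ W →
    ∀ (N : ℕ) [NeZero N] (b : ℝ) (ξ : ℕ) (y : ℝ),
      TM.Spec.Rng b1 b2 a W ys X N b ξ y → (N : ℝ) * y ≤ c * ξ →
      ∀ (u v : Tor N → ℝ) (κ₁ κ₂ A B D : ℝ), 0 < A → 0 < B → 0 < D → Neu u → Neu v →
        ∑ x, (u x - κ₁) ^ 2 ≤ A ^ 2 * (1 / (ξ : ℝ) ^ 2) →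
        ∑ x, (v x - κ₂) ^ 2 ≤ B ^ 2 * (1 / (ξ : ℝ) ^ 2) →
        (∀ x z, u x - κ₁ ≠ 0 → v z - κ₂ ≠ 0 → D * ξ ≤ sd x z) →
        ∀ t : ℝ, 1 / (ξ : ℝ) ^ 2 ≤ t → ∀ ω : ℝ, ω ≤ 1 / 2 →
        OscZ (wT b N) (t • (1 : Matrix (Tor N) (Tor N) ℝ)) ω →
        ∀ (x₀ : Tor N) (J : Tor N → ℝ) (τ : ℝ), Neu J →
          Rs (nwt N b t x₀) ((2 : ℝ) • J) ≤ τ → Rs (nwt N b t x₀) ((2 : ℝ) • (J + u)) ≤ τ →
          Rs (nwt N b t x₀) ((2 : ℝ) • (J + v)) ≤ τ →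
          Rs (nwt N b t x₀) ((2 : ℝ) • (J + u + v)) ≤ τ →
          |Lg (nwt N b t x₀) (J + u + v) - Lg (nwt N b t x₀) (J + u) -
            Lg (nwt N b t x₀) (J + v) + Lg (nwt N b t x₀) J - (∑ x, u x * v x) / t| ≤
            Real.exp ((τ + 16 * ω) / 2) * A * B * (C * Real.exp (-(c * D))) + 8 * ω ^ 2 := by
  obtain ⟨W₀, c, C, ys, X, hc, hC, hys, hX, h⟩ := lb4t hb1 b2 a
  refine ⟨W₀, c, C, ys, X, hc, hC, hys, hX, ?_⟩
  intro W hW N _ b ξ y hR hN u v κ₁ κ₂ A B D hA hB hD hu0 hv0 hu hv hsup t ht1 ω hω hO x₀ J τ hJ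
    h00 h10 h01 h11
  have hb : 0 ≤ b := hb1.le.trans hR.hb1
  have hξ : 0 < ξ := by
    have := hR.hX
    omega
  have hξR : (0 : ℝ) < ξ := by exact_mod_cast hξ
  have ht0 : (0 : ℝ) < 1 / (ξ : ℝ) ^ 2 := by positivity
  have ht : 0 < t := ht0.trans_le ht1
  have hfar := h W hW N b ξ y hR hN (cs u (-κ₁)) (cs v (-κ₂)) A B D hA hB hD.le
    (by simpa only [cs, ← sub_eq_add_neg] using hu) (by simpa only [cs, ← sub_eq_add_neg] using hv)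
    (fun x z hx hz => hsup x z (by simpa only [cs, ← sub_eq_add_neg] using hx)
      (by simpa only [cs, ← sub_eq_add_neg] using hz)) t ht1
  refine hfar.nwt_lg hb ht x₀ hO hω ?_ hJ hu0 hv0 h00 h10 h01 h11
  refine Finset.sum_eq_zero fun x _ => ?_
  rcases dis_of_sup (f := fun x => u x - κ₁) (g := fun x => v x - κ₂) hξ hD hsup x with h | h
  · have h' : u x - κ₁ = 0 := h
    rw [h', zero_mul]
  · have h' : v x - κ₂ = 0 := h
    rw [h', mul_zero]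

/-- **PU4I, cut form** (239's `mdg`, `mdz`): `J` and its cut `J'` agree modulo a constant within
distance `D ξ` of the support of the neutral `v` -/
theorem pu4_cut {b1 : ℝ} (hb1 : 0 < b1) (b2 a : ℝ) :
    ∃ W₀ : ℝ, ∃ c C ys : ℝ, ∃ X : ℕ, 0 < c ∧ 1 ≤ C ∧ 0 < ys ∧ 1 ≤ X ∧ ∀ W : ℝ, W₀ ≤ W →
    ∀ (N : ℕ) [NeZero N] (b : ℝ) (ξ : ℕ) (y : ℝ),
      TM.Spec.Rng b1 b2 a W ys X N b ξ y → (N : ℝ) * y ≤ c * ξ →
      ∀ (J J' v : Tor N → ℝ) (κ A B D : ℝ), 0 < A → 0 < B → 0 < D → Neu J → Neu J' → Neu v →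
        ∑ x, (J x - J' x - κ) ^ 2 ≤ A ^ 2 * (1 / (ξ : ℝ) ^ 2) →
        ∑ x, v x ^ 2 ≤ B ^ 2 * (1 / (ξ : ℝ) ^ 2) →
        (∀ x z, J x - J' x - κ ≠ 0 → v z ≠ 0 → D * ξ ≤ sd x z) →
        ∀ t : ℝ, 1 / (ξ : ℝ) ^ 2 ≤ t → ∀ ω : ℝ, ω ≤ 1 / 2 →
        OscZ (wT b N) (t • (1 : Matrix (Tor N) (Tor N) ℝ)) ω →
        ∀ (x₀ : Tor N) (τ : ℝ),
          Rs (nwt N b t x₀) ((2 : ℝ) • J) ≤ τ → Rs (nwt N b t x₀) ((2 : ℝ) • (J + v)) ≤ τ →
          Rs (nwt N b t x₀) ((2 : ℝ) • J') ≤ τ → Rs (nwt N b t x₀) ((2 : ℝ) • (J' + v)) ≤ τ →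
          |Lg (nwt N b t x₀) (J + v) - Lg (nwt N b t x₀) J - Lg (nwt N b t x₀) (J' + v) +
            Lg (nwt N b t x₀) J'| ≤
            Real.exp ((τ + 16 * ω) / 2) * A * B * (C * Real.exp (-(c * D))) + 8 * ω ^ 2 := by
  obtain ⟨W₀, c, C, ys, X, hc, hC, hys, hX, h⟩ := pu4 hb1 b2 a
  refine ⟨W₀, c, C, ys, X, hc, hC, hys, hX, ?_⟩
  intro W hW N _ b ξ y hR hN J J' v κ A B D hA hB hD hJ hJ' hv0 hu hv hsup t ht1 ω hω hO x₀ τ
    h1 h2 h3 h4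
  have hξ : 0 < ξ := by
    have := hR.hX
    omega
  have e1 : J' + (J - J') = J := by abel
  have e2 : J' + (J - J') + v = J + v := by rw [e1]
  have key := h W hW N b ξ y hR hN (J - J') v κ 0 A B D hA hB hD (hJ.sub hJ') hv0
    (by simpa only [Pi.sub_apply] using hu) (by simpa only [sub_zero] using hv)
    (fun x z hx hz => hsup x z (by simpa only [Pi.sub_apply] using hx)
      (by simpa only [sub_zero] using hz)) t ht1 ω hω hO x₀ J' τ hJ' h3 (by rwa [e1]) h4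
      (by rwa [e1])
  have h0 : ∑ x, (J - J') x * v x = 0 := sum_mul_zero (κ := κ) hv0 fun x =>
    dis_of_sup (f := fun x => J x - J' x - κ) (g := v) hξ hD hsup x
  rw [h0, zero_div, sub_zero, e1] at key
  refine le_trans (le_of_eq ?_) key
  congr 1

end Vale.Agent.P159.H612
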