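import Vale.Agent.P159.H612.LocK4

/-!
P159 / S (helper612): **LocK, part 5**: helper817's `SysI` for `rh` on one torus, locality filled in.

* `LocI` : the inputs of locality on one torus (Theorem A numbers, geometry, the prices);
* `sysI_K` : `SysI` from `LocI`, the flat expansion of the form and the size of `R`.
-/

set_option linter.unusedSectionVars false

namespace Vale.Agent.P159.H612.LocK

open Finset
open Vale.Agent.P159.TM.Spec (V)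
open Vale.Agent.P159.H817
open Vale.Agent.P159.TM.SpecC (Tor)
open Vale.Agent.P159.H474.Cb (LN Geo KL)
open Vale.Agent.P159.H280.Hs (PRS)
open Vale.Agent.P159.TM.H764 (EE)
open Vale.Agent.P159.H37 (Rs)
open Vale.Agent.P159.H963 (Pin nwt)

noncomputable section

/-- **the inputs of locality on the torus `N = (mb + 1) (nb + 2)`** -/
structure LocI (N mb nb : ℕ) [NeZero N] [NeZero ((mb + 1) * (nb + 2))] [NeZero ((mb + 1) * 2)]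
    (b : ℝ) (hb : 0 < b) (ξ A κ l r l0 : ℕ) (L₀ c C Λ pr ω : ℝ) (D0 D1 : Dec) : Prop where
  hN : (mb + 1) * (nb + 2) = N
  hc : 0 < c
  hC : 0 < C
  ln : LN mb nb b hb ξ A L₀ c C
  geo : Geo mb nb ξ A 8 κ (4 * (l / 100)) c
  hl0 : 100 * (l0 + 2) ≤ l
  hΛ : 0 ≤ Λ
  hS : 1 / (N : ℝ) + 4 * CG / (1 + ((l / 100 : ℕ) : ℝ)) + Λ / l ≤ L₀ / ξ
  hω : om0 N b ((1 / (ξ : ℝ) ^ 2) • (1 : Matrix (V N) (V N) ℝ)) ≤ ω
  hω4 : ω ≤ 1 / 4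
  hη : KL A c C * ((N : ℝ) / ξ) ^ 2 * Real.exp (-(c * κ / (4 * ξ))) *
    Real.exp (2 * (pr + 1)) ≤ 1 / 2
  supp0 : ∀ F ∈ D0, SuppD l0 F
  supp1 : ∀ F ∈ D1, SuppD l0 F
  /-- the price of smooth gradients -/
  pr0 : ∀ h : V N → ℝ, GB (Λ / l) h →
    PRS mb nb κ b (1 / (ξ : ℝ) ^ 2) (∅ : Finset (Tor N)) (H817.gr h) pr
  /-- the price of decorated pairs -/
  pr1 : ∀ F0 ∈ D0, ∀ F1 ∈ D1, ∀ (p q : V N) (h : V N → ℝ), H817.Far r p q → GB (Λ / l) h →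
    PRS mb nb κ b (1 / (ξ : ℝ) ^ 2) ({p, q} : Finset (Tor N)) (H817.cfg F0 F1 p q h) pr

variable {N mb nb : ℕ} [NeZero N] [NeZero ((mb + 1) * (nb + 2))] [NeZero ((mb + 1) * 2)] {b : ℝ}

/-- the field `loc` -/
theorem LocI.loc {hb : 0 < b} {ξ A κ l r l0 : ℕ} {L₀ c C Λ pr ω : ℝ} {D0 D1 : Dec}
    (I : LocI N mb nb b hb ξ A κ l r l0 L₀ c C Λ pr ω D0 D1) (hlr : 256 * l ≤ r)
    (hrN : 64 * r ≤ N) (w : V N) (m : ℕ) (B P W : V N × Bool → ℝ) (hm : 8 * m ≤ r)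
    (h00 : H817.KK l r Λ D0 D1 B) (h10 : H817.KK l r Λ D0 D1 (fun e => B e + P e))
    (h01 : H817.KK l r Λ D0 D1 (fun e => B e + W e))
    (h11 : H817.KK l r Λ D0 D1 (fun e => B e + P e + W e))
    (hPs : ∀ e, P e ≠ 0 → sz (e.1 - w) ≤ m) (hWs : ∀ e, W e ≠ 0 → m + l ≤ sz (e.1 - w)) :
    |EZ N b (1 / (ξ : ℝ) ^ 2) (fun e => B e + P e + W e) -
      EZ N b (1 / (ξ : ℝ) ^ 2) (fun e => B e + P e) -
      EZ N b (1 / (ξ : ℝ) ^ 2) (fun e => B e + W e) + EZ N b (1 / (ξ : ℝ) ^ 2) B| ≤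
      epsL N ξ A κ c C pr ω :=
  locK I.hN hb I.hc I.hC I.ln I.geo I.hl0 hlr hrN I.hΛ I.hS I.hω I.hω4 I.hη I.supp0 I.supp1 I.pr0
    I.pr1 w m B P W hm h00 h10 h01 h11 hPs hWs

/-- **`SysI` on one torus** : everything but locality as in helper817's `sysI_rh` -/
theorem sysI_K {hb : 0 < b} {ξ A κ l r l0 n : ℕ} {L₀ c C Λ pr ω a η ε₂ ε₃ εR : ℝ} {D0 D1 : Dec}
    (I : LocI N mb nb b hb ξ A κ l r l0 L₀ c C Λ pr ω D0 D1)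
    (ha : 0 < a) (hη : 0 ≤ η) (hl : 4 ≤ l) (hlr : 256 * l ≤ r) (hrN : 64 * r ≤ N) (hn : 1 ≤ n)
    (hnl : n + 3 ≤ l)
    (neg01 : ∀ F ∈ D0, (fun i j => -F i j) ∈ D1) (neg10 : ∀ F ∈ D1, (fun i j => -F i j) ∈ D0)
    (rfl1 : ∀ F ∈ D1, (fun i j => -rfl2 F i j) ∈ D1)
    (hP : ∀ k : V N, k ≠ 0 → |Pin N b (1 / (ξ : ℝ) ^ 2) k - a * EE k| ≤
      η * EE k * (1 + EE k / (1 / (ξ : ℝ) ^ 2)))
    (hR : ∀ F (w : V N), GB (Λ / l) F → (∀ x, 4 * l ≤ sz (x - w) → F x = 0) →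
      Rs (nwt N b (1 / (ξ : ℝ) ^ 2) 0) (Pt (1 / (ξ : ℝ) ^ 2) F) ≤ εR)
    (hεR : 0 ≤ εR) (hε : 3528 * kap0 a (1 / (ξ : ℝ) ^ 2) η n * Λ ^ 2 + εR ≤ ε₂)
    (hε₃ : epsL N ξ A κ c C pr ω ≤ ε₃) :
    SysI N l r Λ ε₂ ε₃ D0 D1 (rh N b (1 / (ξ : ℝ) ^ 2) a n) := by
  have hξ : 0 < ξ := by
    have := I.geo.hA
    have := I.geo.hAξ
    omega
  have hξr : (0 : ℝ) < ξ := by exact_mod_cast hξ
  have hsup : ∀ {F : ℤ → ℤ → ℝ}, SuppD l0 F → SuppD l F := fun {F} h i j hij => by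
    have h1 := h i j hij
    have h2 := I.hl0
    omega
  exact sysI_rh hb (by positivity) ha hη hl hlr hrN hn hnl (fun F hF => hsup (I.supp0 F hF))
    (fun F hF => hsup (I.supp1 F hF)) neg01 neg10 rfl1 hP hR hεR hε
    fun w m B P W hm k1 k2 k3 k4 hPs hWs =>
      (I.loc hlr hrN w m B P W hm k1 k2 k3 k4 hPs hWs).trans hε₃

end

end Vale.Agent.P159.H612.LocK
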