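import Vale.Agent.P159.H612.Rfl2
import Vale.Agent.P159.H474.Cb7

/-!
P159 / S (helper612): ONE reflection, part 3: tori of even side.

`RfT hN c a` : the reflection of `Tor N`, `N = 2 L`, in the lines `x_c = a`, `x_c = a + L`
(`c = false` : first coordinate, `c = true` : second coordinate); left part: `0 < x_c - a < L`.
`rfl_num` : numbers.
-/

set_option linter.unusedSectionVars false

namespace Vale.Agent.P159.H612.Rfl

open scoped ENNReal
open Finset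
open Vale.Agent.P159.H37 (qf re qf_smul_one ZM wM)
open Vale.Agent.P159.H770 (eW eWF EdW Ed eS eT wTD)
open Vale.Agent.P159.TM.SpecC (Tor wT)
open Vale.Agent.P159.H353 (wI wI_neg wI_nonneg)
open Vale.Agent.P159.H474.Cb (wDC summable_ZM ZM_wTD_le)

noncomputable section

section zmod

variable {N : ℕ} [NeZero N]

/-- the left half of `ZMod N` -/
def lfZ (L : ℕ) (z : ZMod N) : Prop := 0 < z.val ∧ z.val < L

instance (L : ℕ) (z : ZMod N) : Decidable (lfZ L z) := by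
  unfold lfZ
  infer_instance

lemma val_neg' {z : ZMod N} (h : 0 < z.val) : (-z).val = N - z.val := by
  have : NeZero z := ⟨fun h0 => by rw [h0, ZMod.val_zero] at h; exact lt_irrefl _ h⟩
  exact ZMod.val_neg_of_ne_zero z

lemma val_add_one' {z : ZMod N} (h : z.val + 1 < N) : (z + 1).val = z.val + 1 := by
  have h1 : z + 1 = ((z.val + 1 : ℕ) : ZMod N) := by
    push_cast
    rw [ZMod.natCast_zmod_val]
  rw [h1, ZMod.val_natCast, Nat.mod_eq_of_lt h]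

variable {L : ℕ}

lemma lfZ_dis (hN : N = 2 * L) {z : ZMod N} (h : lfZ L z) : ¬ lfZ L (-z) := by
  rintro ⟨h1, h2⟩
  rw [val_neg' h.1] at h2
  have := h.2
  omega

lemma lfZ_fix (hN : N = 2 * L) {z : ZMod N} (h : ¬ lfZ L z) (h' : ¬ lfZ L (-z)) : -z = z := by
  have hz := ZMod.val_lt z
  rcases Nat.eq_zero_or_pos z.val with h0 | h0
  · rw [ZMod.val_eq_zero] at h0
    rw [h0, neg_zero]
  · unfold lfZ at h h'
    rw [val_neg' h0] at h'
    refine ZMod.val_injective N ?_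
    rw [val_neg' h0]
    omega

lemma lfZ_cut (hN : N = 2 * L) {z : ZMod N} (h : lfZ L z) : ¬ lfZ L (-(z + 1)) := by
  have h1 := h.1
  have h2 := h.2
  have e : (z + 1).val = z.val + 1 := val_add_one' (by omega)
  rintro ⟨h3, h4⟩
  rw [val_neg' (by omega), e] at h4
  omega

lemma lfZ_cut' (hN : N = 2 * L) {z : ZMod N} (h : lfZ L (z + 1)) : ¬ lfZ L (-z) := by
  have h1 := h.1
  have h2 := h.2
  have hz := ZMod.val_lt z
  rcases Nat.lt_or_ge (z.val + 1) N with h5 | h5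
  · have e : (z + 1).val = z.val + 1 := val_add_one' h5
    rw [e] at h2
    rintro ⟨h3, h4⟩
    rcases Nat.eq_zero_or_pos z.val with h0 | h0
    · rw [ZMod.val_eq_zero] at h0
      rw [h0, neg_zero, ZMod.val_zero] at h3
      exact lt_irrefl _ h3
    · rw [val_neg' h0] at h4
      omega
  · exfalso
    have e : z = ((N - 1 : ℕ) : ZMod N) := by
      rw [← ZMod.natCast_zmod_val z]
      congr 1
      omega
    have e2 : z + 1 = 0 := by
      have h6 : ((N - 1 : ℕ) : ZMod N) + 1 = ((N - 1 + 1 : ℕ) : ZMod N) := by push_cast; rfl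
      rw [e, h6, Nat.sub_add_cancel (NeZero.one_le (n := N)), ZMod.natCast_self]
    rw [e2, ZMod.val_zero] at h1
    exact lt_irrefl _ h1

end zmod

section torus

variable {N : ℕ} [NeZero N] {L : ℕ}

/-- the coordinate number `c` -/
def co (c : Bool) (x : Tor N) : ZMod N := if c then x.2 else x.1

/-- the reflection -/
def thT (c : Bool) (a : ZMod N) (x : Tor N) : Tor N :=
  if c then (x.1, a + a - x.2) else (a + a - x.1, x.2)

lemma thT_thT (c : Bool) (a : ZMod N) (x : Tor N) : thT c a (thT c a x) = x := by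
  unfold thT
  cases c
  · simp
  · simp

lemma co_thT (c : Bool) (a : ZMod N) (x : Tor N) : co c (thT c a x) - a = -(co c x - a) := by
  unfold co thT
  cases c
  · simp only [Bool.false_eq_true, if_false]
    ring
  · simp only [if_true]
    ring

lemma thT_ext {c : Bool} {a : ZMod N} {x : Tor N} (h : -(co c x - a) = co c x - a) :
    thT c a x = x := by
  unfold co at h
  unfold thT
  cases c
  · simp only [Bool.false_eq_true, if_false] at h ⊢
    refine Prod.ext ?_ rfl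
    show a + a - x.1 = x.1
    linear_combination h
  · simp only [if_true] at h ⊢
    refine Prod.ext rfl ?_
    show a + a - x.2 = x.2
    linear_combination h

/-- **the reflection of the torus** -/
def RfT (hN : N = 2 * L) (c : Bool) (a : ZMod N) : Rf (Tor N) where
  θ := thT c a
  lf x := lfZ L (co c x - a)
  dec x := by infer_instance
  inv := thT_thT c a
  dis x h := by
    rw [co_thT]
    exact lfZ_dis hN h
  fix x h h' := by
    rw [co_thT] at h'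
    exact thT_ext (lfZ_fix hN h h')

/-- the target of an edge, in coordinates -/
lemma co_eT_same (c : Bool) (x : Tor N) : co c (eT N (x, c)) = co c x + 1 := by
  unfold co eT
  cases c <;> simp

lemma co_eT_other {c d : Bool} (h : d ≠ c) (x : Tor N) : co c (eT N (x, d)) = co c x := by
  unfold co eT
  cases c <;> cases d <;> simp_all

lemma thT_eT_same (c : Bool) (a : ZMod N) (x : Tor N) :
    eT N (thT c a (eT N (x, c)), c) = thT c a x := by
  unfold eT thT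
  cases c
  · simp only [Bool.false_eq_true, if_false]
    refine Prod.ext ?_ ?_
    · show a + a - (x.1 + 1) + 1 = a + a - x.1
      ring
    · show x.2 + 0 + 0 = x.2
      ring
  · simp only [if_true]
    refine Prod.ext ?_ ?_
    · show x.1 + 0 + 0 = x.1
      ring
    · show a + a - (x.2 + 1) + 1 = a + a - x.2
      ring

lemma thT_eT_other {c d : Bool} (h : d ≠ c) (a : ZMod N) (x : Tor N) :
    eT N (thT c a x, d) = thT c a (eT N (x, d)) := by
  unfold eT thT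
  cases c <;> cases d
  · exact absurd rfl h
  · simp
  · simp
  · exact absurd rfl h

/-- the reflection of the edges -/
def thE (c : Bool) (a : ZMod N) (e : Ed N) : Ed N :=
  if e.2 = c then (thT c a (eT N e), e.2) else (thT c a e.1, e.2)

/-- **the reflection of the torus graph** -/
def RgT (hN : N = 2 * L) (c : Bool) (a : ZMod N) : RfG (eS N) (eT N) (RfT hN c a) where
  θE := thE c a
  sg e := if e.2 = c then false else true
  inv e := by
    obtain ⟨x, d⟩ := e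
    unfold thE
    by_cases h : d = c
    · subst h
      simp only [if_true]
      rw [thT_eT_same, thT_thT]
    · simp only [h, if_false]
      rw [thT_thT]
  or1 e he := by
    obtain ⟨x, d⟩ := e
    by_cases h : d = c
    · simp [h] at he
    · unfold thE
      simp only [h, if_false]
      exact ⟨rfl, thT_eT_other h a x⟩
  or2 e he := by
    obtain ⟨x, d⟩ := e
    by_cases h : d = c
    · subst h
      unfold thE
      simp only [if_true]
      exact ⟨rfl, thT_eT_same d a x⟩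
    · simp [h] at he
  sgE e := by
    obtain ⟨x, d⟩ := e
    unfold thE
    by_cases h : d = c <;> simp [h]
  cut e h := by
    obtain ⟨x, d⟩ := e
    show ¬ lfZ L (co c (thT c a (eT N (x, d))) - a)
    have h' : lfZ L (co c x - a) := h
    rw [co_thT]
    by_cases hd : d = c
    · subst hd
      rw [co_eT_same, add_sub_right_comm]
      exact lfZ_cut hN h'
    · rw [co_eT_other hd]
      exact lfZ_dis hN h'
  cut' e h := by
    obtain ⟨x, d⟩ := e
    show ¬ lfZ L (co c (thT c a x) - a)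
    have h' : lfZ L (co c (eT N (x, d)) - a) := h
    rw [co_thT]
    by_cases hd : d = c
    · subst hd
      rw [co_eT_same, add_sub_right_comm] at h'
      exact lfZ_cut' hN h'
    · rw [co_eT_other hd] at h'
      exact lfZ_dis hN h'

lemma inv_wI {b : ℝ} (hb : 0 ≤ b) (hN : N = 2 * L) (c : Bool) (a : ZMod N) :
    Inv (RgT hN c a) fun _ => wI b where
  nn _ n := wI_nonneg hb n
  ev _ n := wI_neg b n
  rf _ _ := rfl

lemma ZT_eq {b τ : ℝ} (hb : 0 < b) (hτ : 0 < τ) (X : (Ed N → ℤ) × (Tor N → ℝ)) :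
    ZT (eS N) (eT N) (fun _ => wI b) τ X =
      ENNReal.ofReal (ZM (wTD N b X.1) (τ • (1 : Matrix (Tor N) (Tor N) ℝ)) X.2) :=
  (ENNReal.ofReal_tsum_of_nonneg (fun h => H474.Cb.wDC_nonneg hb X.1 X.2 h)
    (summable_ZM hb hτ (H789.coer_smul τ) X.1 X.2)).symm

end torus

/-! ### numbers -/

section num

variable {N1 N2 L1 L2 : ℕ} [NeZero N1] [NeZero N2] {b τ : ℝ}

/-- **one reflection on two tori, numbers**: `X1`, `X2` on the left sides of the two tori, a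
functional `G ≤ 1` of the closed right sides; if the sum of `G` in the backgrounds `κ1`, `κ2` is at
most `ε` times the partition functions, then in the data `X1 + κ1`, `X2 + κ2` it is at most
`√ε · √(Z(X1 + θX1) Z(0)) · √(Z(X2 + θX2) Z(0))` -/
theorem rfl_num (hb : 0 < b) (hτ : 0 < τ) (hN1 : N1 = 2 * L1) (hN2 : N2 = 2 * L2) (c1 c2 : Bool)
    (a1 : ZMod N1) (a2 : ZMod N2) {κ1 : Tor N1 → ℝ} {κ2 : Tor N2 → ℝ}
    (hκ1 : ∀ x, κ1 (thT c1 a1 x) = κ1 x) (hκ2 : ∀ x, κ2 (thT c2 a2 x) = κ2 x)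
    {X1 : (Ed N1 → ℤ) × (Tor N1 → ℝ)} {X2 : (Ed N2 → ℤ) × (Tor N2 → ℝ)}
    (hX1 : OnL (RgT hN1 c1 a1) X1) (hX2 : OnL (RgT hN2 c2 a2) X2)
    (G : (Tor N1 → ℤ) → (Tor N2 → ℤ) → ℝ≥0∞)
    (hG : ∀ h1 h1' h2 h2', (∀ x, ¬ lfZ L1 (co c1 x - a1) → h1 x = h1' x) →
      (∀ x, ¬ lfZ L2 (co c2 x - a2) → h2 x = h2' x) → G h1 h2 = G h1' h2')
    (hG1 : ∀ h1 h2, G h1 h2 ≤ 1) {ε : ℝ} (hε : 0 ≤ ε)
    (h0 : AG (eS N1) (eT N1) (eS N2) (eT N2) (fun _ => wI b) (fun _ => wI b) τ τ (0, κ1) (0, κ2) G ≤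
      ENNReal.ofReal (ε * (ZM (wT b N1) (τ • (1 : Matrix _ _ ℝ)) κ1 *
        ZM (wT b N2) (τ • (1 : Matrix _ _ ℝ)) κ2))) :
    AG (eS N1) (eT N1) (eS N2) (eT N2) (fun _ => wI b) (fun _ => wI b) τ τ (X1 + (0, κ1))
      (X2 + (0, κ2)) G ≤
      ENNReal.ofReal (√ε *
        √(ZM (wTD N1 b (cmb (RgT hN1 c1 a1) κ1 X1 X1).1) (τ • (1 : Matrix _ _ ℝ))
            (cmb (RgT hN1 c1 a1) κ1 X1 X1).2 * ZM (wT b N1) (τ • (1 : Matrix _ _ ℝ)) κ1) *
        √(ZM (wTD N2 b (cmb (RgT hN2 c2 a2) κ2 X2 X2).1) (τ • (1 : Matrix _ _ ℝ))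
            (cmb (RgT hN2 c2 a2) κ2 X2 X2).2 * ZM (wT b N2) (τ • (1 : Matrix _ _ ℝ)) κ2)) := by
  have key := rfl_le (τ1 := τ) (τ2 := τ) (κ1 := κ1) (κ2 := κ2) (inv_wI hb.le hN1 c1 a1)
    (inv_wI hb.le hN2 c2 a2) hκ1 hκ2 hX1 hX2 G hG hG1
  rw [cmb_zero, cmb_zero, cmb_zero, cmb_zero, zero_add, zero_add, ZT_eq hb hτ, ZT_eq hb hτ] at key
  refine key.trans ?_
  have hs : (τ • (1 : Matrix (Tor N1) (Tor N1) ℝ)).transpose = τ • 1 := by
    rw [Matrix.transpose_smul, Matrix.transpose_one]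
  have hs2 : (τ • (1 : Matrix (Tor N2) (Tor N2) ℝ)).transpose = τ • 1 := by
    rw [Matrix.transpose_smul, Matrix.transpose_one]
  set Y1 := ZM (wTD N1 b (cmb (RgT hN1 c1 a1) κ1 X1 X1).1) (τ • (1 : Matrix _ _ ℝ))
    (cmb (RgT hN1 c1 a1) κ1 X1 X1).2 with hY1
  set Y2 := ZM (wTD N2 b (cmb (RgT hN2 c2 a2) κ2 X2 X2).1) (τ • (1 : Matrix _ _ ℝ))
    (cmb (RgT hN2 c2 a2) κ2 X2 X2).2 with hY2
  set z1 := ZM (wT b N1) (τ • (1 : Matrix _ _ ℝ)) κ1 with hz1
  set z2 := ZM (wT b N2) (τ • (1 : Matrix _ _ ℝ)) κ2 with hz2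
  have pY1 : 0 ≤ Y1 := (H37.ZM_pos hs (H770.em_wTD hb _ hτ (H789.coer_smul τ)) _).le
  have pY2 : 0 ≤ Y2 := (H37.ZM_pos hs2 (H770.em_wTD hb _ hτ (H789.coer_smul τ)) _).le
  have pz1 : 0 ≤ z1 := (H37.ZM_pos hs (H789.em_wM_wT hb.le hτ (H789.coer_smul τ)) _).le
  have pz2 : 0 ≤ z2 := (H37.ZM_pos hs2 (H789.em_wM_wT hb.le hτ (H789.coer_smul τ)) _).le
  have e1 : ENNReal.ofReal (√ε * √(Y1 * z1) * √(Y2 * z2)) =
      ENNReal.ofReal Y1 ^ (1 / 2 : ℝ) * ENNReal.ofReal Y2 ^ (1 / 2 : ℝ) *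
        ENNReal.ofReal (ε * (z1 * z2)) ^ (1 / 2 : ℝ) := by
    rw [ENNReal.ofReal_rpow_of_nonneg pY1 (by norm_num),
      ENNReal.ofReal_rpow_of_nonneg pY2 (by norm_num),
      ENNReal.ofReal_rpow_of_nonneg (by positivity) (by norm_num),
      ← ENNReal.ofReal_mul (by positivity), ← ENNReal.ofReal_mul (by positivity)]
    congr 1
    rw [← Real.sqrt_eq_rpow, ← Real.sqrt_eq_rpow, ← Real.sqrt_eq_rpow, Real.sqrt_mul pY1,
      Real.sqrt_mul pY2, Real.sqrt_mul hε, Real.sqrt_mul pz1]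
    ring
  rw [e1]
  exact mul_le_mul' le_rfl (ENNReal.rpow_le_rpow h0 (by norm_num))

/-- **the same with the four point numbers** `m1`, `m2` (mixed differences of `X` and its mirror
image): the price of the data is `exp((m1 + m2)/2)` and nothing else -/
theorem rfl_loc (hb : 0 < b) (hτ : 0 < τ) (hN1 : N1 = 2 * L1) (hN2 : N2 = 2 * L2) (c1 c2 : Bool)
    (a1 : ZMod N1) (a2 : ZMod N2) {κ1 : Tor N1 → ℝ} {κ2 : Tor N2 → ℝ}
    (hκ1 : ∀ x, κ1 (thT c1 a1 x) = κ1 x) (hκ2 : ∀ x, κ2 (thT c2 a2 x) = κ2 x)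
    {X1 : (Ed N1 → ℤ) × (Tor N1 → ℝ)} {X2 : (Ed N2 → ℤ) × (Tor N2 → ℝ)}
    (hX1 : OnL (RgT hN1 c1 a1) X1) (hX2 : OnL (RgT hN2 c2 a2) X2)
    (G : (Tor N1 → ℤ) → (Tor N2 → ℤ) → ℝ≥0∞)
    (hG : ∀ h1 h1' h2 h2', (∀ x, ¬ lfZ L1 (co c1 x - a1) → h1 x = h1' x) →
      (∀ x, ¬ lfZ L2 (co c2 x - a2) → h2 x = h2' x) → G h1 h2 = G h1' h2')
    (hG1 : ∀ h1 h2, G h1 h2 ≤ 1) {ε : ℝ} (hε : 0 ≤ ε)
    (h0 : AG (eS N1) (eT N1) (eS N2) (eT N2) (fun _ => wI b) (fun _ => wI b) τ τ (0, κ1) (0, κ2) G ≤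
      ENNReal.ofReal (ε * (ZM (wT b N1) (τ • (1 : Matrix _ _ ℝ)) κ1 *
        ZM (wT b N2) (τ • (1 : Matrix _ _ ℝ)) κ2))) {m1 m2 : ℝ}
    (hm1 : ZM (wTD N1 b (cmb (RgT hN1 c1 a1) κ1 X1 X1).1) (τ • (1 : Matrix _ _ ℝ))
      (cmb (RgT hN1 c1 a1) κ1 X1 X1).2 * ZM (wT b N1) (τ • (1 : Matrix _ _ ℝ)) κ1 ≤
      Real.exp m1 * ZM (wTD N1 b X1.1) (τ • (1 : Matrix _ _ ℝ)) (X1.2 + κ1) ^ 2)
    (hm2 : ZM (wTD N2 b (cmb (RgT hN2 c2 a2) κ2 X2 X2).1) (τ • (1 : Matrix _ _ ℝ))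
      (cmb (RgT hN2 c2 a2) κ2 X2 X2).2 * ZM (wT b N2) (τ • (1 : Matrix _ _ ℝ)) κ2 ≤
      Real.exp m2 * ZM (wTD N2 b X2.1) (τ • (1 : Matrix _ _ ℝ)) (X2.2 + κ2) ^ 2) :
    AG (eS N1) (eT N1) (eS N2) (eT N2) (fun _ => wI b) (fun _ => wI b) τ τ (X1 + (0, κ1))
      (X2 + (0, κ2)) G ≤
      ENNReal.ofReal (√ε * Real.exp ((m1 + m2) / 2) *
        (ZM (wTD N1 b X1.1) (τ • (1 : Matrix _ _ ℝ)) (X1.2 + κ1) *
          ZM (wTD N2 b X2.1) (τ • (1 : Matrix _ _ ℝ)) (X2.2 + κ2))) := by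
  refine (rfl_num hb hτ hN1 hN2 c1 c2 a1 a2 hκ1 hκ2 hX1 hX2 G hG hG1 hε h0).trans
    (ENNReal.ofReal_le_ofReal ?_)
  have hs : (τ • (1 : Matrix (Tor N1) (Tor N1) ℝ)).transpose = τ • 1 := by
    rw [Matrix.transpose_smul, Matrix.transpose_one]
  have hs2 : (τ • (1 : Matrix (Tor N2) (Tor N2) ℝ)).transpose = τ • 1 := by
    rw [Matrix.transpose_smul, Matrix.transpose_one]
  have p1 : 0 ≤ ZM (wTD N1 b X1.1) (τ • (1 : Matrix _ _ ℝ)) (X1.2 + κ1) :=
    (H37.ZM_pos hs (H770.em_wTD hb _ hτ (H789.coer_smul τ)) _).le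
  have p2 : 0 ≤ ZM (wTD N2 b X2.1) (τ • (1 : Matrix _ _ ℝ)) (X2.2 + κ2) :=
    (H37.ZM_pos hs2 (H770.em_wTD hb _ hτ (H789.coer_smul τ)) _).le
  have q : ∀ (m y : ℝ), 0 ≤ y → √(Real.exp m * y ^ 2) = Real.exp (m / 2) * y := by
    intro m y hy
    rw [Real.sqrt_mul (Real.exp_pos m).le, Real.sqrt_sq hy]
    congr 1
    rw [← Real.sqrt_sq (Real.exp_pos (m / 2)).le, ← Real.exp_nat_mul]
    congr 2
    push_cast
    ring
  have r1 := (Real.sqrt_le_sqrt hm1).trans (le_of_eq (q m1 _ p1))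
  have r2 := (Real.sqrt_le_sqrt hm2).trans (le_of_eq (q m2 _ p2))
  have e : √ε * Real.exp ((m1 + m2) / 2) *
      (ZM (wTD N1 b X1.1) (τ • (1 : Matrix _ _ ℝ)) (X1.2 + κ1) *
        ZM (wTD N2 b X2.1) (τ • (1 : Matrix _ _ ℝ)) (X2.2 + κ2)) =
      √ε * (Real.exp (m1 / 2) * ZM (wTD N1 b X1.1) (τ • (1 : Matrix _ _ ℝ)) (X1.2 + κ1)) *
        (Real.exp (m2 / 2) * ZM (wTD N2 b X2.1) (τ • (1 : Matrix _ _ ℝ)) (X2.2 + κ2)) := by
    rw [add_div, Real.exp_add]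
    ring
  rw [e]
  exact mul_le_mul (mul_le_mul_of_nonneg_left r1 (Real.sqrt_nonneg _)) r2 (Real.sqrt_nonneg _)
    (by positivity)

end num

end

end Vale.Agent.P159.H612.Rfl
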