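import Vale.Agent.P159.H612.Local
import Vale.Agent.P159.T1.H897.Fkg

/-!
P159 / second order flow, module LOCAL (helper612), part (LB3): the covariance of the energies
`X_u²`, `X_v²` at background `0` in terms of the covariance of `X_|u|`, `X_|v|`.
-/

namespace Vale.Agent.P159.H612

open Real Finset Filter Topology
open Vale.Agent.P159.TM.H104
open Vale.Agent.P159.H37
open Vale.Agent.P159.T1.H897 (Hol)


variable {V : Type*} [Fintype V] {μ : (V → ℤ) → ℝ}

/-! ### association -/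

theorem hol_tilt (_hμ : EM μ) (hol : Hol μ μ) (J : V → ℝ) :
    Hol (fun h => μ h * Real.exp (li J h)) fun h => μ h * Real.exp (li J h) := by
  intro x y
  have h1 : li J x + li J y = li J (x ⊓ y) + li J (x ⊔ y) := by
    unfold li
    rw [← Finset.sum_add_distrib, ← Finset.sum_add_distrib]
    refine Finset.sum_congr rfl fun z _ => ?_
    rw [← mul_add, ← mul_add]
    congr 1
    simp only [Pi.inf_apply, Pi.sup_apply]
    have := min_add_max (x z) (y z)
    exact_mod_cast this.symm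
  calc μ x * Real.exp (li J x) * (μ y * Real.exp (li J y))
      = μ x * μ y * Real.exp (li J x + li J y) := by rw [Real.exp_add]; ring
    _ ≤ μ (x ⊓ y) * μ (x ⊔ y) * Real.exp (li J x + li J y) :=
        mul_le_mul_of_nonneg_right (hol x y) (Real.exp_pos _).le
    _ = _ := by rw [h1, Real.exp_add]; ring

/-- the FKG inequality in every background -/
theorem fkg (hμ : EM μ) (hol : Hol μ μ) (J : V → ℝ) {f g : (V → ℤ) → ℝ} (gf : Gr f) (gg : Gr g)
    (mf : Monotone f) (mg : Monotone g) : 0 ≤ Cv μ J f g := by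
  have e : ∀ F : (V → ℤ) → ℝ, TM.H104.T μ J F = ∑' h, μ h * Real.exp (li J h) * F h := by
    intro F
    unfold TM.H104.T
    exact tsum_congr fun h => by ring
  have s : ∀ {F : (V → ℤ) → ℝ}, Gr F → Summable fun h => μ h * Real.exp (li J h) * F h := by
    intro F hF
    exact (hμ.summ hF J).congr fun h => by ring
  have s1 : Summable fun h => μ h * Real.exp (li J h) :=
    (s (Gr.const 1)).congr fun h => by ring
  have h := Vale.Agent.P159.T1.H897.fkg_tsum (μ := fun h => μ h * Real.exp (li J h))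
    (fun h => mul_nonneg (hμ.nn h) (Real.exp_pos _).le) s1 (s gf) (s gg) (s (gf.mul gg))
    (hol_tilt hμ hol J) mf mg
  have hZ := T_one_pos hμ J
  unfold Cv Ex
  have e1 : (TM.H104.T μ J fun _ => 1) = ∑' h, μ h * Real.exp (li J h) := by
    rw [e]
    exact tsum_congr fun h => by ring
  rw [← e, ← e, ← e, ← e1] at h
  rw [div_mul_div_comm, sub_nonneg, div_le_div_iff₀ (by positivity) hZ]
  nlinarith

/-- Lipschitz with weights `a` -/
def Lp (f : (V → ℤ) → ℝ) (a : V → ℝ) : Prop :=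
  ∀ h h' : V → ℤ, |f h - f h'| ≤ ∑ x, a x * |(h x : ℝ) - (h' x : ℝ)|

theorem Lp.mono1 {f : (V → ℤ) → ℝ} {a : V → ℝ} (h : Lp f a) :
    Monotone fun x : V → ℤ => li a x + f x := by
  intro x y hxy
  have h1 := (abs_le.1 (h x y)).2
  have h2 : ∑ z, a z * |(x z : ℝ) - (y z : ℝ)| = li a y - li a x := by
    unfold li
    rw [← Finset.sum_sub_distrib]
    refine Finset.sum_congr rfl fun z _ => ?_
    have h3 : (x z : ℝ) ≤ y z := by exact_mod_cast hxy z
    rw [abs_of_nonpos (by linarith)]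
    ring
  simp only
  linarith

theorem Lp.mono2 {f : (V → ℤ) → ℝ} {a : V → ℝ} (h : Lp f a) :
    Monotone fun x : V → ℤ => li a x - f x := by
  intro x y hxy
  have h1 := (abs_le.1 (h y x)).2
  have h2 : ∑ z, a z * |(y z : ℝ) - (x z : ℝ)| = li a y - li a x := by
    unfold li
    rw [← Finset.sum_sub_distrib]
    refine Finset.sum_congr rfl fun z _ => ?_
    have h3 : (x z : ℝ) ≤ y z := by exact_mod_cast hxy z
    rw [abs_of_nonneg (by linarith)]
    ring
  simp only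
  linarith

theorem Cv_add_right (hμ : EM μ) (J : V → ℝ) {F G H : (V → ℤ) → ℝ} (hF : Gr F) (hG : Gr G)
    (hH : Gr H) : Cv μ J H (fun h => F h + G h) = Cv μ J H F + Cv μ J H G := by
  rw [Cv_comm, Cv_add_left hμ J hF hG hH, Cv_comm J F, Cv_comm J G]

theorem Cv_sub_left (hμ : EM μ) (J : V → ℝ) {F G H : (V → ℤ) → ℝ} (hF : Gr F) (hG : Gr G)
    (hH : Gr H) : Cv μ J (fun h => F h - G h) H = Cv μ J F H - Cv μ J G H := by
  have e : (fun h => F h - G h) = fun h => F h + (-1) * G h := by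
    funext h
    ring
  rw [e, Cv_add_left hμ J hF (hG.cmul _) hH, Cv_cmul_left]
  ring

theorem Cv_sub_right (hμ : EM μ) (J : V → ℝ) {F G H : (V → ℤ) → ℝ} (hF : Gr F) (hG : Gr G)
    (hH : Gr H) : Cv μ J H (fun h => F h - G h) = Cv μ J H F - Cv μ J H G := by
  rw [Cv_comm, Cv_sub_left hμ J hF hG hH, Cv_comm J F, Cv_comm J G]

/-- **Newman's inequality** in every background -/
theorem newman (hμ : EM μ) (hol : Hol μ μ) (J : V → ℝ) {f g : (V → ℤ) → ℝ} {a b : V → ℝ}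
    (gf : Gr f) (gg : Gr g) (hf : Lp f a) (hg : Lp g b) :
    |Cv μ J f g| ≤ Cv μ J (li a) (li b) := by
  have ga : Gr (li a) := Gr.li a
  have gb : Gr (li b) := Gr.li b
  have h1 := fkg hμ hol J (ga.add gf) (gb.add gg) hf.mono1 hg.mono1
  have h2 := fkg hμ hol J (ga.sub gf) (gb.sub gg) hf.mono2 hg.mono2
  have h3 := fkg hμ hol J (ga.add gf) (gb.sub gg) hf.mono1 hg.mono2
  have h4 := fkg hμ hol J (ga.sub gf) (gb.add gg) hf.mono2 hg.mono1
  rw [Cv_add_left hμ J ga gf (gb.add gg), Cv_add_right hμ J gb gg ga,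
    Cv_add_right hμ J gb gg gf] at h1
  rw [Cv_sub_left hμ J ga gf (gb.sub gg), Cv_sub_right hμ J gb gg ga,
    Cv_sub_right hμ J gb gg gf] at h2
  rw [Cv_add_left hμ J ga gf (gb.sub gg), Cv_sub_right hμ J gb gg ga,
    Cv_sub_right hμ J gb gg gf] at h3
  rw [Cv_sub_left hμ J ga gf (gb.add gg), Cv_add_right hμ J gb gg ga,
    Cv_add_right hμ J gb gg gf] at h4
  rw [abs_le]
  constructor <;> linarith

/-! ### truncated squares -/

/-- truncated square -/
noncomputable def tsq (L x : ℝ) : ℝ := min (x ^ 2) (L ^ 2)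

theorem tsq_nonneg (L x : ℝ) : 0 ≤ tsq L x := le_min (sq_nonneg _) (sq_nonneg _)

theorem tsq_eq {L : ℝ} (hL : 0 ≤ L) (x : ℝ) : tsq L x = (min |x| L) ^ 2 := by
  unfold tsq
  rcases le_total |x| L with h | h
  · rw [min_eq_left h, sq_abs, min_eq_left]
    rw [← sq_abs x]
    exact pow_le_pow_left₀ (abs_nonneg _) h 2
  · rw [min_eq_right h, min_eq_right]
    rw [← sq_abs x]
    exact pow_le_pow_left₀ hL h 2

theorem tsq_lip {L : ℝ} (hL : 0 ≤ L) (x y : ℝ) : |tsq L x - tsq L y| ≤ 2 * L * |x - y| := by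
  rw [tsq_eq hL, tsq_eq hL]
  have h0 : |min |x| L - min |y| L| ≤ |x - y| := by
    refine (abs_min_sub_min_le_max _ _ _ _).trans ?_
    rw [sub_self, abs_zero, max_eq_left (abs_nonneg _)]
    exact abs_abs_sub_abs_le x y
  have h1 : (min |x| L) ^ 2 - (min |y| L) ^ 2 =
      (min |x| L + min |y| L) * (min |x| L - min |y| L) := by ring
  rw [h1, abs_mul]
  have h2 : 0 ≤ min |x| L := le_min (abs_nonneg _) hL
  have h3 : 0 ≤ min |y| L := le_min (abs_nonneg _) hL
  have h4 : min |x| L ≤ L := min_le_right _ _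
  have h5 : min |y| L ≤ L := min_le_right _ _
  rw [abs_of_nonneg (add_nonneg h2 h3)]
  exact mul_le_mul (by linarith) h0 (abs_nonneg _) (by linarith)

theorem tsq_Lp {L : ℝ} (hL : 0 ≤ L) (u : V → ℝ) :
    Lp (fun h => tsq L (li u h)) fun x => 2 * L * |u x| := by
  intro h h'
  refine (tsq_lip hL _ _).trans ?_
  have h1 : li u h - li u h' = ∑ x, u x * ((h x : ℝ) - (h' x : ℝ)) := by
    unfold li
    rw [← Finset.sum_sub_distrib]
    exact Finset.sum_congr rfl fun x _ => by ring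
  rw [h1]
  refine (mul_le_mul_of_nonneg_left (Finset.abs_sum_le_sum_abs _ _) (by positivity)).trans ?_
  rw [Finset.mul_sum]
  refine Finset.sum_le_sum fun x _ => ?_
  rw [abs_mul]
  exact (by ring : 2 * L * (|u x| * |(h x : ℝ) - (h' x : ℝ)|) =
    2 * L * |u x| * |(h x : ℝ) - (h' x : ℝ)|).le

/-- the remainder of the truncation -/
theorem rem_le {L : ℝ} (hL : 1 ≤ L) (x : ℝ) :
    0 ≤ x ^ 2 - tsq L x ∧ (x ^ 2 - tsq L x) ^ 2 ≤
      384 * Real.exp (-(L * (L - 1 / 2))) * Real.exp (L * |x|) := by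
  have h0 : tsq L x ≤ x ^ 2 := min_le_left _ _
  refine ⟨by linarith, ?_⟩
  rcases le_total |x| L with h | h
  · have h1 : tsq L x = x ^ 2 := by
      unfold tsq
      refine min_eq_left ?_
      rw [← sq_abs x]
      exact pow_le_pow_left₀ (abs_nonneg _) h 2
    rw [h1, sub_self, zero_pow two_ne_zero]
    positivity
  · have h1 : (x ^ 2 - tsq L x) ^ 2 ≤ (x ^ 2) ^ 2 := by
      have := tsq_nonneg L x
      exact pow_le_pow_left₀ (by linarith) (by linarith) 2
    have h2 : (x ^ 2) ^ 2 = |x| ^ 4 := by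
      rw [← sq_abs x]
      ring
    have h3 : (|x| / 2) ^ 4 / 24 ≤ Real.exp (|x| / 2) := by
      have := Real.pow_div_factorial_le_exp (|x| / 2) (by positivity) 4
      simpa [Nat.factorial] using this
    have h4 : |x| ^ 4 ≤ 384 * Real.exp (|x| / 2) := by nlinarith
    have h5 : Real.exp (|x| / 2) ≤ Real.exp (-(L * (L - 1 / 2))) * Real.exp (L * |x|) := by
      rw [← Real.exp_add]
      refine Real.exp_le_exp.2 ?_
      nlinarith
    rw [h2] at h1
    nlinarith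

/-- the fourth power -/
theorem four_le (x : ℝ) : (x ^ 2) ^ 2 ≤ 384 * Real.exp (1 / 2 * |x|) := by
  have h2 : (x ^ 2) ^ 2 = |x| ^ 4 := by
    rw [← sq_abs x]
    ring
  have h3 : (|x| / 2) ^ 4 / 24 ≤ Real.exp (|x| / 2) := by
    have := Real.pow_div_factorial_le_exp (|x| / 2) (by positivity) 4
    simpa [Nat.factorial] using this
  rw [h2]
  have h4 : 1 / 2 * |x| = |x| / 2 := by ring
  rw [h4]
  nlinarith

/-- sub-Gaussian source `0` with parameter `1/t` -/
def SubG (μ : (V → ℤ) → ℝ) (t : ℝ) : Prop :=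
  ∀ J : V → ℝ, Ex μ 0 (fun h => Real.exp (li J h)) ≤ Real.exp ((∑ x, J x ^ 2) / (2 * t))

theorem Gr_exp_abs (u : V → ℝ) {s : ℝ} (hs : 0 ≤ s) :
    Gr fun h : V → ℤ => Real.exp (s * |li u h|) := by
  refine Gr.mk' (A := 1) (B := s * ‖u‖) fun h => ?_
  rw [abs_of_pos (Real.exp_pos _), one_mul]
  refine Real.exp_le_exp.2 ?_
  have := abs_li u h
  nlinarith

theorem exp_abs_le (hμ : EM μ) {t : ℝ} (ht : 0 < t) (hS : SubG μ t) {u : V → ℝ}
    (hu : ∑ x, u x ^ 2 ≤ t) {s : ℝ} (hs : 0 ≤ s) :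
    Ex μ 0 (fun h => Real.exp (s * |li u h|)) ≤ 2 * Real.exp (s ^ 2 / 2) := by
  have g1 : Gr fun h : V → ℤ => Real.exp (li (s • u) h) := Gr.exp_li _
  have g2 : Gr fun h : V → ℤ => Real.exp (li ((-s) • u) h) := Gr.exp_li _
  have key : ∀ r : ℝ, r ^ 2 = s ^ 2 →
      Ex μ 0 (fun h => Real.exp (li (r • u) h)) ≤ Real.exp (s ^ 2 / 2) := by
    intro r hr
    refine (hS (r • u)).trans (Real.exp_le_exp.2 ?_)
    have e1 : ∑ x, (r • u) x ^ 2 = s ^ 2 * ∑ x, u x ^ 2 := by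
      rw [Finset.mul_sum]
      refine Finset.sum_congr rfl fun x _ => ?_
      rw [Pi.smul_apply, smul_eq_mul, mul_pow, hr]
    rw [e1, div_le_div_iff₀ (by positivity) (by norm_num)]
    nlinarith [sq_nonneg s]
  refine (Ex_mono hμ (Gr_exp_abs u hs) (g1.add g2) (fun h => ?_) 0).trans ?_
  · rw [li_smul, li_smul]
    rcases le_total 0 (li u h) with h1 | h1
    · rw [abs_of_nonneg h1]
      linarith [Real.exp_pos (-s * li u h)]
    · rw [abs_of_nonpos h1, mul_neg, neg_mul]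
      linarith [Real.exp_pos (s * li u h)]
  · rw [Ex_add hμ g1 g2]
    have := key s rfl
    have := key (-s) (by ring)
    linarith

/-- Cauchy-Schwarz for covariances -/
theorem Cv_sq_le (hμ : EM μ) (J : V → ℝ) {f g : (V → ℤ) → ℝ} (gf : Gr f) (gg : Gr g) :
    Cv μ J f g ^ 2 ≤ Ex μ J (fun h => f h ^ 2) * Ex μ J (fun h => g h ^ 2) := by
  have gff : Gr fun h => f h ^ 2 := by simpa only [pow_two] using gf.mul gf
  have ggg : Gr fun h => g h ^ 2 := by simpa only [pow_two] using gg.mul gg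
  have hv : ∀ {F : (V → ℤ) → ℝ}, Gr F → 0 ≤ Cv μ J F F := by
    intro F hF
    have h1 : 0 ≤ Ex μ J fun h => (F h - Ex μ J F) * (F h - Ex μ J F) :=
      Ex_nonneg hμ (fun h => mul_self_nonneg _) J
    have e : (fun h => (F h - Ex μ J F) * (F h - Ex μ J F)) =
        fun h => (F h * F h - (2 * Ex μ J F) * F h) + Ex μ J F * Ex μ J F := by
      funext h
      ring
    rw [e, Ex_add hμ ((hF.mul hF).sub (hF.cmul _)) (Gr.const _), Ex_sub hμ (hF.mul hF)
      (hF.cmul _), Ex_cmul, Ex_const hμ] at h1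
    unfold Cv
    linarith
  have hq : ∀ c : ℝ, 0 ≤ Cv μ J f f * (c * c) + 2 * Cv μ J f g * c + Cv μ J g g := by
    intro c
    have h1 := hv ((gf.cmul c).add gg)
    rw [Cv_add_left hμ J (gf.cmul c) gg ((gf.cmul c).add gg),
      Cv_add_right hμ J (gf.cmul c) gg (gf.cmul c), Cv_add_right hμ J (gf.cmul c) gg gg,
      Cv_cmul_left, Cv_cmul_left, Cv_comm J f (fun h => c * f h), Cv_cmul_left,
      Cv_comm J g (fun h => c * f h), Cv_cmul_left] at h1
    linarith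
  have hd := discrim_le_zero hq
  unfold discrim at hd
  have h1 : Cv μ J f f ≤ Ex μ J fun h => f h ^ 2 := by
    unfold Cv
    have e : (fun h => f h * f h) = fun h => f h ^ 2 := by
      funext h
      ring
    rw [e]
    nlinarith [mul_self_nonneg (Ex μ J f)]
  have h2 : Cv μ J g g ≤ Ex μ J fun h => g h ^ 2 := by
    unfold Cv
    have e : (fun h => g h * g h) = fun h => g h ^ 2 := by
      funext h
      ring
    rw [e]
    nlinarith [mul_self_nonneg (Ex μ J g)]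
  have h3 : Cv μ J f g ^ 2 ≤ Cv μ J f f * Cv μ J g g := by nlinarith
  exact h3.trans (mul_le_mul h1 h2 (hv gg) ((hv gf).trans h1))

theorem Gr_sq (u : V → ℝ) : Gr fun h : V → ℤ => li u h ^ 2 := by
  simpa only [pow_two] using (Gr.li u).mul (Gr.li u)

theorem Gr_tsq (L : ℝ) (u : V → ℝ) : Gr fun h : V → ℤ => tsq L (li u h) := by
  refine Gr.of_bdd (C := L ^ 2) fun h => ?_
  rw [abs_of_nonneg (tsq_nonneg _ _)]
  exact min_le_right _ _

theorem Ex_four_le (hμ : EM μ) {t : ℝ} (ht : 0 < t) (hS : SubG μ t) {u : V → ℝ}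
    (hu : ∑ x, u x ^ 2 ≤ t) : Ex μ 0 (fun h => (li u h ^ 2) ^ 2) ≤ 768 * Real.exp (1 / 8) := by
  have h1 := exp_abs_le hμ ht hS hu (s := 1 / 2) (by norm_num)
  have g1 : Gr fun h : V → ℤ => (li u h ^ 2) ^ 2 := by
    simpa only [pow_two] using (Gr_sq u).mul (Gr_sq u)
  refine (Ex_mono hμ g1 ((Gr_exp_abs u (s := 1 / 2) (by norm_num)).cmul 384)
    (fun h => four_le _) 0).trans ?_
  rw [Ex_cmul]
  have e : ((1 : ℝ) / 2) ^ 2 / 2 = 1 / 8 := by norm_num
  rw [e] at h1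
  linarith

theorem Ex_tsq_le (hμ : EM μ) {t : ℝ} (ht : 0 < t) (hS : SubG μ t) {u : V → ℝ}
    (hu : ∑ x, u x ^ 2 ≤ t) (L : ℝ) :
    Ex μ 0 (fun h => tsq L (li u h) ^ 2) ≤ 768 * Real.exp (1 / 8) := by
  have g1 : Gr fun h : V → ℤ => (li u h ^ 2) ^ 2 := by
    simpa only [pow_two] using (Gr_sq u).mul (Gr_sq u)
  have g2 : Gr fun h : V → ℤ => tsq L (li u h) ^ 2 := by
    simpa only [pow_two] using (Gr_tsq L u).mul (Gr_tsq L u)
  refine (Ex_mono hμ g2 g1 (fun h => ?_) 0).trans (Ex_four_le hμ ht hS hu)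
  exact pow_le_pow_left₀ (tsq_nonneg _ _) (min_le_left _ _) 2

theorem Ex_rem_le (hμ : EM μ) {t : ℝ} (ht : 0 < t) (hS : SubG μ t) {u : V → ℝ}
    (hu : ∑ x, u x ^ 2 ≤ t) {L : ℝ} (hL : 1 ≤ L) :
    Ex μ 0 (fun h => (li u h ^ 2 - tsq L (li u h)) ^ 2) ≤
      768 * Real.exp (-(L ^ 2 / 2) + L / 2) := by
  have h1 := exp_abs_le hμ ht hS hu (s := L) (by linarith)
  have g1 : Gr fun h : V → ℤ => (li u h ^ 2 - tsq L (li u h)) ^ 2 := by
    simpa only [pow_two] using
      ((Gr_sq u).sub (Gr_tsq L u)).mul ((Gr_sq u).sub (Gr_tsq L u))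
  refine (Ex_mono hμ g1 ((Gr_exp_abs u (s := L) (by linarith)).cmul
    (384 * Real.exp (-(L * (L - 1 / 2))))) (fun h => (rem_le hL _).2) 0).trans ?_
  rw [Ex_cmul]
  refine (mul_le_mul_of_nonneg_left h1 (by positivity)).trans (le_of_eq ?_)
  have e : Real.exp (-(L ^ 2 / 2) + L / 2) =
      Real.exp (-(L * (L - 1 / 2))) * Real.exp (L ^ 2 / 2) := by
    rw [← Real.exp_add]
    congr 1
    ring
  rw [e]
  ring

theorem sqrt_exp (x : ℝ) : √(Real.exp x) = Real.exp (x / 2) := by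
  rw [Real.sqrt_eq_iff_mul_self_eq (Real.exp_pos _).le (Real.exp_pos _).le, ← Real.exp_add]
  congr 1
  ring

/-- the truncation inequality -/
theorem lb3_aux (hμ : EM μ) (hol : Hol μ μ) {t : ℝ} (ht : 0 < t) (hS : SubG μ t) {u v : V → ℝ}
    (hu : ∑ x, u x ^ 2 ≤ t) (hv : ∑ x, v x ^ 2 ≤ t) {L : ℝ} (hL : 1 ≤ L) :
    |Cv μ 0 (fun h => li u h ^ 2) (fun h => li v h ^ 2)| ≤
      4 * L ^ 2 * Cv μ 0 (li fun x => |u x|) (li fun x => |v x|) +
        2048 * Real.exp (-(L ^ 2 / 8)) := by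
  have hL0 : 0 ≤ L := by linarith
  have gu := Gr_sq u
  have gv := Gr_sq v
  have tu := Gr_tsq L u
  have tv := Gr_tsq L v
  have ru := gu.sub tu
  have rv := gv.sub tv
  -- splitting
  have h1 : Cv μ 0 (fun h => li u h ^ 2) (fun h => li v h ^ 2) =
      Cv μ 0 (fun h => tsq L (li u h)) (fun h => tsq L (li v h)) +
      Cv μ 0 (fun h => tsq L (li u h)) (fun h => li v h ^ 2 - tsq L (li v h)) +
      Cv μ 0 (fun h => li u h ^ 2 - tsq L (li u h)) (fun h => li v h ^ 2) := by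
    rw [Cv_sub_right hμ 0 gv tv tu, Cv_sub_left hμ 0 gu tu gv]
    ring
  -- Newman
  have h2 := newman hμ hol 0 tu tv (tsq_Lp hL0 u) (tsq_Lp hL0 v)
  have h3 : Cv μ 0 (li fun x => 2 * L * |u x|) (li fun x => 2 * L * |v x|) =
      4 * L ^ 2 * Cv μ 0 (li fun x => |u x|) (li fun x => |v x|) := by
    have e : ∀ w : V → ℝ, li (fun x => 2 * L * |w x|) =
        fun h => (2 * L) * li (fun x => |w x|) h := by
      intro w
      funext h
      exact li_smul (2 * L) (fun x => |w x|) h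
    rw [e, e, Cv_cmul_left, Cv_comm, Cv_cmul_left, Cv_comm]
    ring
  rw [h3] at h2
  -- the tails
  have ex := Real.exp_pos (1 / 8 : ℝ)
  have key : ∀ {A B x : ℝ}, x ^ 2 ≤ A * B → 0 ≤ A → A ≤ 768 * Real.exp (1 / 8) → 0 ≤ B →
      B ≤ 768 * Real.exp (-(L ^ 2 / 2) + L / 2) → |x| ≤ 1024 * Real.exp (-(L ^ 2 / 8)) := by
    intro A B x hx hA0 hA hB0 hB
    have h4 : x ^ 2 ≤ 768 ^ 2 * Real.exp (-(L ^ 2 / 2) + L / 2 + 1 / 8) := by
      refine hx.trans ((mul_le_mul hA hB hB0 (by positivity)).trans (le_of_eq ?_))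
      have e := Real.exp_add (-(L ^ 2 / 2) + L / 2) (1 / 8)
      rw [e]
      ring
    have h5 : |x| ≤ 768 * Real.exp ((-(L ^ 2 / 2) + L / 2 + 1 / 8) / 2) := by
      refine abs_le_of_sq_le_sq (h4.trans (le_of_eq ?_)) (by positivity)
      rw [mul_pow, ← Real.exp_nat_mul]
      congr 2
      push_cast
      ring
    refine h5.trans ?_
    have h6 : (-(L ^ 2 / 2) + L / 2 + 1 / 8) / 2 ≤ -(L ^ 2 / 8) + 3 / 16 := by
      nlinarith [sq_nonneg (L - 1)]
    have h7 : Real.exp ((-(L ^ 2 / 2) + L / 2 + 1 / 8) / 2) ≤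
        Real.exp (-(L ^ 2 / 8)) * Real.exp (3 / 16) := by
      rw [← Real.exp_add]
      exact Real.exp_le_exp.2 h6
    have h8 : Real.exp (3 / 16 : ℝ) ≤ 16 / 13 := by
      have h9 : (1 : ℝ) - 3 / 16 ≤ Real.exp (-(3 / 16)) := by
        linarith [Real.add_one_le_exp (-(3 / 16 : ℝ))]
      rw [Real.exp_neg] at h9
      have h10 := Real.exp_pos (3 / 16 : ℝ)
      rw [le_inv_comm₀ (by norm_num) h10] at h9
      refine h9.trans (by norm_num)
    have h9 := Real.exp_pos (-(L ^ 2 / 8))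
    nlinarith [mul_le_mul_of_nonneg_left h8 h9.le]
  have q1 := key (Cv_sq_le hμ 0 tu rv)
    (Ex_nonneg hμ (fun h => sq_nonneg _) 0) (Ex_tsq_le hμ ht hS hu L)
    (Ex_nonneg hμ (fun h => sq_nonneg _) 0) (Ex_rem_le hμ ht hS hv hL)
  have q2 : |Cv μ 0 (fun h => li u h ^ 2 - tsq L (li u h)) (fun h => li v h ^ 2)| ≤
      1024 * Real.exp (-(L ^ 2 / 8)) := by
    rw [Cv_comm]
    exact key (Cv_sq_le hμ 0 gv ru)
      (Ex_nonneg hμ (fun h => sq_nonneg _) 0) (Ex_four_le hμ ht hS hv)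
      (Ex_nonneg hμ (fun h => sq_nonneg _) 0) (Ex_rem_le hμ ht hS hu hL)
  rw [h1]
  refine (abs_add_le _ _).trans ?_
  have h9 := abs_add_le (Cv μ 0 (fun h => tsq L (li u h)) (fun h => tsq L (li v h)))
    (Cv μ 0 (fun h => tsq L (li u h)) (fun h => li v h ^ 2 - tsq L (li v h)))
  linarith

/-- **(LB3)** energy covariance at background `0` -/
theorem lb3 (hμ : EM μ) (hol : Hol μ μ) {t : ℝ} (ht : 0 < t) (hS : SubG μ t) {u v : V → ℝ}
    (hu : ∑ x, u x ^ 2 ≤ t) (hv : ∑ x, v x ^ 2 ≤ t) {S : ℝ} (hS0 : 0 ≤ S)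
    (hC : Cv μ 0 (li fun x => |u x|) (li fun x => |v x|) ≤ S) :
    |Cv μ 0 (fun h => li u h ^ 2) (fun h => li v h ^ 2)| ≤ 2100 * √S := by
  -- positive `S`
  have key : ∀ q : ℝ, 0 < q → Cv μ 0 (li fun x => |u x|) (li fun x => |v x|) ≤ q ^ 2 →
      |Cv μ 0 (fun h => li u h ^ 2) (fun h => li v h ^ 2)| ≤ 2100 * q := by
    intro q hq hCq
    rcases le_or_gt (1 : ℝ) (-8 * Real.log q) with h1 | h1
    · have hL : 1 ≤ √(-8 * Real.log q) := by
        rw [Real.one_le_sqrt]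
        exact h1
      have h2 := lb3_aux hμ hol ht hS hu hv hL
      rw [Real.sq_sqrt (by linarith)] at h2
      have e1 : -(-8 * Real.log q / 8) = Real.log q := by ring
      rw [e1, Real.exp_log hq] at h2
      have h3 : -Real.log q ≤ 1 / q := by
        have := Real.log_le_sub_one_of_pos (inv_pos.2 hq)
        rw [Real.log_inv] at this
        rw [one_div]
        linarith
      have h4 : 4 * (-8 * Real.log q) * Cv μ 0 (li fun x => |u x|) (li fun x => |v x|) ≤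
          4 * (-8 * Real.log q) * q ^ 2 :=
        mul_le_mul_of_nonneg_left hCq (by linarith)
      have h5 : 4 * (-8 * Real.log q) * q ^ 2 ≤ 32 * q := by
        have h6 : (-Real.log q) * q ^ 2 ≤ 1 / q * q ^ 2 :=
          mul_le_mul_of_nonneg_right h3 (sq_nonneg _)
        have h7 : 1 / q * q ^ 2 = q := by field_simp
        rw [h7] at h6
        linarith
      linarith
    · have h2 := Cv_sq_le hμ 0 (Gr_sq u) (Gr_sq v)
      have h3 := Ex_four_le hμ ht hS hu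
      have h4 := Ex_four_le hμ ht hS hv
      have h5 : Real.exp (1 / 8 : ℝ) ≤ 8 / 7 := by
        have h9 : (1 : ℝ) - 1 / 8 ≤ Real.exp (-(1 / 8)) := by
          linarith [Real.add_one_le_exp (-(1 / 8 : ℝ))]
        rw [Real.exp_neg] at h9
        have h10 := Real.exp_pos (1 / 8 : ℝ)
        rw [le_inv_comm₀ (by norm_num) h10] at h9
        refine h9.trans (by norm_num)
      have h6 : Cv μ 0 (fun h => li u h ^ 2) (fun h => li v h ^ 2) ^ 2 ≤ 900 ^ 2 := by
        refine h2.trans ((mul_le_mul h3 h4 (Ex_nonneg hμ (fun h => sq_nonneg _) 0)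
          (by positivity)).trans ?_)
        have h7 : 768 * Real.exp (1 / 8 : ℝ) ≤ 900 := by linarith
        nlinarith [Real.exp_pos (1 / 8 : ℝ)]
      have h7 := abs_le_of_sq_le_sq h6 (by norm_num)
      have h8 : 7 / 8 ≤ q := by
        have h9 : -(1 / 8) < Real.log q := by linarith
        have h10 := Real.exp_lt_exp.2 h9
        rw [Real.exp_log hq] at h10
        linarith [Real.add_one_le_exp (-(1 / 8 : ℝ))]
      linarith
  -- limit
  have h1 : ∀ e : ℝ, 0 < e →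
      |Cv μ 0 (fun h => li u h ^ 2) (fun h => li v h ^ 2)| ≤ 2100 * √S + 2100 * e := by
    intro e he
    have h2 := key (√S + e) (by positivity) (by
      refine hC.trans ?_
      have h3 := Real.sq_sqrt hS0
      nlinarith [Real.sqrt_nonneg S])
    linarith
  refine le_of_forall_pos_le_add fun e he => ?_
  have h2 := h1 (e / 2100) (by positivity)
  refine h2.trans (le_of_eq ?_)
  ring

/-! ### combination -/

theorem Cv_smul_smul (J : V → ℝ) (a b : ℝ) (u v : V → ℝ) :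
    Cv μ J (li (a • u)) (li (b • v)) = a * b * Cv μ J (li u) (li v) := by
  have e : ∀ (c : ℝ) (w : V → ℝ), li (c • w) = fun h : V → ℤ => c * li w h :=
    fun c w => funext fun h => li_smul c w h
  rw [e, e, Cv_cmul_left, Cv_comm, Cv_cmul_left, Cv_comm]
  ring

/-- **(LB1)+(LB3)**, homogeneous form: covariances in every background -/
theorem lb13 (hμ : EM μ) (hev : Ev μ) (hpk : PK μ) (hol : Hol μ μ) {t : ℝ} (ht : 0 < t)
    (hS : SubG μ t) (J : V → ℝ) {u v : V → ℝ} {A B S : ℝ} (hA : 0 < A) (hB : 0 < B)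
    (hu : ∑ x, u x ^ 2 ≤ A ^ 2 * t) (hv : ∑ x, v x ^ 2 ≤ B ^ 2 * t) (hS0 : 0 ≤ S)
    (hC : Cv μ 0 (li fun x => |u x|) (li fun x => |v x|) ≤ A * B * S) :
    |Cv μ J (li u) (li v)| ≤ 33 * Real.exp (Tq μ J / 2) * A * B * √(√S) := by
  have hu' : ∑ x, (A⁻¹ • u) x ^ 2 ≤ t := by
    have e : ∑ x, (A⁻¹ • u) x ^ 2 = (A ^ 2)⁻¹ * ∑ x, u x ^ 2 := by
      rw [Finset.mul_sum]
      refine Finset.sum_congr rfl fun x _ => ?_
      rw [Pi.smul_apply, smul_eq_mul, mul_pow, inv_pow]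
    rw [e, inv_mul_le_iff₀ (by positivity)]
    exact hu
  have hv' : ∑ x, (B⁻¹ • v) x ^ 2 ≤ t := by
    have e : ∑ x, (B⁻¹ • v) x ^ 2 = (B ^ 2)⁻¹ * ∑ x, v x ^ 2 := by
      rw [Finset.mul_sum]
      refine Finset.sum_congr rfl fun x _ => ?_
      rw [Pi.smul_apply, smul_eq_mul, mul_pow, inv_pow]
    rw [e, inv_mul_le_iff₀ (by positivity)]
    exact hv
  have hC' : Cv μ 0 (li fun x => |(A⁻¹ • u) x|) (li fun x => |(B⁻¹ • v) x|) ≤ S := by
    have e : ∀ (c : ℝ) (w : V → ℝ), 0 ≤ c →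
        (fun x => |(c • w) x|) = c • fun x => |w x| := by
      intro c w hc
      funext x
      simp only [Pi.smul_apply, smul_eq_mul]
      rw [abs_mul, abs_of_nonneg hc]
    rw [e _ _ (inv_pos.2 hA).le, e _ _ (inv_pos.2 hB).le, Cv_smul_smul]
    calc A⁻¹ * B⁻¹ * Cv μ 0 (li fun x => |u x|) (li fun x => |v x|)
        ≤ A⁻¹ * B⁻¹ * (A * B * S) := mul_le_mul_of_nonneg_left hC (by positivity)
      _ = S := by field_simp
  have h1 := lb3 hμ hol ht hS hu' hv' hS0 hC'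
  have h2 := lb1 hμ hev hpk J (A⁻¹ • u) (B⁻¹ • v)
  rw [Cv_smul_smul] at h2
  have h3 : (A⁻¹ * B⁻¹ * Cv μ J (li u) (li v)) ^ 2 ≤
      (33 * Real.exp (Tq μ J / 2) * √(√S)) ^ 2 := by
    refine h2.trans ?_
    have e1 : (33 * Real.exp (Tq μ J / 2) * √(√S)) ^ 2 = 1089 * Real.exp (Tq μ J) * √S := by
      rw [mul_pow, mul_pow, Real.sq_sqrt (Real.sqrt_nonneg _), ← Real.exp_nat_mul]
      have : ((2 : ℕ) : ℝ) * (Tq μ J / 2) = Tq μ J := by
        push_cast
        ring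
      rw [this]
      norm_num
    rw [e1]
    have h4 := (le_abs_self _).trans h1
    have h5 := Real.exp_pos (Tq μ J)
    have h6 := Real.sqrt_nonneg S
    nlinarith [mul_le_mul_of_nonneg_left h4 h5.le, mul_nonneg h5.le h6]
  have h4 := abs_le_of_sq_le_sq h3 (by positivity)
  rw [abs_mul, abs_of_pos (by positivity : 0 < A⁻¹ * B⁻¹)] at h4
  calc |Cv μ J (li u) (li v)|
      = (A * B) * (A⁻¹ * B⁻¹ * |Cv μ J (li u) (li v)|) := by field_simp
    _ ≤ (A * B) * (33 * Real.exp (Tq μ J / 2) * √(√S)) :=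
        mul_le_mul_of_nonneg_left h4 (by positivity)
    _ = _ := by ring

/-- **(LB2)+(LB3)**: mixed differences of `log Z` -/
theorem lb23 (hμ : EM μ) (hev : Ev μ) (hpk : PK μ) (hol : Hol μ μ) {t : ℝ} (ht : 0 < t)
    (hS : SubG μ t) (J0 : V → ℝ) {J1 J2 : V → ℝ} {A B S τ : ℝ} (hA : 0 < A) (hB : 0 < B)
    (h1 : ∑ x, J1 x ^ 2 ≤ A ^ 2 * t) (h2 : ∑ x, J2 x ^ 2 ≤ B ^ 2 * t) (hS0 : 0 ≤ S)
    (hC : Cv μ 0 (li fun x => |J1 x|) (li fun x => |J2 x|) ≤ A * B * S)
    (hτ : ∀ a ∈ Set.Icc (0 : ℝ) 1, ∀ b ∈ Set.Icc (0 : ℝ) 1,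
      Tq μ (J0 + a • J1 + b • J2) ≤ τ) :
    |Lg μ (J0 + J1 + J2) - Lg μ (J0 + J1) - Lg μ (J0 + J2) + Lg μ J0| ≤
      33 * Real.exp (τ / 2) * A * B * √(√S) := by
  obtain ⟨a, ha, b, hb, he⟩ := mixed_eq hμ J0 J1 J2
  rw [he]
  refine (lb13 hμ hev hpk hol ht hS _ hA hB h1 h2 hS0 hC).trans ?_
  have h3 := Real.exp_le_exp.2 (div_le_div_of_nonneg_right (hτ a ha b hb) (by norm_num : (0 : ℝ) ≤ 2))
  have h4 := Real.sqrt_nonneg (√S)
  gcongr

theorem bf_add_qf (M : Matrix V V ℝ) (hM : ∀ x y, M x y = M y x) (u v : V → ℝ) :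
    qf M (u + v) = qf M u + qf M v + 2 * bf M u v := by
  have e : ∑ x, ∑ y, v x * M x y * u y = ∑ x, ∑ y, u x * M x y * v y := by
    rw [Finset.sum_comm]
    refine Finset.sum_congr rfl fun x _ => Finset.sum_congr rfl fun y _ => ?_
    rw [hM y x]
    ring
  unfold qf bf
  have e2 : ∀ x y, (u + v) x * M x y * (u + v) y =
      u x * M x y * u y + v x * M x y * v y + u x * M x y * v y + v x * M x y * u y := by
    intro x y
    simp only [Pi.add_apply]
    ring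
  simp only [e2, Finset.sum_add_distrib]
  rw [e]
  ring

theorem Gm_symm (x y : V) : Gm μ x y = Gm μ y x := by
  unfold Gm Cm
  simp only [Matrix.of_apply]
  exact Cv_comm _ _ _

theorem bf_Gm (hμ : EM μ) (u v : V → ℝ) : bf (Gm μ) u v = Cv μ 0 (li u) (li v) := by
  classical
  have gs : ∀ (s : Finset V) (w : V → ℝ), Gr fun h : V → ℤ => ∑ x ∈ s, w x * (h x : ℝ) := by
    intro s w
    have h1 : Gr (li fun x => if x ∈ s then w x else 0) := Gr.li _
    have e : (fun h : V → ℤ => ∑ x ∈ s, w x * (h x : ℝ)) =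
        li fun x => if x ∈ s then w x else 0 := by
      funext h
      unfold li
      rw [← Finset.sum_filter_add_sum_filter_not Finset.univ (fun x => x ∈ s)]
      rw [Finset.sum_eq_zero (s := Finset.univ.filter fun x => ¬ x ∈ s), add_zero]
      · rw [Finset.filter_mem_eq_inter, Finset.univ_inter]
        refine Finset.sum_congr rfl fun x hx => ?_
        simp only [if_pos hx]
      · intro x hx
        rw [Finset.mem_filter] at hx
        simp only [if_neg hx.2, zero_mul]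
    rw [e]
    exact h1
  have gx : ∀ x : V, Gr fun h : V → ℤ => (h x : ℝ) := by
    intro x
    have h1 := gs {x} fun _ => 1
    simpa using h1
  have left : ∀ (s : Finset V) (w : V → ℝ) (F : (V → ℤ) → ℝ), Gr F →
      Cv μ 0 (fun h => ∑ x ∈ s, w x * (h x : ℝ)) F =
        ∑ x ∈ s, w x * Cv μ 0 (fun h => (h x : ℝ)) F := by
    intro s w F hF
    induction s using Finset.induction_on with
    | empty =>
      simp only [Finset.sum_empty]
      unfold Cv
      simp only [zero_mul]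
      rw [Ex_const hμ]
      ring
    | insert a s ha ih =>
      rw [Finset.sum_insert ha, ← ih, ← Cv_cmul_left, ← Cv_add_left hμ 0 ((gx a).cmul _) (gs s w) hF]
      congr 1
      funext h
      rw [Finset.sum_insert ha]
  have e1 : Cv μ 0 (li u) (li v) = ∑ x, u x * Cv μ 0 (fun h => (h x : ℝ)) (li v) :=
    left Finset.univ u (li v) (Gr.li v)
  rw [e1]
  unfold bf
  refine Finset.sum_congr rfl fun x _ => ?_
  have e2 : Cv μ 0 (fun h => (h x : ℝ)) (li v) = ∑ y, v y * Cv μ 0 (fun h => (h y : ℝ))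
      (fun h => (h x : ℝ)) := by
    rw [Cv_comm]
    exact left Finset.univ v _ (gx x)
  rw [e2, Finset.mul_sum]
  refine Finset.sum_congr rfl fun y _ => ?_
  unfold Gm Cm
  simp only [Matrix.of_apply]
  rw [Cv_comm 0 (fun h => (h y : ℝ))]
  ring

/-- mixed difference of `R` -/
theorem Rs_mixed (hμ : EM μ) (J0 J1 J2 : V → ℝ) :
    (Rs μ (J0 + J1 + J2) - Rs μ (J0 + J1)) - (Rs μ (J0 + J2) - Rs μ J0) =
      (Lg μ (J0 + J1 + J2) - Lg μ (J0 + J1) - Lg μ (J0 + J2) + Lg μ J0) -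
        Cv μ 0 (li J1) (li J2) := by
  have hs := Gm_symm (μ := μ)
  have e1 := bf_add_qf (Gm μ) hs (J0 + J1) J2
  have e2 := bf_add_qf (Gm μ) hs J0 J2
  have e3 : bf (Gm μ) (J0 + J1) J2 = bf (Gm μ) J0 J2 + bf (Gm μ) J1 J2 := by
    unfold bf
    rw [← Finset.sum_add_distrib]
    refine Finset.sum_congr rfl fun x _ => ?_
    rw [← Finset.sum_add_distrib]
    refine Finset.sum_congr rfl fun y _ => ?_
    simp only [Pi.add_apply]
    ring
  rw [← bf_Gm hμ]
  unfold Rs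
  rw [e1, e2, e3]
  ring

/-- **window localisation of `R`** (NOTE 3 (6)) -/
theorem Rs_local (hμ : EM μ) (hev : Ev μ) (hpk : PK μ) (hol : Hol μ μ) {t : ℝ} (ht : 0 < t)
    (hS : SubG μ t) (J0 : V → ℝ) {J1 J2 : V → ℝ} {A B S τ : ℝ} (hA : 0 < A) (hB : 0 < B)
    (h1 : ∑ x, J1 x ^ 2 ≤ A ^ 2 * t) (h2 : ∑ x, J2 x ^ 2 ≤ B ^ 2 * t) (hS0 : 0 ≤ S)
    (hC : Cv μ 0 (li fun x => |J1 x|) (li fun x => |J2 x|) ≤ A * B * S)
    (hτ : ∀ a ∈ Set.Icc (0 : ℝ) 1, ∀ b ∈ Set.Icc (0 : ℝ) 1,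
      Tq μ (J0 + a • J1 + b • J2) ≤ τ) :
    |(Rs μ (J0 + J1 + J2) - Rs μ (J0 + J1)) - (Rs μ (J0 + J2) - Rs μ J0)| ≤
      33 * Real.exp (τ / 2) * A * B * √(√S) + A * B * S := by
  rw [Rs_mixed hμ]
  refine (abs_sub _ _).trans (add_le_add
    (lb23 hμ hev hpk hol ht hS J0 hA hB h1 h2 hS0 hC hτ) ?_)
  -- `|Cov (X_u, X_v)| ≤ Cov (X_|u|, X_|v|)`
  have hLp : ∀ u : V → ℝ, Lp (li u) fun x => |u x| := by
    intro u h h'
    have e : li u h - li u h' = ∑ x, u x * ((h x : ℝ) - (h' x : ℝ)) := by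
      unfold li
      rw [← Finset.sum_sub_distrib]
      exact Finset.sum_congr rfl fun x _ => by ring
    rw [e]
    refine (Finset.abs_sum_le_sum_abs _ _).trans (Finset.sum_le_sum fun x _ => ?_)
    rw [abs_mul]
  exact (newman hμ hol 0 (Gr.li J1) (Gr.li J2) (hLp J1) (hLp J2)).trans hC

end Vale.Agent.P159.H612
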