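import Vale.Agent.P159.H612.LocK5

/-!
P159 / S (helper612): **numbers of locality in helper145's letters (row 8263 (A))**, deterministic
half.

Scale `ξ = 2^n`, `l = 2^(n + 3 j / 4)`, block side `m + 1 = 2^(n + 11 j / 16)`,
`κ = 2^(n + 5 j / 8)`, torus `N = 2^(n + j + i)`.

* `big` : `M (j + 1) ≤ 2^(j / 2)` eventually;
* `geo_num` : helper474's `Geo`;
* `hS_num` : flatness;
* `eta_num` : the number condition and the value of `epsL`;
* `locI_num` : the structure `LocI` and `epsL ≤ exp (-(c / 8) 2^(5 j / 8)) + 8 ω²`.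
-/

set_option linter.unusedSectionVars false

namespace Vale.Agent.P159.H612.LocK

open Finset Filter
open Vale.Agent.P159.TM.Spec (V)
open Vale.Agent.P159.H817
open Vale.Agent.P159.TM.SpecC (Tor)
open Vale.Agent.P159.H474.Cb (LN Geo KL KL_pos)
open Vale.Agent.P159.H280.Hs (PRS)

noncomputable section

/-- exponentials beat linear functions -/
lemma big (M : ℝ) : ∀ᶠ j : ℕ in atTop, M * ((j : ℝ) + 1) ≤ 2 ^ (j / 2) := by
  have h0 := tendsto_pow_const_div_const_pow_of_one_lt 1 (r := (2 : ℝ)) (by norm_num)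
  have h1 : ∀ᶠ q : ℕ in atTop, |M| * (2 * (q : ℝ) + 2) ≤ 2 ^ q := by
    have e1 : (0 : ℝ) < 1 / (4 * (|M| + 1)) := by positivity
    have h2 : ∀ᶠ q : ℕ in atTop, (q : ℝ) ^ 1 / 2 ^ q < 1 / (4 * (|M| + 1)) :=
      h0.eventually_lt_const e1
    filter_upwards [h2, eventually_ge_atTop 1] with q hq hq1
    have hq' : (1 : ℝ) ≤ q := by exact_mod_cast hq1
    have hp : (0 : ℝ) < 2 ^ q := by positivity
    rw [pow_one, div_lt_div_iff₀ hp (by positivity)] at hq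
    have hM := abs_nonneg M
    have h3 : 2 * (q : ℝ) + 2 ≤ 4 * q := by linarith
    calc |M| * (2 * (q : ℝ) + 2) ≤ |M| * (4 * q) := mul_le_mul_of_nonneg_left h3 hM
      _ ≤ q * (4 * (|M| + 1)) := by nlinarith
      _ ≤ 1 * 2 ^ q := hq.le
      _ = 2 ^ q := one_mul _
  have h3 : Tendsto (fun j : ℕ => j / 2) atTop atTop :=
    tendsto_atTop_atTop.2 fun b => ⟨2 * b, fun a ha => by omega⟩
  filter_upwards [h3.eventually h1] with j hj
  refine le_trans ?_ hj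
  have h4 : (j : ℝ) + 1 ≤ 2 * ((j / 2 : ℕ) : ℝ) + 2 := by
    have : j + 1 ≤ 2 * (j / 2) + 2 := by omega
    exact_mod_cast this
  have h5 : (0 : ℝ) ≤ (j : ℝ) + 1 := by positivity
  calc M * ((j : ℝ) + 1) ≤ |M| * ((j : ℝ) + 1) := mul_le_mul_of_nonneg_right (le_abs_self M) h5
    _ ≤ _ := mul_le_mul_of_nonneg_left h4 (abs_nonneg M)

lemma four_le : (4 : ℝ) ≤ Real.exp 2 := by
  have h := Real.add_one_le_exp (1 : ℝ)
  have e : Real.exp 2 = Real.exp 1 * Real.exp 1 := by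
    rw [← Real.exp_add]
    norm_num
  rw [e]
  nlinarith

lemma four_pow (q : ℕ) : ((2 : ℝ) ^ q) ^ 2 ≤ Real.exp (2 * q) := by
  rw [← pow_mul, mul_comm q 2, pow_mul, mul_comm (2 : ℝ) (q : ℝ), Real.exp_nat_mul]
  refine pow_le_pow_left₀ (by norm_num) ?_ q
  have := four_le
  norm_num
  exact this

lemma two_pow_le {a b : ℕ} (h : a ≤ b) : (2 : ℝ) ^ a ≤ 2 ^ b :=
  pow_le_pow_right₀ (by norm_num) h

/-- **the geometry** -/
theorem geo_num {c : ℝ} (hc : 0 < c) {A : ℕ} (hA : 2 ≤ A) (i : ℕ) : ∀ᶠ j : ℕ in atTop,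
    ∀ n mb nb : ℕ, A ≤ 2 ^ n → mb + 1 = 2 ^ (n + 11 * j / 16) →
      nb + 2 = 2 ^ (j + i - 11 * j / 16) →
      Geo mb nb (2 ^ n) A 8 (2 ^ (n + 5 * j / 8)) (4 * (2 ^ (n + 3 * j / 4) / 100)) c := by
  filter_upwards [big ((1 + i) / c), eventually_ge_atTop 200] with j hj hj2
  intro n mb nb hAn hm hn
  have hmr : (mb : ℝ) + 1 = 2 ^ n * 2 ^ (11 * j / 16) := by
    rw [← pow_add]
    exact_mod_cast hm
  have hnr : (nb : ℝ) + 2 = 2 ^ (j + i - 11 * j / 16) := by exact_mod_cast hn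
  refine ⟨hA, hAn, Nat.pow_le_pow_right (by norm_num) (by omega), ?_, ?_, ?_⟩
  · rw [hm]
    have h1 : (2 : ℕ) ^ (n + 5 * j / 8) * 2 ^ 5 ≤ 2 ^ (n + 11 * j / 16) := by
      rw [← pow_add]
      exact Nat.pow_le_pow_right (by norm_num) (by omega)
    have h2 : 0 < (2 : ℕ) ^ (n + 5 * j / 8) := by positivity
    omega
  · rw [hm]
    have h1 : (2 : ℕ) ^ (n + 11 * j / 16) * 2 ^ 7 ≤ 2 ^ (n + 3 * j / 4) := by
      rw [← pow_add]
      exact Nat.pow_le_pow_right (by norm_num) (by omega)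
    omega
  · rw [hmr, hnr]
    have hξ : (0 : ℝ) < 2 ^ n := by positivity
    have e1 : c * (2 * (2 ^ n * 2 ^ (11 * j / 16))) / ((2 ^ n : ℕ) : ℝ) =
        2 * (c * 2 ^ (11 * j / 16)) := by
      push_cast
      field_simp
    rw [e1]
    have h1 : ((2 : ℝ) ^ (j + i - 11 * j / 16)) ^ 2 ≤ (2 ^ (j + i)) ^ 2 :=
      pow_le_pow_left₀ (by positivity) (two_pow_le (Nat.sub_le _ _)) 2
    refine h1.trans ((four_pow (j + i)).trans (Real.exp_le_exp.2 ?_))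
    have h2 : ((j + i : ℕ) : ℝ) ≤ (1 + i) * (j + 1) := by
      push_cast
      have : (0 : ℝ) ≤ i * j := by positivity
      linarith
    have h3 : (1 + (i : ℝ)) * (j + 1) ≤ c * 2 ^ (j / 2) := by
      have := mul_le_mul_of_nonneg_left hj hc.le
      have e : c * ((1 + (i : ℝ)) / c * (j + 1)) = (1 + i) * (j + 1) := by
        field_simp
      rwa [e] at this
    have h4 : c * (2 : ℝ) ^ (j / 2) ≤ c * 2 ^ (11 * j / 16) :=
      mul_le_mul_of_nonneg_left (two_pow_le (by omega)) hc.le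
    linarith

/-- **flatness in the gap** -/
theorem hS_num {L₀ : ℝ} (hL : 0 < L₀) (i : ℕ) : ∀ᶠ j : ℕ in atTop, ∀ n : ℕ, ∀ Λ : ℝ,
    Λ ≤ 2 ^ (j / 16) →
    1 / ((2 ^ (n + j + i) : ℕ) : ℝ) + 4 * CG / (1 + ((2 ^ (n + 3 * j / 4) / 100 : ℕ) : ℝ)) +
      Λ / ((2 ^ (n + 3 * j / 4) : ℕ) : ℝ) ≤ L₀ / ((2 ^ n : ℕ) : ℝ) := by
  have hCG := CG_pos
  filter_upwards [big ((3 + 1200 * CG) / L₀)] with j hj
  intro n Λ hΛ
  have hj0 : (0 : ℝ) ≤ j := by positivity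
  have h1 : 3 + 1200 * CG ≤ L₀ * 2 ^ (j / 2) := by
    have := mul_le_mul_of_nonneg_left hj hL.le
    have e : L₀ * ((3 + 1200 * CG) / L₀ * ((j : ℝ) + 1)) = (3 + 1200 * CG) * (j + 1) := by
      field_simp
    rw [e] at this
    nlinarith [mul_nonneg (by positivity : (0 : ℝ) ≤ 3 + 1200 * CG) hj0]
  set ξ : ℝ := 2 ^ n with hξd
  have hξ : 0 < ξ := by positivity
  have p1 : (0 : ℝ) < 2 ^ (3 * j / 4) := by positivity
  have t1 : 1 / ((2 ^ (n + j + i) : ℕ) : ℝ) ≤ L₀ / (3 * ξ) := by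
    have e : ((2 ^ (n + j + i) : ℕ) : ℝ) = ξ * 2 ^ (j + i) := by
      push_cast
      rw [add_assoc, pow_add]
    rw [e, div_le_div_iff₀ (by positivity) (by positivity)]
    have h2 : (3 : ℝ) ≤ L₀ * 2 ^ (j + i) := by
      have := mul_le_mul_of_nonneg_left (two_pow_le (show j / 2 ≤ j + i by omega)) hL.le
      linarith
    nlinarith
  have t2 : 4 * CG / (1 + ((2 ^ (n + 3 * j / 4) / 100 : ℕ) : ℝ)) ≤ L₀ / (3 * ξ) := by
    have h2 : ξ * 2 ^ (3 * j / 4) ≤ 100 * (1 + ((2 ^ (n + 3 * j / 4) / 100 : ℕ) : ℝ)) := by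
      have h3 : 2 ^ (n + 3 * j / 4) ≤ 100 * (1 + 2 ^ (n + 3 * j / 4) / 100) := by omega
      have h4 : ((2 ^ (n + 3 * j / 4) : ℕ) : ℝ) ≤
          ((100 * (1 + 2 ^ (n + 3 * j / 4) / 100) : ℕ) : ℝ) := by exact_mod_cast h3
      push_cast at h4
      rw [pow_add] at h4
      exact h4
    rw [div_le_div_iff₀ (by positivity) (by positivity)]
    have h3 : 1200 * CG ≤ L₀ * 2 ^ (3 * j / 4) := by
      have := mul_le_mul_of_nonneg_left (two_pow_le (show j / 2 ≤ 3 * j / 4 by omega)) hL.le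
      linarith
    have h4 := mul_le_mul_of_nonneg_right h3 hξ.le
    have h5 := mul_le_mul_of_nonneg_left h2 hL.le
    nlinarith
  have t3 : Λ / ((2 ^ (n + 3 * j / 4) : ℕ) : ℝ) ≤ L₀ / (3 * ξ) := by
    have e : ((2 ^ (n + 3 * j / 4) : ℕ) : ℝ) = ξ * 2 ^ (3 * j / 4) := by
      push_cast
      rw [pow_add]
    rw [e, div_le_div_iff₀ (by positivity) (by positivity)]
    have h2 : (2 : ℝ) ^ (j / 16) * 2 ^ (j / 2) ≤ 2 ^ (3 * j / 4) := by
      rw [← pow_add]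
      exact two_pow_le (by omega)
    have h3 : 3 * (2 : ℝ) ^ (j / 16) ≤ L₀ * 2 ^ (3 * j / 4) := by
      have h4 := mul_le_mul_of_nonneg_left h2 hL.le
      have h5 : (3 : ℝ) ≤ L₀ * 2 ^ (j / 2) := by linarith
      have h6 := mul_le_mul_of_nonneg_right h5 (by positivity : (0 : ℝ) ≤ 2 ^ (j / 16))
      linarith
    have h4 : 3 * Λ ≤ L₀ * 2 ^ (3 * j / 4) := by linarith
    nlinarith
  have e : ((2 ^ n : ℕ) : ℝ) = ξ := by push_cast; rfl
  rw [e]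
  have h5 : L₀ / (3 * ξ) + L₀ / (3 * ξ) + L₀ / (3 * ξ) = L₀ / ξ := by
    field_simp
    ring
  linarith

/-- **the number condition** -/
theorem eta_num {c C : ℝ} (hc : 0 < c) (hC : 0 < C) (A i : ℕ) : ∀ᶠ j : ℕ in atTop, ∀ n : ℕ,
    ∀ pr : ℝ, pr ≤ c / 32 * 2 ^ (5 * j / 8) →
    KL A c C * (((2 ^ (n + j + i) : ℕ) : ℝ) / ((2 ^ n : ℕ) : ℝ)) ^ 2 *
      Real.exp (-(c * ((2 ^ (n + 5 * j / 8) : ℕ) : ℝ) / (4 * ((2 ^ n : ℕ) : ℝ)))) *
      Real.exp (2 * (pr + 1)) ≤ 1 / 4 * Real.exp (-(c / 8 * 2 ^ (5 * j / 8))) := by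
  have hK := KL_pos A (c := c) hC
  filter_upwards [big (16 * (KL A c C + 2 * i + 4) / c)] with j hj
  intro n pr hpr
  have hj0 : (0 : ℝ) ≤ j := by positivity
  set ξ : ℝ := 2 ^ n with hξd
  have hξ : 0 < ξ := by positivity
  set X : ℝ := 2 ^ (5 * j / 8) with hX
  have e1 : ((2 ^ (n + j + i) : ℕ) : ℝ) / ((2 ^ n : ℕ) : ℝ) = 2 ^ (j + i) := by
    push_cast
    rw [add_assoc, pow_add]
    field_simp
  have e2 : c * ((2 ^ (n + 5 * j / 8) : ℕ) : ℝ) / (4 * ((2 ^ n : ℕ) : ℝ)) = c / 4 * X := by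
    push_cast
    rw [pow_add, ← hξd, ← hX]
    field_simp
  rw [e1, e2]
  have h1 : KL A c C ≤ Real.exp (KL A c C) := by
    have := Real.add_one_le_exp (KL A c C)
    linarith
  have h2 := four_pow (j + i)
  have h3 : (1 : ℝ) / 4 ≥ Real.exp (-2) := by
    rw [Real.exp_neg, ge_iff_le, inv_eq_one_div]
    exact one_div_le_one_div_of_le (by norm_num) four_le
  have h4 : KL A c C + 2 * ((j + i : ℕ) : ℝ) + 4 ≤ c / 16 * X := by
    have h5 : 16 * (KL A c C + 2 * i + 4) / c * ((j : ℝ) + 1) ≤ X :=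
      hj.trans (two_pow_le (by omega))
    have h6 := mul_le_mul_of_nonneg_left h5 (by positivity : (0 : ℝ) ≤ c / 16)
    have e3 : c / 16 * (16 * (KL A c C + 2 * i + 4) / c * ((j : ℝ) + 1)) =
        (KL A c C + 2 * i + 4) * (j + 1) := by
      field_simp
    rw [e3] at h6
    push_cast
    have h7 : (0 : ℝ) ≤ KL A c C * j := by positivity
    have h8 : (0 : ℝ) ≤ 2 * i * j := by positivity
    nlinarith
  calc KL A c C * ((2 : ℝ) ^ (j + i)) ^ 2 * Real.exp (-(c / 4 * X)) * Real.exp (2 * (pr + 1))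
      ≤ Real.exp (KL A c C) * Real.exp (2 * ((j + i : ℕ) : ℝ)) * Real.exp (-(c / 4 * X)) *
        Real.exp (2 * (pr + 1)) := by
        refine mul_le_mul_of_nonneg_right (mul_le_mul_of_nonneg_right ?_ (Real.exp_pos _).le)
          (Real.exp_pos _).le
        exact mul_le_mul h1 h2 (by positivity) (Real.exp_pos _).le
    _ = Real.exp (KL A c C + 2 * ((j + i : ℕ) : ℝ) + -(c / 4 * X) + 2 * (pr + 1)) := by
        rw [← Real.exp_add, ← Real.exp_add, ← Real.exp_add]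
    _ ≤ Real.exp (-2 + -(c / 8 * X)) := Real.exp_le_exp.2 (by linarith)
    _ = Real.exp (-2) * Real.exp (-(c / 8 * X)) := Real.exp_add _ _
    _ ≤ 1 / 4 * Real.exp (-(c / 8 * X)) := mul_le_mul_of_nonneg_right h3 (Real.exp_pos _).le

/-- the radius of the decorations -/
lemma hl0_num {j k n m0 l0 : ℕ} (hkj : k ≤ j) (hj : 4 * m0 + 200 ≤ j)
    (hl : l0 ≤ 2 ^ (n + k / 16 + m0)) : 100 * (l0 + 2) ≤ 2 ^ (n + 3 * j / 4) := by
  have h1 : (2 : ℕ) ^ (n + k / 16 + m0) * 2 ^ 9 ≤ 2 ^ (n + 3 * j / 4) := by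
    rw [← pow_add]
    exact Nat.pow_le_pow_right (by norm_num) (by omega)
  have h2 : 0 < (2 : ℕ) ^ (n + k / 16 + m0) := by positivity
  omega

/-- **the structure `LocI` in helper145's letters**, everything but Theorem A, the prices and the
size of `om0` -/
theorem locI_num {c C L₀ : ℝ} (hc : 0 < c) (hC : 0 < C) (hL : 0 < L₀) {A : ℕ} (hA : 2 ≤ A)
    (i m0 : ℕ) : ∀ᶠ j : ℕ in atTop, ∀ (n k mb nb N : ℕ) [NeZero N]
    [NeZero ((mb + 1) * (nb + 2))] [NeZero ((mb + 1) * 2)], A ≤ 2 ^ n → k ≤ j →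
    mb + 1 = 2 ^ (n + 11 * j / 16) → nb + 2 = 2 ^ (j + i - 11 * j / 16) → N = 2 ^ (n + j + i) →
    ∀ (b : ℝ) (hb : 0 < b), LN mb nb b hb (2 ^ n) A L₀ c C →
    ∀ (r l0 : ℕ) (Λ pr ω : ℝ) (D0 D1 : Dec), l0 ≤ 2 ^ (n + k / 16 + m0) → 0 ≤ Λ →
    Λ ≤ 2 ^ (j / 16) → pr ≤ c / 32 * 2 ^ (5 * j / 8) →
    om0 N b ((1 / ((2 ^ n : ℕ) : ℝ) ^ 2) • (1 : Matrix (V N) (V N) ℝ)) ≤ ω → ω ≤ 1 / 4 →
    (∀ F ∈ D0, SuppD l0 F) → (∀ F ∈ D1, SuppD l0 F) →
    (∀ h : V N → ℝ, GB (Λ / ((2 ^ (n + 3 * j / 4) : ℕ) : ℝ)) h →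
      PRS mb nb (2 ^ (n + 5 * j / 8)) b (1 / ((2 ^ n : ℕ) : ℝ) ^ 2) (∅ : Finset (Tor N))
        (H817.gr h) pr) →
    (∀ F0 ∈ D0, ∀ F1 ∈ D1, ∀ (p q : V N) (h : V N → ℝ), H817.Far r p q →
      GB (Λ / ((2 ^ (n + 3 * j / 4) : ℕ) : ℝ)) h →
      PRS mb nb (2 ^ (n + 5 * j / 8)) b (1 / ((2 ^ n : ℕ) : ℝ) ^ 2) ({p, q} : Finset (Tor N))
        (H817.cfg F0 F1 p q h) pr) →
    LocI N mb nb b hb (2 ^ n) A (2 ^ (n + 5 * j / 8)) (2 ^ (n + 3 * j / 4)) r l0 L₀ c C Λ pr ω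
        D0 D1 ∧
      epsL N (2 ^ n) A (2 ^ (n + 5 * j / 8)) c C pr ω ≤
        Real.exp (-(c / 8 * 2 ^ (5 * j / 8))) + 8 * ω ^ 2 := by
  filter_upwards [geo_num hc hA i, hS_num hL i, eta_num hc hC A i,
    eventually_ge_atTop (4 * m0 + 200)] with j hg hS hη hj
  intro n k mb nb N _ _ _ hAn hkj hm hn hN b hb hLN r l0 Λ pr ω D0 D1 hl0 hΛ0 hΛ hpr hω hω4
    s0 s1 p0 p1
  have key := hη n pr hpr
  rw [← hN] at key
  have hexp : Real.exp (-(c / 8 * 2 ^ (5 * j / 8))) ≤ 1 := by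
    refine Real.exp_le_one_iff.2 ?_
    have : 0 ≤ c / 8 * (2 : ℝ) ^ (5 * j / 8) := by positivity
    linarith
  refine ⟨⟨?_, hc, hC, hLN, hg n mb nb hAn hm hn, hl0_num hkj hj hl0, hΛ0, ?_, hω, hω4, ?_, s0, s1,
    p0, p1⟩, ?_⟩
  · rw [hm, hn, hN, ← pow_add]
    congr 1
    omega
  · have h := hS n Λ hΛ
    rw [← hN] at h
    exact h
  · linarith
  · unfold epsL
    have h0 : 0 ≤ Real.exp (-(c / 8 * (2 : ℝ) ^ (5 * j / 8))) := (Real.exp_pos _).le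
    linarith

end

end Vale.Agent.P159.H612.LocK
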