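import Vale.Agent.P159.H612.Local5
import Vale.Agent.P159.H770.DisS

/-!
P159 / second order flow, module LOC^D (helper612): locality in every dislocated background.
`W` is a family of weights in helper770's letters (`DisF W`), `u`, `v` are far directions of the
UNDISLOCATED weight (`Far (W 0) u v A A' r`).

* `Far.bgD`, `Far.lgD`, `Far.meanD` : covariances, mixed differences of `log Z`, means;
* `Qd W b J a = RsD W b J a - Rs (W 0) a`, `Far.qD` : `Q` is local;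
* `CD` : convex majorant of `TD` along sources, `hullD`.
-/

namespace Vale.Agent.P159.H612

open Real Finset Filter Topology
open Vale.Agent.P159.TM.H104
open Vale.Agent.P159.H37 (Ev Zs Cm Gm qf bf Rs Tq K4 Ker PK wM wt re)
open Vale.Agent.P159.H770 (DisF RsD TD)
open Vale.Agent.P159.TM.SpecC (Tor wT ms)

/-! ### convex majorant of `TD` -/

section hull

variable {B V : Type} [AddCommGroup B] [Fintype V] {W : B → (V → ℤ) → ℝ}

/-- convex majorant of `a ↦ TD W b (J + a)` -/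
noncomputable def CD (W : B → (V → ℤ) → ℝ) (b : B) (J a : V → ℝ) : ℝ :=
  TD W b J + RsD W (b + b) (J + J) ((2 : ℝ) • a) +
    (2 * Ex (W (b + b)) (J + J) (li a) - 4 * Ex (W b) J (li a))

theorem TD_add_eq (b : B) (J a : V → ℝ) :
    TD W b (J + a) = CD W b J a - 4 * RsD W b J a := by
  have e1 : J + a + (J + a) = J + J + (2 : ℝ) • a := by
    rw [two_smul]
    abel
  have e2 : Ex (W (b + b)) (J + J) (li ((2 : ℝ) • a)) = 2 * Ex (W (b + b)) (J + J) (li a) :=
    H770.Ex_li_smul _ _ _ _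
  have e3 : qf (Gm (W 0)) ((2 : ℝ) • a) = 4 * qf (Gm (W 0)) a := by
    rw [H37.qf_smul]
    norm_num
  unfold CD TD RsD
  rw [e1, e2, e3]
  ring

theorem TD_le_CD (hW : DisF W) (b : B) (J a : V → ℝ) : TD W b (J + a) ≤ CD W b J a := by
  rw [TD_add_eq]
  linarith [H770.RsD_nonneg hW b J a]

theorem CD_zero (b : B) (J : V → ℝ) : CD W b J 0 = TD W b J := by
  have h := TD_add_eq (W := W) b J 0
  rw [add_zero, H770.RsD_zero_vec] at h
  linarith

theorem CD_convex (hW : DisF W) (b : B) (J : V → ℝ) : ConvexOn ℝ Set.univ (CD W b J) := by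
  have h1 := H770.RsD_convex hW (b + b) (J + J)
  refine ⟨convex_univ, fun x _ y _ s t hs ht hst => ?_⟩
  have h2 := h1.2 (Set.mem_univ ((2 : ℝ) • x)) (Set.mem_univ ((2 : ℝ) • y)) hs ht hst
  have e1 : s • (2 : ℝ) • x + t • (2 : ℝ) • y = (2 : ℝ) • (s • x + t • y) := by
    rw [smul_add, smul_comm s, smul_comm t]
  rw [e1] at h2
  simp only [smul_eq_mul] at h2 ⊢
  unfold CD
  rw [H770.Ex_li_add hW, H770.Ex_li_add hW, H770.Ex_li_smul, H770.Ex_li_smul, H770.Ex_li_smul,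
    H770.Ex_li_smul]
  have e2 : TD W b J = s * TD W b J + t * TD W b J := by
    rw [← add_mul, hst, one_mul]
  linarith

/-- `TD ≤ τ` on a parallelogram if the convex majorant is `≤ τ` at its vertices -/
theorem hullD (hW : DisF W) {b : B} {J J1 J2 : V → ℝ} {τ : ℝ} (h00 : TD W b J ≤ τ)
    (h10 : CD W b J J1 ≤ τ) (h01 : CD W b J J2 ≤ τ) (h11 : CD W b J (J1 + J2) ≤ τ)
    {p q : ℝ} (hp : p ∈ Set.Icc (0 : ℝ) 1) (hq : q ∈ Set.Icc (0 : ℝ) 1) :
    TD W b (J + p • J1 + q • J2) ≤ τ := by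
  have hc := CD_convex hW b J
  have h00' : CD W b J 0 ≤ τ := by rwa [CD_zero]
  have edge : ∀ (x y : V → ℝ), CD W b J x ≤ τ → CD W b J (x + y) ≤ τ →
      ∀ s ∈ Set.Icc (0 : ℝ) 1, CD W b J (x + s • y) ≤ τ := by
    intro x y hx hy s hs
    have e : x + s • y = (1 - s) • x + s • (x + y) := by
      rw [sub_smul, one_smul, smul_add]
      abel
    rw [e]
    refine (hc.2 (Set.mem_univ _) (Set.mem_univ _) (by linarith [hs.2]) hs.1 (by ring)).trans ?_
    simp only [smul_eq_mul]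
    nlinarith [hs.1, hs.2]
  have e0 : CD W b J (p • J1) ≤ τ := by
    have := edge 0 J1 h00' (by rwa [zero_add]) p hp
    rwa [zero_add] at this
  have e1 : CD W b J (p • J1 + J2) ≤ τ := by
    have := edge J2 J1 h01 (by rwa [add_comm]) p hp
    rwa [add_comm] at this
  have e2 := edge (p • J1) J2 e0 e1 q hq
  rw [add_assoc]
  exact (TD_le_CD hW b J _).trans e2

end hull

/-! ### the torus -/

section tor

variable {B : Type} [AddCommGroup B] {N : ℕ} [NeZero N] {W : B → (Tor N → ℤ) → ℝ}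
  {u v : Tor N → ℝ} {A A' r : ℝ}

/-- **(D1)** covariance in every dislocated background -/
theorem Far.bgD (h : Far (W 0) u v A A' r) (hW : DisF W) (hA : 0 ≤ A) (hA' : 0 ≤ A')
    (hr : 0 ≤ r) (b : B) (J : Tor N → ℝ) :
    |Cv (W b) J (li u) (li v)| ≤ Real.exp (TD W b J / 2) * A * A' * √r := by
  have h1 := H770.lb1D hW b J u v
  have h2 := (le_abs_self _).trans h.en
  have h3 : Cv (W b) J (li u) (li v) ^ 2 ≤ (Real.exp (TD W b J / 2) * A * A' * √r) ^ 2 := by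
    have e1 : (Real.exp (TD W b J / 2) * A * A' * √r) ^ 2 =
        Real.exp (TD W b J) * (A ^ 2 * A' ^ 2 * r) := by
      rw [mul_pow, Real.sq_sqrt hr, mul_pow, mul_pow, ← Real.exp_nat_mul]
      have : ((2 : ℕ) : ℝ) * (TD W b J / 2) = TD W b J := by
        push_cast
        ring
      rw [this]
      ring
    rw [e1]
    refine h1.trans ?_
    have h5 := Real.exp_pos (TD W b J)
    have h6 := mul_le_mul_of_nonneg_left h2 h5.le
    have h7 : 0 ≤ Real.exp (TD W b J) * (A ^ 2 * A' ^ 2 * r) := by positivity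
    linarith
  exact abs_le_of_sq_le_sq h3 (by positivity)

/-- **(D2)** mixed differences of `log Z` in the dislocated background -/
theorem Far.lgD (h : Far (W 0) u v A A' r) (hW : DisF W) (hA : 0 ≤ A) (hA' : 0 ≤ A')
    (hr : 0 ≤ r) (b : B) (J0 : Tor N → ℝ) {τ : ℝ}
    (hτ : ∀ p ∈ Set.Icc (0 : ℝ) 1, ∀ q ∈ Set.Icc (0 : ℝ) 1,
      TD W b (J0 + p • u + q • v) ≤ τ) :
    |Lg (W b) (J0 + u + v) - Lg (W b) (J0 + u) - Lg (W b) (J0 + v) + Lg (W b) J0| ≤
      Real.exp (τ / 2) * A * A' * √r := by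
  obtain ⟨p, hp, q, hq, he⟩ := mixed_eq (hW.em b) J0 u v
  rw [he]
  refine (h.bgD hW hA hA' hr b _).trans ?_
  have h3 := Real.exp_le_exp.2 (div_le_div_of_nonneg_right (hτ p hp q hq)
    (by norm_num : (0 : ℝ) ≤ 2))
  have h4 := Real.sqrt_nonneg r
  gcongr

/-- **(D3)** change of the mean under a far change of the source -/
theorem Far.meanD (h : Far (W 0) u v A A' r) (hW : DisF W) (hA : 0 ≤ A) (hA' : 0 ≤ A')
    (hr : 0 ≤ r) (b : B) (J0 : Tor N → ℝ) {τ : ℝ}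
    (hτ : ∀ q ∈ Set.Icc (0 : ℝ) 1, TD W b (J0 + q • v) ≤ τ) :
    |Ex (W b) (J0 + v) (li u) - Ex (W b) J0 (li u)| ≤ Real.exp (τ / 2) * A * A' * √r := by
  obtain ⟨s, hs, hse⟩ := Ex_li_diff (hW.em b) J0 v u
  rw [hse]
  refine (h.bgD hW hA hA' hr b _).trans ?_
  have h3 := Real.exp_le_exp.2 (div_le_div_of_nonneg_right (hτ s hs)
    (by norm_num : (0 : ℝ) ≤ 2))
  have h4 := Real.sqrt_nonneg r
  gcongr

/-- `Q = R^D - R` -/
noncomputable def Qd (W : B → (Tor N → ℤ) → ℝ) (b : B) (J a : Tor N → ℝ) : ℝ :=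
  RsD W b J a - Rs (W 0) a

/-- mixed differences of `Q` -/
theorem Qd_mixed (hW : DisF W) (b : B) (J a u v : Tor N → ℝ) :
    Qd W b J (a + u + v) - Qd W b J (a + u) - Qd W b J (a + v) + Qd W b J a =
      (Lg (W b) (J + a + u + v) - Lg (W b) (J + a + u) - Lg (W b) (J + a + v) +
        Lg (W b) (J + a)) -
      (Lg (W 0) (a + u + v) - Lg (W 0) (a + u) - Lg (W 0) (a + v) + Lg (W 0) a) := by
  unfold Qd RsD Rs
  simp only [H770.Ex_li_add hW, ← add_assoc]
  ring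

/-- **(D4)** `Q` is local -/
theorem Far.qD (h : Far (W 0) u v A A' r) (hW : DisF W) (hA : 0 ≤ A) (hA' : 0 ≤ A')
    (hr : 0 ≤ r) (b : B) (J a : Tor N → ℝ) {τ τ' : ℝ}
    (hτ : ∀ p ∈ Set.Icc (0 : ℝ) 1, ∀ q ∈ Set.Icc (0 : ℝ) 1,
      TD W b (J + a + p • u + q • v) ≤ τ)
    (hτ' : ∀ p ∈ Set.Icc (0 : ℝ) 1, ∀ q ∈ Set.Icc (0 : ℝ) 1,
      Tq (W 0) (a + p • u + q • v) ≤ τ') :
    |Qd W b J (a + u + v) - Qd W b J (a + u) - Qd W b J (a + v) + Qd W b J a| ≤
      Real.exp (τ / 2) * A * A' * √r + Real.exp (τ' / 2) * A * A' * r := by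
  rw [Qd_mixed hW]
  exact (abs_sub _ _).trans (add_le_add (h.lgD hW hA hA' hr b (J + a) hτ) (h.lg a τ' hτ'))

/-- second differences of `log Z` in the dislocated background -/
noncomputable def sdL (μ : (Tor N → ℤ) → ℝ) (J g : Tor N → ℝ) : ℝ :=
  Lg μ (J + g) + Lg μ (J - g) - 2 * Lg μ J

/-- window localisation of the second differences of `log Z^D` -/
theorem Far.sdD (h : Far (W 0) u v A A' r) (hW : DisF W) (hA : 0 ≤ A) (hA' : 0 ≤ A')
    (hr : 0 ≤ r) (b : B) (J0 : Tor N → ℝ) {τ : ℝ}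
    (hτ : ∀ p ∈ Set.Icc (-1 : ℝ) 1, ∀ q ∈ Set.Icc (0 : ℝ) 1,
      TD W b (J0 + p • u + q • v) ≤ τ) :
    |sdL (W b) (J0 + v) u - sdL (W b) J0 u| ≤ 2 * (Real.exp (τ / 2) * A * A' * √r) := by
  have q1 := h.lgD hW hA hA' hr b J0 (τ := τ) fun p hp q hq =>
    hτ p ⟨by linarith [hp.1], hp.2⟩ q hq
  have q2 := h.lgD hW hA hA' hr b (J0 - u) (τ := τ) fun p hp q hq => by
    have e : J0 - u + p • u + q • v = J0 + (p - 1) • u + q • v := by
      rw [sub_smul, one_smul]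
      abel
    rw [e]
    exact hτ (p - 1) ⟨by linarith [hp.1], by linarith [hp.2]⟩ q hq
  have c1 : J0 - u + u + v = J0 + v := by abel
  have c2 : J0 - u + u = J0 := by abel
  have c3 : J0 - u + v = J0 + v - u := by abel
  have c4 : J0 + u + v = J0 + v + u := by abel
  rw [c1, c2, c3] at q2
  rw [c4] at q1
  have e : sdL (W b) (J0 + v) u - sdL (W b) J0 u =
      (Lg (W b) (J0 + v + u) - Lg (W b) (J0 + u) - Lg (W b) (J0 + v) + Lg (W b) J0) -
      (Lg (W b) (J0 + v) - Lg (W b) J0 - Lg (W b) (J0 + v - u) + Lg (W b) (J0 - u)) := by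
    unfold sdL
    ring
  rw [e]
  refine (abs_sub _ _).trans ?_
  linarith

/-- second differences of `Q` -/
noncomputable def sdQ (W : B → (Tor N → ℤ) → ℝ) (b : B) (J a g : Tor N → ℝ) : ℝ :=
  Qd W b J (a + g) + Qd W b J (a - g) - 2 * Qd W b J a

end tor

end Vale.Agent.P159.H612
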