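import Vale.Agent.P159.H612.LocN1
import Vale.Agent.P159.H859.Idl4

/-!
P159 / S (helper612): **numbers of the price in helper145's letters (row 8263 (A))**.

* `nrm_GB`, `A_num` : the quadratic energy of a smooth field of the torus;
* `pr_num` : helper529's number `2 (c' + 2 Δ + A + b J) + Ks` is at most `c / 32 * 2^(5 j / 8)`.
-/

set_option linter.unusedSectionVars false

namespace Vale.Agent.P159.H612.LocK

open Finset Filter
open Vale.Agent.P159.TM.Spec (V)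
open Vale.Agent.P159.TM.SpecC (wT)
open Vale.Agent.P159.H817

noncomputable section

/-- energy of a field with bounded slopes -/
lemma nrm_GB {N : ℕ} [NeZero N] {s : ℝ} {g : V N → ℝ} (h : GB s g) :
    nrm (gr g) ≤ 2 * (N : ℝ) ^ 2 * s ^ 2 := by
  have hs : ∀ e, gr g e ^ 2 ≤ s ^ 2 := fun e => by
    have h1 := h e
    rw [← sq_abs]
    exact pow_le_pow_left₀ (abs_nonneg _) h1 2
  unfold nrm
  refine (Finset.sum_le_sum fun e _ => hs e).trans (le_of_eq ?_)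
  rw [Finset.sum_const, Finset.card_univ, nsmul_eq_mul]
  have e1 : Fintype.card (V N × Bool) = N * N * 2 := by
    simp [ZMod.card]
  rw [e1]
  push_cast
  ring

/-- **the quadratic energy of a smooth field** -/
theorem A_num {N : ℕ} [NeZero N] {b t a η Λ l : ℝ} (hb : 0 < b) (ht : 0 < t)
    (h : H972.FL b t a η N) (ha : a ≤ 2) (hη : η ≤ 1) {g : V N → ℝ} (hg : GB (Λ / l) g) :
    H37.qf (H963.An (wT b N) (t • (1 : Matrix (V N) (V N) ℝ)) t 0) g ≤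
      12 * ((N : ℝ) / l) ^ 2 * Λ ^ 2 := by
  refine (H859.Idl.An_le_nrm hb ht h ha hη (by norm_num) g).trans ?_
  have h1 := nrm_GB hg
  calc (2 + 4) * nrm (gr g) ≤ 6 * (2 * (N : ℝ) ^ 2 * (Λ / l) ^ 2) := by linarith
    _ = _ := by ring

/-- powers beat constants -/
lemma bigc (M : ℝ) : ∀ᶠ j : ℕ in atTop, M ≤ 2 ^ (j / 32) := by
  have h1 : ∀ᶠ q : ℕ in atTop, M ≤ (2 : ℝ) ^ q :=
    (tendsto_pow_atTop_atTop_of_one_lt (by norm_num : (1 : ℝ) < 2)).eventually_ge_atTop M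
  have h3 : Tendsto (fun j : ℕ => j / 32) atTop atTop :=
    tendsto_atTop_atTop.2 fun b => ⟨32 * b, fun a ha => by omega⟩
  exact h3.eventually h1

/-- **the number of the price** -/
theorem pr_num {c : ℝ} (hc : 0 < c) {b2 M : ℝ} (hM : 0 ≤ M) (i : ℕ) : ∀ᶠ j : ℕ in atTop,
    ∀ (k : ℕ) (b c' Δ A J Ks Λ sc : ℝ), k ≤ j → 0 ≤ b → b ≤ b2 → 0 ≤ Λ → Λ ≤ 2 ^ (j / 32) →
      0 ≤ sc → sc ≤ 2 ^ (j / 8) → c' ≤ M * (1 + j + sc) → Δ ≤ M * 2 ^ (j / 2) →
      A ≤ 12 * ((2 : ℝ) ^ (j + i - 3 * j / 4)) ^ 2 * Λ ^ 2 → J ≤ M * 4 ^ (k / 16) * sc →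
      Ks ≤ M * 4 ^ (k / 16) * sc →
      2 * (c' + 2 * Δ + A + b * J) + Ks ≤ c / 32 * 2 ^ (5 * j / 8) := by
  filter_upwards [big 1, bigc (32 * (9 * M + 24 * 4 ^ i + 2 * |b2| * M) / c),
    eventually_ge_atTop 200] with j h1 h2 hj
  intro k b c' Δ A J Ks Λ sc hk hb hb2 hΛ0 hΛ hs0 hs hc' hΔ hA hJ hKs
  set Y : ℝ := 2 ^ (9 * j / 16 + 3) with hY
  have hY0 : 0 < Y := by positivity
  have y1 : 1 + (j : ℝ) ≤ Y := by
    have : (2 : ℝ) ^ (j / 2) ≤ Y := two_pow_le (by omega)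
    linarith
  have y2 : sc ≤ Y := hs.trans (two_pow_le (by omega))
  have y3 : (2 : ℝ) ^ (j / 2) ≤ Y := two_pow_le (by omega)
  have a1 : c' ≤ 2 * M * Y := by
    have := mul_le_mul_of_nonneg_left (by linarith : 1 + (j : ℝ) + sc ≤ 2 * Y) hM
    linarith
  have a2 : Δ ≤ M * Y := hΔ.trans (mul_le_mul_of_nonneg_left y3 hM)
  have a3 : A ≤ 12 * 4 ^ i * Y := by
    have e1 : ((2 : ℝ) ^ (j + i - 3 * j / 4)) ^ 2 = 4 ^ i * 2 ^ (2 * (j - 3 * j / 4)) := by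
      have : j + i - 3 * j / 4 = i + (j - 3 * j / 4) := by omega
      rw [this, pow_add, mul_pow, ← pow_mul, ← pow_mul, mul_comm i 2, pow_mul,
        mul_comm (j - 3 * j / 4) 2]
      norm_num
    have e2 : Λ ^ 2 ≤ 2 ^ (2 * (j / 32)) := by
      rw [mul_comm 2 (j / 32), pow_mul]
      exact pow_le_pow_left₀ hΛ0 hΛ 2
    have e3 : (2 : ℝ) ^ (2 * (j - 3 * j / 4)) * 2 ^ (2 * (j / 32)) ≤ Y := by
      rw [← pow_add]
      exact two_pow_le (by omega)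
    calc A ≤ 12 * ((2 : ℝ) ^ (j + i - 3 * j / 4)) ^ 2 * Λ ^ 2 := hA
      _ ≤ 12 * ((2 : ℝ) ^ (j + i - 3 * j / 4)) ^ 2 * 2 ^ (2 * (j / 32)) :=
          mul_le_mul_of_nonneg_left e2 (by positivity)
      _ = 12 * 4 ^ i * (2 ^ (2 * (j - 3 * j / 4)) * 2 ^ (2 * (j / 32))) := by
          rw [e1]
          ring
      _ ≤ _ := mul_le_mul_of_nonneg_left e3 (by positivity)
  have a4 : M * 4 ^ (k / 16) * sc ≤ M * Y := by
    have e1 : (4 : ℝ) ^ (k / 16) = 2 ^ (2 * (k / 16)) := by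
      rw [pow_mul]
      norm_num
    have e2 : (4 : ℝ) ^ (k / 16) * sc ≤ Y := by
      calc (4 : ℝ) ^ (k / 16) * sc ≤ 2 ^ (2 * (k / 16)) * 2 ^ (j / 8) := by
            rw [e1]
            exact mul_le_mul_of_nonneg_left hs (by positivity)
        _ ≤ Y := by
            rw [← pow_add]
            exact two_pow_le (by omega)
    calc M * 4 ^ (k / 16) * sc = M * (4 ^ (k / 16) * sc) := by ring
      _ ≤ M * Y := mul_le_mul_of_nonneg_left e2 hM
  have a5 : b * J ≤ |b2| * M * Y := by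
    have e1 : b * J ≤ b * (M * Y) := mul_le_mul_of_nonneg_left (hJ.trans a4) hb
    have e2 : b * (M * Y) ≤ |b2| * (M * Y) :=
      mul_le_mul_of_nonneg_right (hb2.trans (le_abs_self b2)) (by positivity)
    linarith
  have a6 := hKs.trans a4
  have a7 : 2 * (c' + 2 * Δ + A + b * J) + Ks ≤
      (9 * M + 24 * 4 ^ i + 2 * |b2| * M) * Y := by linarith
  refine a7.trans ?_
  have e4 : Y * 2 ^ (j / 32) ≤ (2 : ℝ) ^ (5 * j / 8) := by
    rw [hY, ← pow_add]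
    exact two_pow_le (by omega)
  have e5 := mul_le_mul_of_nonneg_left h2 (by positivity : (0 : ℝ) ≤ c / 32)
  have e6 : c / 32 * (32 * (9 * M + 24 * 4 ^ i + 2 * |b2| * M) / c) =
      9 * M + 24 * 4 ^ i + 2 * |b2| * M := by
    field_simp
  rw [e6] at e5
  calc (9 * M + 24 * 4 ^ i + 2 * |b2| * M) * Y ≤ c / 32 * 2 ^ (j / 32) * Y :=
        mul_le_mul_of_nonneg_right e5 hY0.le
    _ = c / 32 * (Y * 2 ^ (j / 32)) := by ring
    _ ≤ _ := mul_le_mul_of_nonneg_left e4 (by positivity)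

end

end Vale.Agent.P159.H612.LocK
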