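import Vale.Agent.P159.H612.LocK6
import Vale.Agent.P159.H612.LocN2
import Vale.Agent.P159.H529.Pr3

/-!
P159 / S (helper612): **the prices in helper145's letters** at one scale.

* `PrI` : the prices (smooth gradients, decorated far pairs, decorated real fields);
* `pr_fix` : `PrI` with the number `c / 32 * 2^(5 j / 8)` from helper276's class `FlD` and
  helper529's `PrN`.
-/

set_option linter.unusedSectionVars false

namespace Vale.Agent.P159.H612.LocK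

open Finset Filter
open Vale.Agent.P159.TM.Spec (V)
open Vale.Agent.P159.H817
open Vale.Agent.P159.TM.SpecC (Tor)
open Vale.Agent.P159.H276 (FlD)
open Vale.Agent.P159.H280.Hs (PRS)
open Vale.Agent.P159.H529.Pr (AnB PrN pr0_N pr1_N prs_edecN prs_dec1N)

noncomputable section

/-- **the prices at one scale** -/
structure PrI (N mb nb : ℕ) [NeZero N] [NeZero ((mb + 1) * (nb + 2))] [NeZero ((mb + 1) * 2)]
    (b t : ℝ) (κ l r : ℕ) (Λ pr : ℝ) (D0 D1 : Dec) : Prop where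
  p0 : ∀ h : V N → ℝ, GB (Λ / l) h → PRS mb nb κ b t (∅ : Finset (Tor N)) (H817.gr h) pr
  p1 : ∀ F0 ∈ D0, ∀ F1 ∈ D1, ∀ (p q : V N) (h : V N → ℝ), H817.Far r p q → GB (Λ / l) h →
    PRS mb nb κ b t ({p, q} : Finset (Tor N)) (H817.cfg F0 F1 p q h) pr
  /-- one decoration, real field -/
  d0 : ∀ F ∈ D0, ∀ p : V N, PRS mb nb κ b t ({p} : Finset (Tor N)) (H817.gr (dec F p)) pr
  d1 : ∀ F ∈ D1, ∀ p : V N, PRS mb nb κ b t ({p} : Finset (Tor N)) (H817.gr (dec F p)) pr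
  /-- two decorations, real field -/
  dd : ∀ F0 ∈ D0, ∀ F1 ∈ D1, ∀ p q : V N, r ≤ 2 * sz (q - p) →
    PRS mb nb κ b t ({p, q} : Finset (Tor N)) (H817.gr (edec F0 F1 p q)) pr

/-- **the prices in helper145's letters** -/
theorem pr_fix {c : ℝ} (hc : 0 < c) {b M : ℝ} (hb : 0 < b) (hM : 0 ≤ M) (i m0 : ℕ) (hi : 4 ≤ i) :
    ∀ᶠ j : ℕ in atTop, ∀ (n k mb nb N : ℕ) [NeZero N] [NeZero ((mb + 1) * (nb + 2))]
    [NeZero ((mb + 1) * 2)], k ≤ j → mb + 1 = 2 ^ (n + 11 * j / 16) →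
    nb + 2 = 2 ^ (j + i - 11 * j / 16) → N = 2 ^ (n + j + i) →
    AnB N b (1 / ((2 ^ n : ℕ) : ℝ) ^ 2) 6 →
    ∀ (ρ r : ℕ) (Λ sc Δ c' Ad J : ℝ) (D0 D1 : Dec), ρ ≤ 2 ^ (n + k / 16 + m0) →
    r ≤ 2 ^ (n + m0) → 0 ≤ Λ → Λ ≤ 2 ^ (j / 32) → 0 ≤ sc → sc ≤ 2 ^ (j / 8) →
    (∀ F ∈ D0, FlD (1 / ((2 ^ n : ℕ) : ℝ) ^ 2) ρ r Ad J F) →
    (∀ F ∈ D1, FlD (1 / ((2 ^ n : ℕ) : ℝ) ^ 2) ρ r Ad J F) →
    (∀ p q : V N, H817.Far (2 ^ (n + j)) p q →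
      PrN N b (1 / ((2 ^ n : ℕ) : ℝ) ^ 2) r p q Δ c') →
    c' ≤ M * (1 + j + sc) → Δ ≤ M * 2 ^ (j / 2) → Ad ≤ M * 4 ^ (k / 16) * sc →
    J ≤ M * 4 ^ (k / 16) * sc →
    PrI N mb nb b (1 / ((2 ^ n : ℕ) : ℝ) ^ 2) (2 ^ (n + 5 * j / 8)) (2 ^ (n + 3 * j / 4))
      (2 ^ (n + j)) Λ (c / 32 * 2 ^ (5 * j / 8)) D0 D1 := by
  have hM2 : 0 ≤ 2 * M := by linarith
  filter_upwards [pr_num hc (b2 := b) hM2 i, eventually_ge_atTop (4 * m0 + 200)] with j hpr hj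
  intro n k mb nb N _ _ _ hk hm hn hN hAn ρ r Λ sc Δ c' Ad J D0 D1 hρ hr hΛ0 hΛ hs0 hs f0 f1 hP
    hc' hΔ hAd hJ
  have hN' : (mb + 1) * (nb + 2) = N := by
    rw [hm, hn, hN, ← pow_add]
    congr 1
    omega
  have ht : 0 < 1 / ((2 ^ n : ℕ) : ℝ) ^ 2 := by positivity
  -- radii
  have r1 : ρ * 2 ^ 5 ≤ 2 ^ (n + 5 * j / 8) := by
    refine (Nat.mul_le_mul_right _ hρ).trans ?_
    rw [← pow_add]
    exact Nat.pow_le_pow_right (by norm_num) (by omega)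
  have r2 : r * 2 ^ 5 ≤ 2 ^ (n + 5 * j / 8) := by
    refine (Nat.mul_le_mul_right _ hr).trans ?_
    rw [← pow_add]
    exact Nat.pow_le_pow_right (by norm_num) (by omega)
  have r3 : 2 ^ 5 ≤ 2 ^ (n + 5 * j / 8) := Nat.pow_le_pow_right (by norm_num) (by omega)
  have r4 : 2 ^ (n + 5 * j / 8) * 2 ^ 5 ≤ 2 ^ (n + j) := by
    rw [← pow_add]
    exact Nat.pow_le_pow_right (by norm_num) (by omega)
  have r5 : 16 * 2 ^ (n + j) ≤ N := by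
    rw [hN]
    have : 2 ^ 4 * 2 ^ (n + j) ≤ 2 ^ (n + j + i) := by
      rw [← pow_add]
      exact Nat.pow_le_pow_right (by norm_num) (by omega)
    omega
  have h0j : (0 : ℝ) ≤ j := Nat.cast_nonneg j
  have h4 : (0 : ℝ) ≤ 4 ^ (k / 16) * sc := by positivity
  -- the energy number
  have e1 : (N : ℝ) ^ 2 * (Λ / ((2 ^ (n + 3 * j / 4) : ℕ) : ℝ)) ^ 2 =
      ((2 : ℝ) ^ (j + i - 3 * j / 4)) ^ 2 * Λ ^ 2 := by
    have h1 : (N : ℝ) = 2 ^ (j + i - 3 * j / 4) * 2 ^ (n + 3 * j / 4) := by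
      rw [hN, ← pow_add]
      push_cast
      congr 1
      omega
    rw [h1]
    push_cast
    have h2 : (2 : ℝ) ^ (n + 3 * j / 4) ≠ 0 := by positivity
    rw [mul_pow, div_pow]
    field_simp
  have E1 : 12 * ((2 : ℝ) ^ (j + i - 3 * j / 4)) ^ 2 * Λ ^ 2 =
      6 * (2 * (N : ℝ) ^ 2 * (Λ / ((2 ^ (n + 3 * j / 4) : ℕ) : ℝ)) ^ 2) := by
    rw [mul_assoc, ← e1]
    ring
  have hzc : (0 : ℝ) ≤ 2 * M * (1 + j + sc) := by positivity
  have hzD : (0 : ℝ) ≤ 2 * M * 2 ^ (j / 2) := by positivity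
  have hzJ : (0 : ℝ) ≤ 2 * M * 4 ^ (k / 16) * sc := by positivity
  have hzA : (0 : ℝ) ≤ 12 * ((2 : ℝ) ^ (j + i - 3 * j / 4)) ^ 2 * Λ ^ 2 := by positivity
  have hJJ : J + J ≤ 2 * M * 4 ^ (k / 16) * sc := by linarith
  have hAA : Ad + Ad ≤ 2 * M * 4 ^ (k / 16) * sc := by linarith
  have hMc : M * (1 + j + sc) ≤ 2 * M * (1 + j + sc) := by
    have : 0 ≤ M * (1 + j + sc) := by positivity
    linarith
  have hMD : M * 2 ^ (j / 2) ≤ 2 * M * 2 ^ (j / 2) := by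
    have : 0 ≤ M * 2 ^ (j / 2) := by positivity
    linarith
  -- the prices of real fields
  have dnum : ∀ J' A' : ℝ, J' ≤ 2 * M * 4 ^ (k / 16) * sc → A' ≤ 2 * M * 4 ^ (k / 16) * sc →
      2 * (b * J') + A' ≤ c / 32 * 2 ^ (5 * j / 8) := fun J' A' g1 g2 => by
    have h := hpr k b 0 0 0 J' A' Λ sc hk hb.le le_rfl hΛ0 hΛ hs0 hs hzc hzD hzA g1 g2
    linarith
  have hJ1 : J ≤ 2 * M * 4 ^ (k / 16) * sc := by
    have : M * 4 ^ (k / 16) * sc ≤ 2 * M * 4 ^ (k / 16) * sc := by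
      have : 0 ≤ M * 4 ^ (k / 16) * sc := by positivity
      linarith
    linarith
  have hA1 : Ad ≤ 2 * M * 4 ^ (k / 16) * sc := by
    have : M * 4 ^ (k / 16) * sc ≤ 2 * M * 4 ^ (k / 16) * sc := by
      have : 0 ≤ M * 4 ^ (k / 16) * sc := by positivity
      linarith
    linarith
  refine ⟨fun h hh => ?_, ?_, fun F hF p => ?_, fun F hF p => ?_, fun F0 hF0 F1 hF1 p q hpq => ?_⟩
  · refine pr0_N hN' hb ht (by omega) (by norm_num) hAn ?_ _ hh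
    have h := hpr k b 0 0 _ 0 0 Λ sc hk hb.le le_rfl hΛ0 hΛ hs0 hs hzc hzD le_rfl hzJ hzJ
    rw [E1] at h
    linarith
  · refine pr1_N hN' hb ht (by norm_num) hAn f0 f1 hP (by omega) (by omega) (by omega) (by omega)
      (by omega) (by omega) ?_
    have h := hpr k b c' Δ _ (J + J) (Ad + Ad) Λ sc hk hb.le le_rfl hΛ0 hΛ hs0 hs
      (hc'.trans hMc) (hΔ.trans hMD) le_rfl hJJ hAA
    rw [E1] at h
    exact h
  · exact prs_dec1N hN' hb ht (f0 F hF) (by omega) (by omega) p (dnum J Ad hJ1 hA1)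
  · exact prs_dec1N hN' hb ht (f1 F hF) (by omega) (by omega) p (dnum J Ad hJ1 hA1)
  · exact prs_edecN hN' hb ht (f0 F0 hF0) (f1 F1 hF1) (by omega) (by omega) (by omega) (by omega)
      (dnum _ _ hJJ hAA)

end

end Vale.Agent.P159.H612.LocK
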