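import Vale.Agent.P159.H612.LocF1
import Vale.Agent.P159.H474.Ev2
import Vale.Agent.P159.H37.Sf3
import Vale.Agent.P159.H415.WinC

/-!
P159 / S (helper612): **locality and prices along the flow** `SFlow` (helper474's `locI_flow` with the
prices filled in), in helper770's letters.

* `ddR_of` : the field `dd` of `RealI`;
* `locP_flow` : at every late level, every scale `2^(n + j)` of the window and the tori
  `2^(n + j + i)`, `2^(n + j + i + 1)`: `LocI`, `epsL ≤ y^u`, and all prices `PrI`, from helper276's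
  class `FlD` and helper529's `PrN`.
-/

set_option linter.unusedSectionVars false

namespace Vale.Agent.P159.H612.LocK

open Finset Filter Topology
open Vale.Agent.P159.TM.Spec (V)
open Vale.Agent.P159.H817
open Vale.Agent.P159.TM.SpecC (Tor)
open Vale.Agent.P159.H276 (FlD)
open Vale.Agent.P159.H280.Hs (PRS)
open Vale.Agent.P159.H529.Pr (AnB PrN anB_FL)
open Vale.Agent.P159.H972 (lg tn Par)
open Vale.Agent.P159.H801 (SFlow)
open Vale.Agent.P159.H474.Cb (LocC omS y_two)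
open Vale.Agent.P159.H37.Sf (kf sf_wt sf_k3 sf_a sf_eps le_lg)

noncomputable section

/-- the field `dd` of `RealI` -/
theorem ddR_of {N mb nb : ℕ} [NeZero N] [NeZero ((mb + 1) * (nb + 2))] [NeZero ((mb + 1) * 2)]
    {b : ℝ} {hb : 0 < b} {ξ A κ l r l0 : ℕ} {L₀ c C Λ pr ω : ℝ} {D0 D1 : Dec}
    (I : LocI N mb nb b hb ξ A κ l r l0 L₀ c C Λ pr ω D0 D1)
    (p : PrI N mb nb b (1 / (ξ : ℝ) ^ 2) κ l r Λ pr D0 D1) {R : ℕ} (hR : 4 * l ≤ R)
    (hRN : 2 * R ≤ N) (hr : r ≤ 2 * R) : ∀ F0 ∈ D0, ∀ F1 ∈ D1,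
      |EZ N b (1 / (ξ : ℝ) ^ 2) (H817.gr (edec F0 F1 0 (R • H817.e1))) -
        EZ N b (1 / (ξ : ℝ) ^ 2) (H817.gr (dec F0 0)) -
        EZ N b (1 / (ξ : ℝ) ^ 2) (H817.gr (dec F1 (R • H817.e1)))| ≤
        epsL N ξ A κ c C pr ω :=
  I.dd_R hR hRN
    (fun F hF x z _ => PRS_mono (fun v hv => by
      rw [mem_singleton] at hv
      rw [hv]
      exact mem_insert_self _ _) (p.d0 F hF x))
    (fun F hF x z _ => PRS_mono (fun v hv => by
      rw [mem_singleton] at hv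
      rw [hv]
      exact mem_insert_of_mem (mem_singleton_self _)) (p.d1 F hF z))
    fun F0 h0 F1 h1 x z hxz => p.dd F0 h0 F1 h1 x z (by rw [hxz]; exact hr)

/-- powers of `y` against powers of two -/
lemma y_le_two {u s ck : ℝ} {j q : ℕ} (hu : 0 < u) (hu1 : u ≤ 1) (hq : 0 < q)
    (h1 : 2 * q * s ≤ ck) (h2 : ck * Real.logb 2 (1 / u) ≤ j) (h3 : 2 * q ≤ j) :
    u ^ (-s) ≤ 2 ^ (j / q) := by
  rw [y_two hu, ← Real.rpow_natCast]
  refine Real.rpow_le_rpow_of_exponent_le one_le_two ?_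
  have hL : 0 ≤ Real.logb 2 (1 / u) :=
    Real.logb_nonneg one_lt_two (by rw [le_div_iff₀ hu]; linarith)
  have hq' : (0 : ℝ) < q := by exact_mod_cast hq
  have h4 : (j : ℝ) ≤ q * ((j / q : ℕ) : ℝ) + q := by
    have : j < q * (j / q) + q := by
      have e1 := Nat.div_add_mod j q
      have e2 := Nat.mod_lt j hq
      omega
    exact_mod_cast this.le
  have h5 : 2 * (q : ℝ) ≤ j := by exact_mod_cast h3
  have h6 : 2 * q * (s * Real.logb 2 (1 / u)) ≤ j := by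
    calc 2 * q * (s * Real.logb 2 (1 / u)) = 2 * q * s * Real.logb 2 (1 / u) := by ring
      _ ≤ ck * Real.logb 2 (1 / u) := mul_le_mul_of_nonneg_right h1 hL
      _ ≤ j := h2
  have h7 : (q : ℝ) * (s * Real.logb 2 (1 / u)) ≤ q * ((j / q : ℕ) : ℝ) := by
    nlinarith
  have h8 := le_of_mul_le_mul_left h7 hq'
  linarith

/-- squares of logarithms against powers of two -/
lemma log_le_two {ck : ℝ} (hck : 0 < ck) : ∀ᶠ j : ℕ in atTop, ∀ u : ℝ, 0 < u → u ≤ 1 →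
    ck * Real.logb 2 (1 / u) ≤ j → (1 + Real.log (1 / u)) ^ 2 ≤ 2 ^ (j / 2) := by
  have h3 : Tendsto (fun j : ℕ => j / 2) atTop atTop :=
    tendsto_atTop_atTop.2 fun b => ⟨2 * b, fun a ha => by omega⟩
  filter_upwards [h3.eventually (big (2 / ck + 1))] with j hj
  intro u hu hu1 h2
  have hL : 0 ≤ Real.logb 2 (1 / u) :=
    Real.logb_nonneg one_lt_two (by rw [le_div_iff₀ hu]; linarith)
  have e1 : Real.log (1 / u) = Real.logb 2 (1 / u) * Real.log 2 := by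
    rw [Real.logb, div_mul_cancel₀]
    exact (Real.log_pos one_lt_two).ne'
  have hl2 : Real.log 2 ≤ 1 := by
    have := Real.log_two_lt_d9
    linarith
  have h4 : Real.log (1 / u) ≤ Real.logb 2 (1 / u) := by
    rw [e1]
    exact mul_le_of_le_one_right hL hl2
  have h0 : 0 ≤ Real.log (1 / u) := Real.log_nonneg (by rw [le_div_iff₀ hu]; linarith)
  have h5 : Real.logb 2 (1 / u) ≤ j / ck := by
    rw [le_div_iff₀ hck]
    linarith
  have h6 : (j : ℝ) ≤ 2 * ((j / 2 : ℕ) : ℝ) + 1 := by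
    have : j ≤ 2 * (j / 2) + 1 := by omega
    exact_mod_cast this
  have h7 : (j : ℝ) / ck ≤ 2 / ck * (((j / 2 : ℕ) : ℝ) + 1) := by
    rw [div_le_iff₀ hck]
    have : 2 / ck * (((j / 2 : ℕ) : ℝ) + 1) * ck = 2 * (((j / 2 : ℕ) : ℝ) + 1) := by
      field_simp
    rw [this]
    linarith
  have h8 : 1 + Real.log (1 / u) ≤ 2 ^ (j / 2 / 2) := by
    have h9 : (0 : ℝ) ≤ ((j / 2 : ℕ) : ℝ) := Nat.cast_nonneg _
    linarith
  calc (1 + Real.log (1 / u)) ^ 2 ≤ ((2 : ℝ) ^ (j / 2 / 2)) ^ 2 :=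
        pow_le_pow_left₀ (by linarith) h8 2
    _ = 2 ^ (j / 2 / 2 * 2) := by rw [← pow_mul]
    _ ≤ 2 ^ (j / 2) := two_pow_le (by omega)

lemma tn_xi (n : ℕ) : tn n = 1 / ((2 ^ n : ℕ) : ℝ) ^ 2 := by
  unfold tn
  push_cast
  rw [← pow_mul, mul_comm n 2, pow_mul, one_div]
  norm_num

section flow

variable {P : Par} {b σ cc c1 q2 qx : ℝ} {a y ε xs : ℕ → ℝ} {c' r q A' : ℝ} {N0 : ℕ}

/-- **locality and prices along the flow** -/
theorem locP_flow (hP : P.Adm) (hb : 0 < b) (hσ : 0 ≤ σ) (hσ1 : σ ≤ 1 / 4) (hcc : 0 ≤ cc)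
    (h : SFlow P b σ cc c1 q2 qx a y ε xs c' r q A' N0) {L₀ c C : ℝ} {A : ℕ}
    (H : LocC P L₀ c C A) {i : ℕ} (m0 : ℕ) (hi : 4 ≤ i) {ck u cL cs M : ℝ} (hck : 4 * P.th ≤ ck)
    (hck1 : ck ≤ P.thp) (hu0 : 0 ≤ u) (hu : u + 4 * cc + 64 * P.thp < 2) (hM : 0 ≤ M)
    (hcL : 64 * cL ≤ ck) (hcs : 16 * cs ≤ ck) :
    ∀ᶠ n in atTop, ∀ j, kf ck y n ≤ j →
      n + j ≤ (n + P.w (ε n)) + kf ck y (n + P.w (ε n)) → ∀ i', i ≤ i' → i' ≤ i + 1 →
      ∀ (mb nb N : ℕ) [NeZero N] [NeZero ((mb + 1) * (nb + 2))] [NeZero ((mb + 1) * 2)],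
      mb + 1 = 2 ^ (n + 11 * j / 16) → nb + 2 = 2 ^ (j + i' - 11 * j / 16) →
      N = 2 ^ (n + j + i') →
      ∀ (l0 ρ rc : ℕ) (Λ sc Δ cp Ad J : ℝ) (D0 D1 : Dec),
      l0 ≤ 2 ^ (n + kf ck y n / 16 + m0) → ρ ≤ 2 ^ (n + kf ck y n / 16 + m0) →
      rc ≤ 2 ^ (n + m0) → 0 ≤ Λ → Λ ≤ y n ^ (-cL) → 0 ≤ sc → sc ≤ y n ^ (-cs) →
      (∀ F ∈ D0, SuppD l0 F) → (∀ F ∈ D1, SuppD l0 F) →
      (∀ F ∈ D0, FlD (tn n) ρ rc Ad J F) → (∀ F ∈ D1, FlD (tn n) ρ rc Ad J F) →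
      (∀ p q : V N, H817.Far (2 ^ (n + j)) p q → PrN N b (tn n) rc p q Δ cp) →
      cp ≤ M * (1 + j + sc) → Δ ≤ M * (1 + Real.log (1 / y n)) ^ 2 →
      Ad ≤ M * 4 ^ (kf ck y n / 16) * sc → J ≤ M * 4 ^ (kf ck y n / 16) * sc →
      LocI N mb nb b hb (2 ^ n) A (2 ^ (n + 5 * j / 8)) (2 ^ (n + 3 * j / 4)) (2 ^ (n + j)) l0 L₀
          c C Λ (c / 32 * 2 ^ (5 * j / 8)) (omS (y n) (ε n) cc i j) D0 D1 ∧
        epsL N (2 ^ n) A (2 ^ (n + 5 * j / 8)) c C (c / 32 * 2 ^ (5 * j / 8))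
          (omS (y n) (ε n) cc i j) ≤ y n ^ u ∧
        PrI N mb nb b (1 / ((2 ^ n : ℕ) : ℝ) ^ 2) (2 ^ (n + 5 * j / 8)) (2 ^ (n + 3 * j / 4))
          (2 ^ (n + j)) Λ (c / 32 * 2 ^ (5 * j / 8)) D0 D1 := by
  have hth := P.th0
  have hck0 : 0 < ck := by linarith
  have hpf0 := hP.pf0
  obtain ⟨J1, hJ1⟩ := eventually_atTop.1 (pr_fix H.hc hb hM i m0 hi)
  obtain ⟨J2, hJ2⟩ := eventually_atTop.1 (pr_fix H.hc hb hM (i + 1) m0 (by omega))
  obtain ⟨J3, hJ3⟩ := eventually_atTop.1 (log_le_two hck0)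
  have e3 := (H37.Sf.lb_tend h.fl.y0 h.fl.yt).eventually_ge_atTop
    (((max (max J1 J2) (max J3 64) : ℕ) : ℝ) / ck)
  have e4 := (sf_wt h hσ1).eventually_ge_atTop (i + 1)
  have e5 : ∀ᶠ n in atTop, y n ^ ((2 - 3 * σ) * P.pf) ≤ 1 / 17 :=
    h.fl.ev_pow (mul_pos (by linarith) hpf0) (by norm_num)
  filter_upwards [H474.Cb.locI_flow hP hb hσ (by linarith) hcc h H i m0 hck hu0 hu, e3, e4, e5,
    sf_k3 h hσ1 hck0 hck1, (sf_a h).1, eventually_ge_atTop N0] with n g1 g3 g4 g5 g6 g7 hN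
  intro j hj hjK i' hi1 hi2 mb nb N _ _ _ hm hnb hNN l0 ρ rc Λ sc Δ cp Ad J D0 D1 hl0 hρ hrc hΛ0
    hΛ hs0 hs s0 s1 f0 f1 hPN hcp hΔ hAd hJ
  have hy0 := h.fl.y0 n
  have hy1 := h.y1 n hN
  have hε := sf_eps h hN
  have hes := h.es n hN
  have hw8 : j + i + 1 ≤ 8 * P.w (ε n) := by omega
  have hkj : ck * Real.logb 2 (1 / y n) ≤ j := by
    have h1 : ck * Real.logb 2 (1 / y n) ≤ lg ck (y n) := le_lg _ _
    have h2 : ((lg ck (y n) : ℕ) : ℝ) ≤ j := by exact_mod_cast hj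
    linarith
  have hJm : max (max J1 J2) (max J3 64) ≤ j := by
    rw [div_le_iff₀ hck0] at g3
    have : ((max (max J1 J2) (max J3 64) : ℕ) : ℝ) ≤ j := by linarith
    exact_mod_cast this
  have hJ64 : 64 ≤ j := ((le_max_right _ _).trans (le_max_right _ _)).trans hJm
  have hJ3' : J3 ≤ j := ((le_max_left _ _).trans (le_max_right _ _)).trans hJm
  have hJ1' : J1 ≤ j := ((le_max_left _ _).trans (le_max_left _ _)).trans hJm
  have hJ2' : J2 ≤ j := ((le_max_right _ _).trans (le_max_left _ _)).trans hJm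
  have hΛ2 : Λ ≤ 2 ^ (j / 32) :=
    hΛ.trans (y_le_two hy0 hy1 (by norm_num) (by push_cast; linarith) hkj (by omega))
  have hs2 : sc ≤ 2 ^ (j / 8) :=
    hs.trans (y_le_two hy0 hy1 (by norm_num) (by push_cast; linarith) hkj (by omega))
  have hΔ2 : Δ ≤ M * 2 ^ (j / 2) :=
    hΔ.trans (mul_le_mul_of_nonneg_left (hJ3 j hJ3' (y n) hy0 hy1 hkj) hM)
  have hΛ16 : Λ ≤ 2 ^ (j / 16) := hΛ2.trans (two_pow_le (by omega))
  -- the energy form
  have ht : 0 < tn n := by unfold tn; positivity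
  have hkE : P.kE (ε n) ≤ j := by
    have hlo := h.lo n hN
    have hε1 : ε n ≤ 1 := hes.trans (P.es1.trans (by norm_num))
    have hub := H474.Cb.sf_ub h hN
    have hL0 : 0 ≤ Real.logb 2 (1 / y n) :=
      Real.logb_nonneg one_lt_two (by rw [le_div_iff₀ hy0]; linarith)
    have hub2 : Real.logb 2 (1 / ε n) ≤ 2 * Real.logb 2 (1 / y n) := by nlinarith
    have hlb0 : 0 ≤ Real.logb 2 (1 / ε n) :=
      Real.logb_nonneg one_lt_two ((le_div_iff₀ hε).2 (by linarith))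
    have h1 : (P.kE (ε n) : ℝ) ≤ P.th * Real.logb 2 (1 / ε n) + 1 :=
      H37.Sf.lg_le (mul_nonneg hth.le hlb0)
    have h2 : P.th * Real.logb 2 (1 / ε n) ≤ P.th * (2 * Real.logb 2 (1 / y n)) :=
      mul_le_mul_of_nonneg_left hub2 hth.le
    have h3 : 4 * P.th * Real.logb 2 (1 / y n) ≤ ck * Real.logb 2 (1 / y n) :=
      mul_le_mul_of_nonneg_right hck hL0
    have hj64 : (64 : ℝ) ≤ j := by exact_mod_cast hJ64
    have : (P.kE (ε n) : ℝ) ≤ j := by linarith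
    exact_mod_cast this
  have hq2 := hP.hq
  have hq4 : 2 * (4 * P.w (ε n)) ≤ P.q0 * (4 * P.w (ε n)) := Nat.mul_le_mul_right _ hq2
  have hTT : P.TT n (ε n) (n + j + i') := ⟨by omega, by omega⟩
  have hη : 17 * ε n ^ P.pf ≤ 1 := by
    have h1 := Real.rpow_le_rpow hε.le (h.up n hN) hpf0.le
    rw [← Real.rpow_mul hy0.le] at h1
    linarith
  have ha2 : a n ≤ 2 := g7.2.trans (by
    have := Real.pi_lt_four
    linarith)
  have hFL := h.flc n (ε n) hε hes (h.good n hN) (ε n) le_rfl hes (n + j + i') hTT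
  have hAn : AnB N b (1 / ((2 ^ n : ℕ) : ℝ) ^ 2) 6 := by
    subst hNN
    have h1 := anB_FL hb ht hFL ha2 hη (by norm_num)
    rw [tn_xi] at h1
    have e6 : (2 : ℝ) + 4 = 6 := by norm_num
    rw [e6] at h1
    exact h1
  rw [tn_xi] at f0 f1 hPN
  have key : PrI N mb nb b (1 / ((2 ^ n : ℕ) : ℝ) ^ 2) (2 ^ (n + 5 * j / 8))
      (2 ^ (n + 3 * j / 4)) (2 ^ (n + j)) Λ (c / 32 * 2 ^ (5 * j / 8)) D0 D1 := by
    rcases Nat.eq_or_lt_of_le hi1 with hi' | hi'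
    · subst hi'
      exact hJ1 j hJ1' n (kf ck y n) mb nb N hj hm hnb hNN hAn ρ rc Λ sc Δ cp Ad J D0 D1 hρ hrc
        hΛ0 hΛ2 hs0 hs2 f0 f1 hPN hcp hΔ2 hAd hJ
    · have hi3 : i' = i + 1 := by omega
      subst hi3
      exact hJ2 j hJ2' n (kf ck y n) mb nb N hj hm hnb hNN hAn ρ rc Λ sc Δ cp Ad J D0 D1 hρ hrc
        hΛ0 hΛ2 hs0 hs2 f0 f1 hPN hcp hΔ2 hAd hJ
  obtain ⟨k1, k2⟩ := g1 j hj hw8 i' hi1 hi2 (kf ck y n) mb nb N hj hm hnb hNN (2 ^ (n + j)) l0 Λ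
    (c / 32 * 2 ^ (5 * j / 8)) D0 D1 hl0 hΛ0 hΛ16 le_rfl s0 s1 key.p0 key.p1
  exact ⟨k1, k2, key⟩

end flow

end

end Vale.Agent.P159.H612.LocK
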