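import Vale.Agent.P159.H612.LocK5

/-!
P159 / S (helper612): **LocK, part 6**: decoupling of two real decorations from `LocI` (the field
`dd` of helper817's `RealI`).
-/

set_option linter.unusedSectionVars false

namespace Vale.Agent.P159.H612.LocK

open Finset
open Vale.Agent.P159.TM.Spec (V)
open Vale.Agent.P159.H817
open Vale.Agent.P159.TM.SpecC (Tor)
open Vale.Agent.P159.H280.Hs (PRS)

noncomputable section

variable {N mb nb : ℕ} [NeZero N] [NeZero ((mb + 1) * (nb + 2))] [NeZero ((mb + 1) * 2)] {b : ℝ}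

/-- the price of the zero field, any points -/
lemma LocI.pr_zero {hb : 0 < b} {ξ A κ l r l0 : ℕ} {L₀ c C Λ pr ω : ℝ} {D0 D1 : Dec}
    (I : LocI N mb nb b hb ξ A κ l r l0 L₀ c C Λ pr ω D0 D1) (Pc : Finset (Tor N)) :
    PRS mb nb κ b (1 / (ξ : ℝ) ^ 2) Pc (0 : V N × Bool → ℝ) pr := by
  have hz : H817.gr (fun _ : V N => (0 : ℝ)) = 0 := by
    funext e
    exact gr_const_zero e
  have h := I.pr0 (fun _ => 0) (fun e => by
    rw [gr_const_zero, abs_zero]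
    exact div_nonneg I.hΛ (Nat.cast_nonneg _))
  rw [hz] at h
  exact PRS_mono (Finset.empty_subset _) h

/-- **decoupling of two real decorations** -/
theorem LocI.dd {hb : 0 < b} {ξ A κ l r l0 : ℕ} {L₀ c C Λ pr ω : ℝ} {D0 D1 : Dec}
    (I : LocI N mb nb b hb ξ A κ l r l0 L₀ c C Λ pr ω D0 D1) {F0 F1 : ℤ → ℤ → ℝ} (h0 : F0 ∈ D0)
    (h1 : F1 ∈ D1) {p q : V N} (hpq : 2 * (l0 + 1) + l ≤ sz (q - p)) (hN2 : 2 * (l0 + 1 + l) ≤ N)
    (q10 : PRS mb nb κ b (1 / (ξ : ℝ) ^ 2) ({p, q} : Finset (Tor N)) (H817.gr (dec F0 p)) pr)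
    (q01 : PRS mb nb κ b (1 / (ξ : ℝ) ^ 2) ({p, q} : Finset (Tor N)) (H817.gr (dec F1 q)) pr)
    (q11 : PRS mb nb κ b (1 / (ξ : ℝ) ^ 2) ({p, q} : Finset (Tor N))
      (H817.gr (edec F0 F1 p q)) pr) :
    |EZ N b (1 / (ξ : ℝ) ^ 2) (H817.gr (edec F0 F1 p q)) -
      EZ N b (1 / (ξ : ℝ) ^ 2) (H817.gr (dec F0 p)) -
      EZ N b (1 / (ξ : ℝ) ^ 2) (H817.gr (dec F1 q))| ≤ epsL N ξ A κ c C pr ω := by
  have hL : 0 ≤ L₀ := by
    have hξ : 0 < ξ := by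
      have := I.geo.hA
      have := I.geo.hAξ
      omega
    have hξr : (0 : ℝ) < ξ := by exact_mod_cast hξ
    have hCG := CG_pos
    have h2 : 0 ≤ L₀ / ξ := by
      refine le_trans ?_ I.hS
      have := I.hΛ
      positivity
    by_contra hneg
    push Not at hneg
    have := div_neg_of_neg_of_pos hneg hξr
    linarith
  exact locD I.hN hb I.hc I.hC hL I.ln I.geo I.hω I.hω4 I.hη (I.supp0 F0 h0) (I.supp1 F1 h1) hpq
    hN2 (I.pr_zero _) q10 q01 q11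

/-- **the field `dd` of helper817's `RealI`** at the distance `R` -/
theorem LocI.dd_R {hb : 0 < b} {ξ A κ l r l0 : ℕ} {L₀ c C Λ pr ω : ℝ} {D0 D1 : Dec}
    (I : LocI N mb nb b hb ξ A κ l r l0 L₀ c C Λ pr ω D0 D1) {R : ℕ} (hR : 4 * l ≤ R)
    (hRN : 2 * R ≤ N)
    (q10 : ∀ F ∈ D0, ∀ p q : V N, sz (q - p) = R →
      PRS mb nb κ b (1 / (ξ : ℝ) ^ 2) ({p, q} : Finset (Tor N)) (H817.gr (dec F p)) pr)
    (q01 : ∀ F ∈ D1, ∀ p q : V N, sz (q - p) = R →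
      PRS mb nb κ b (1 / (ξ : ℝ) ^ 2) ({p, q} : Finset (Tor N)) (H817.gr (dec F q)) pr)
    (q11 : ∀ F0 ∈ D0, ∀ F1 ∈ D1, ∀ p q : V N, sz (q - p) = R →
      PRS mb nb κ b (1 / (ξ : ℝ) ^ 2) ({p, q} : Finset (Tor N)) (H817.gr (edec F0 F1 p q)) pr) :
    ∀ F0 ∈ D0, ∀ F1 ∈ D1,
      |EZ N b (1 / (ξ : ℝ) ^ 2) (H817.gr (edec F0 F1 0 (R • H817.e1))) -
        EZ N b (1 / (ξ : ℝ) ^ 2) (H817.gr (dec F0 0)) -
        EZ N b (1 / (ξ : ℝ) ^ 2) (H817.gr (dec F1 (R • H817.e1)))| ≤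
        epsL N ξ A κ c C pr ω := by
  intro F0 h0 F1 h1
  have hs : sz ((R • H817.e1 : V N) - 0) = R := by
    rw [sub_zero, sz_ne1 (by omega)]
  have hl0 := I.hl0
  exact I.dd h0 h1 (by rw [hs]; omega) (by omega) (q10 F0 h0 _ _ hs) (q01 F1 h1 _ _ hs)
    (q11 F0 h0 F1 h1 _ _ hs)

end

end Vale.Agent.P159.H612.LocK
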