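import Vale.Agent.P159.H963.Core1

/-!
P159 / S (helper612): **the smoothed Dirichlet energy of a field with a flow** (helper145's (E2)).

* `nS_flow` : `t F = K + dv j` gives `nS a t F ≤ (1 / a) (∑ K² / (2 t) + ∑ j² / a)`;
* `nS_flow'` : helper145's text.
-/

set_option linter.unusedSectionVars false

namespace Vale.Agent.P159.H612.NsF

open Finset Matrix
open Vale.Agent.P159.TM.Spec (V)
open Vale.Agent.P159.TM.H764 (EE EE_nonneg)
open Vale.Agent.P159.H37 (qf)
open Vale.Agent.P159.H864 (TI sym lapM ti_lapM sym_lapM mlt ti_mlt sym_mlt)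
open Vale.Agent.P159.H817 (gr nrm)
open Vale.Agent.P159.H963.Core (sS sS_neg nS)

noncomputable section

variable {N : ℕ} [NeZero N] {a t : ℝ}

/-- the resolvent equation -/
lemma res_mul (ha : 0 < a) (ht : 0 < t) :
    (t • (1 : Matrix (V N) (V N) ℝ) + a • lapM) * mlt (sS a t) =
      t • (1 : Matrix (V N) (V N) ℝ) := by
  have h1 : TI (t • (1 : Matrix (V N) (V N) ℝ) + a • lapM) := (TI.one.smul t).add (ti_lapM.smul a)
  refine H864.sym_inj (h1.mul (ti_mlt _)) (TI.one.smul t) fun k => ?_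
  rw [H864.sym_mul h1 (ti_mlt _), H864.sym_add, H864.sym_smul_one, H864.sym_smul, sym_lapM,
    sym_mlt _ (sS_neg a t)]
  have hE := EE_nonneg k
  have h2 : t + a * EE k ≠ 0 := by positivity
  unfold sS
  field_simp

/-- the smoothed field solves `t u + a (-Δ) u = t F` -/
lemma res_eq (ha : 0 < a) (ht : 0 < t) (F : V N → ℝ) :
    t * ∑ x, (mlt (sS a t) *ᵥ F) x ^ 2 + a * qf lapM (mlt (sS a t) *ᵥ F) =
      ∑ x, (mlt (sS a t) *ᵥ F) x * (t * F x) := by
  set u := mlt (sS a t) *ᵥ F with hu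
  have h := congrArg (fun A : Matrix (V N) (V N) ℝ => A *ᵥ F) (res_mul (N := N) ha ht)
  rw [← Matrix.mulVec_mulVec, ← hu, Matrix.add_mulVec, Matrix.smul_mulVec, Matrix.smul_mulVec,
    Matrix.smul_mulVec, Matrix.one_mulVec, Matrix.one_mulVec] at h
  have h1 : ∀ x, t * u x + a * (lapM *ᵥ u) x = t * F x := fun x => by
    have := congrFun h x
    simpa using this
  rw [H37.qf_eq, Finset.mul_sum]
  unfold dotProduct
  rw [Finset.mul_sum, ← Finset.sum_add_distrib]
  refine Finset.sum_congr rfl fun x _ => ?_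
  rw [← h1 x]
  ring

/-- **smoothed Dirichlet energy of a field with a flow** -/
theorem nS_flow (ha : 0 < a) (ht : 0 < t) {F K : V N → ℝ} {j : V N × Bool → ℝ}
    (h : ∀ x, t * F x = K x + H817.dv j x) :
    nS a t F ≤ 1 / a * ((∑ x, K x ^ 2) / (2 * t) + (∑ e, j e ^ 2) / a) := by
  have h1 := res_eq (N := N) ha ht F
  have h2 : nS a t F = qf lapM (mlt (sS a t) *ᵥ F) := rfl
  set u := mlt (sS a t) *ᵥ F with hu
  have h3 : qf lapM u = ∑ e, gr u e ^ 2 := H817.qf_lap u
  have h4 : ∑ x, u x * (t * F x) = ∑ x, u x * K x + ∑ e, j e * gr u e := by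
    rw [H817.parts, ← Finset.sum_add_distrib]
    refine Finset.sum_congr rfl fun x _ => ?_
    rw [h x]
    ring
  have h5 : ∑ x, u x * K x ≤ t * ∑ x, u x ^ 2 + (∑ x, K x ^ 2) / (4 * t) := by
    rw [Finset.mul_sum, Finset.sum_div, ← Finset.sum_add_distrib]
    refine Finset.sum_le_sum fun x _ => ?_
    have e : t * u x ^ 2 + K x ^ 2 / (4 * t) - u x * K x = (2 * t * u x - K x) ^ 2 / (4 * t) := by
      field_simp
      ring
    have : 0 ≤ (2 * t * u x - K x) ^ 2 / (4 * t) := by positivity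
    linarith
  have h6 : ∑ e, j e * gr u e ≤ (∑ e, j e ^ 2) / (2 * a) + a / 2 * ∑ e, gr u e ^ 2 := by
    rw [Finset.mul_sum, Finset.sum_div, ← Finset.sum_add_distrib]
    refine Finset.sum_le_sum fun e _ => ?_
    have e1 : j e ^ 2 / (2 * a) + a / 2 * gr u e ^ 2 - j e * gr u e =
        (j e - a * gr u e) ^ 2 / (2 * a) := by
      field_simp
      ring
    have : 0 ≤ (j e - a * gr u e) ^ 2 / (2 * a) := by positivity
    linarith
  rw [h4, h3] at h1
  rw [h2, h3]
  have h7 : a / 2 * ∑ e, gr u e ^ 2 ≤ (∑ x, K x ^ 2) / (4 * t) + (∑ e, j e ^ 2) / (2 * a) := by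
    linarith
  have h8 : ∑ e, gr u e ^ 2 = 2 / a * (a / 2 * ∑ e, gr u e ^ 2) := by
    field_simp
  rw [h8]
  refine (mul_le_mul_of_nonneg_left h7 (by positivity)).trans (le_of_eq ?_)
  field_simp
  ring

/-- helper145's text -/
theorem nS_flow' (ha : 0 < a) (ht : 0 < t) {F K : V N → ℝ} {j : V N × Bool → ℝ}
    (h : ∀ x, t * F x = K x + H817.dv j x) :
    nS a t F ≤ 1 / a * ((∑ x, K x ^ 2) / t + (∑ e, j e ^ 2) / a) := by
  refine (nS_flow ha ht h).trans (mul_le_mul_of_nonneg_left ?_ (by positivity))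
  have hK : 0 ≤ ∑ x, K x ^ 2 := Finset.sum_nonneg fun x _ => sq_nonneg _
  have : (∑ x, K x ^ 2) / (2 * t) ≤ (∑ x, K x ^ 2) / t :=
    div_le_div_of_nonneg_left hK ht (by linarith)
  linarith

end

end Vale.Agent.P159.H612.NsF
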