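import Vale.Agent.P159.H612.LocF2
import Vale.Agent.P159.H770.Sti5

/-!
P159 / S (helper612): helper770's `LcK` (locality on the two tori of every scale of the window) **along
the flow** `SFlow`.
-/

set_option linter.unusedSectionVars false

namespace Vale.Agent.P159.H612.LocK

open Finset Filter Topology
open Vale.Agent.P159.TM.Spec (V)
open Vale.Agent.P159.H817
open Vale.Agent.P159.TM.SpecC (Tor)
open Vale.Agent.P159.H276 (FlD)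
open Vale.Agent.P159.H529.Pr (PrN)
open Vale.Agent.P159.H972 (lg tn Par)
open Vale.Agent.P159.H801 (SFlow)
open Vale.Agent.P159.H474.Cb (LocC omS)
open Vale.Agent.P159.H37.Sf (kf le_lg)
open Vale.Agent.P159.H773 (sd sd_pow)
open Vale.Agent.P159.H770.Sti (LcK)

noncomputable section

/-- the number of the prices of real decorated fields -/
theorem pj_num {c : ℝ} (hc : 0 < c) {b M : ℝ} (hb : 0 < b) (hM : 0 ≤ M) : ∀ᶠ j : ℕ in atTop,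
    ∀ (k : ℕ) (J Ad sc : ℝ), k ≤ j → 0 ≤ sc → sc ≤ 2 ^ (j / 8) → Ad ≤ M * 4 ^ (k / 16) * sc →
      J ≤ M * 4 ^ (k / 16) * sc →
      2 * (b * (J + J)) + (Ad + Ad) ≤ c / 32 * 2 ^ (5 * j / 8) := by
  have hM2 : 0 ≤ 2 * M := by linarith
  filter_upwards [pr_num hc (b2 := b) hM2 0] with j h
  intro k J Ad sc hk hs0 hs hA hJ
  have h0j : (0 : ℝ) ≤ j := Nat.cast_nonneg j
  have h1 := h k b 0 0 0 (J + J) (Ad + Ad) 0 sc hk hb.le le_rfl le_rfl (by positivity) hs0 hs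
    (by positivity) (by positivity) (by simp) (by linarith) (by linarith)
  linarith

section flow

variable {P : Par} {b σ cc c1 q2 qx : ℝ} {a y ε xs : ℕ → ℝ} {c' r q A' : ℝ} {N0 : ℕ}

/-- **helper770's `LcK` along the flow** -/
theorem lcK_flow (hP : P.Adm) (hb : 0 < b) (hσ : 0 ≤ σ) (hσ1 : σ ≤ 1 / 4) (hcc : 0 ≤ cc)
    (h : SFlow P b σ cc c1 q2 qx a y ε xs c' r q A' N0) {L₀ c C : ℝ} {A : ℕ}
    (H : LocC P L₀ c C A) {i : ℕ} (m0 : ℕ) (hi : 4 ≤ i) {ck u cL cs M : ℝ} (hck : 4 * P.th ≤ ck)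
    (hck1 : ck ≤ P.thp) (hu0 : 0 ≤ u) (hu : u + 4 * cc + 64 * P.thp < 2) (hM : 0 ≤ M)
    (hcL : 64 * cL ≤ ck) (hcs : 16 * cs ≤ ck) :
    ∀ᶠ n in atTop, ∀ k, n + kf ck y n ≤ k →
      k ≤ (n + P.w (ε n)) + kf ck y (n + P.w (ε n)) →
      ∀ (l0 ρ rc : ℕ) (Λ sc Δ cp Ad J : ℝ) (D0 D1 : Dec),
      l0 ≤ 2 ^ (n + kf ck y n / 16 + m0) → ρ ≤ 2 ^ (n + kf ck y n / 16 + m0) →
      rc ≤ 2 ^ (n + m0) → 0 ≤ Λ → Λ ≤ y n ^ (-cL) → 0 ≤ sc → sc ≤ y n ^ (-cs) →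
      (∀ F ∈ D0, SuppD l0 F) → (∀ F ∈ D1, SuppD l0 F) →
      (∀ F ∈ D0, FlD (tn n) ρ rc Ad J F) → (∀ F ∈ D1, FlD (tn n) ρ rc Ad J F) →
      (∀ p q : V (sd i (2 ^ k)), H817.Far (2 ^ k) p q →
        PrN (sd i (2 ^ k)) b (tn n) rc p q Δ cp) →
      (∀ p q : V (sd i (2 ^ (k + 1))), H817.Far (2 ^ k) p q →
        PrN (sd i (2 ^ (k + 1))) b (tn n) rc p q Δ cp) →
      cp ≤ M * (1 + ((k - n : ℕ) : ℝ) + sc) → Δ ≤ M * (1 + Real.log (1 / y n)) ^ 2 →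
      Ad ≤ M * 4 ^ (kf ck y n / 16) * sc → J ≤ M * 4 ^ (kf ck y n / 16) * sc →
      LcK i n l0 b Λ (y n ^ u) (2 * (b * (J + J)) + (Ad + Ad)) D0 D1 k := by
  have hth := P.th0
  have hck0 : 0 < ck := by linarith
  obtain ⟨J1, hJ1⟩ := eventually_atTop.1 (pj_num H.hc hb hM)
  have e3 := (H37.Sf.lb_tend h.fl.y0 h.fl.yt).eventually_ge_atTop (((max J1 64 : ℕ) : ℝ) / ck)
  filter_upwards [locP_flow hP hb hσ hσ1 hcc h H m0 hi hck hck1 hu0 hu hM hcL hcs, e3,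
    eventually_ge_atTop N0] with n g g3 hN
  intro k hk0 hk1 l0 ρ rc Λ sc Δ cp Ad J D0 D1 hl0 hρ hrc hΛ0 hΛ hs0 hs s0 s1 f0 f1 hP1 hP2 hcp hΔ
    hAd hJ
  obtain ⟨j, hj⟩ : ∃ j, k = n + j := ⟨k - n, by omega⟩
  subst hj
  have hj0 : kf ck y n ≤ j := by omega
  rw [Nat.add_sub_cancel_left] at hcp
  have hy0 := h.fl.y0 n
  have hy1 := h.y1 n hN
  have hkj : ck * Real.logb 2 (1 / y n) ≤ j := by
    have h1 : ck * Real.logb 2 (1 / y n) ≤ lg ck (y n) := le_lg _ _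
    have h2 : ((lg ck (y n) : ℕ) : ℝ) ≤ j := by exact_mod_cast hj0
    linarith
  have hJm : max J1 64 ≤ j := by
    rw [div_le_iff₀ hck0] at g3
    have : ((max J1 64 : ℕ) : ℝ) ≤ j := by linarith
    exact_mod_cast this
  have hJ64 : 64 ≤ j := (le_max_right _ _).trans hJm
  have hs2 : sc ≤ 2 ^ (j / 8) :=
    hs.trans (y_le_two hy0 hy1 (by norm_num) (by push_cast; linarith) hkj (by omega))
  have hpj := hJ1 j ((le_max_left _ _).trans hJm) (kf ck y n) J Ad sc hj0 hs0 hs2 hAd hJ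
  obtain ⟨mb, hmb⟩ : ∃ mb, mb + 1 = 2 ^ (n + 11 * j / 16) :=
    ⟨2 ^ (n + 11 * j / 16) - 1, by
      have : 0 < 2 ^ (n + 11 * j / 16) := by positivity
      omega⟩
  have hnb : ∀ i' : ℕ, ∃ nb, nb + 2 = 2 ^ (j + i' - 11 * j / 16) := fun i' => by
    have h1 : 2 ^ 1 ≤ 2 ^ (j + i' - 11 * j / 16) := Nat.pow_le_pow_right (by norm_num) (by omega)
    exact ⟨2 ^ (j + i' - 11 * j / 16) - 2, by omega⟩
  obtain ⟨n1, hn1⟩ := hnb i
  obtain ⟨n2, hn2⟩ := hnb (i + 1)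
  have i1 : NeZero ((mb + 1) * 2) := ⟨by positivity⟩
  have i2 : NeZero ((mb + 1) * (n1 + 2)) := ⟨by positivity⟩
  have i3 : NeZero ((mb + 1) * (n2 + 2)) := ⟨by positivity⟩
  have hN1 : sd i (2 ^ (n + j)) = 2 ^ (n + j + i) := by
    rw [sd_pow]
    congr 1
    omega
  have hN2 : sd i (2 ^ (n + j + 1)) = 2 ^ (n + j + (i + 1)) := by
    rw [sd_pow]
    congr 1
    omega
  obtain ⟨I1, e1, -⟩ := g j hj0 hk1 i le_rfl (Nat.le_succ i) mb n1 (sd i (2 ^ (n + j))) hmb hn1 hN1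
    l0 ρ rc Λ sc Δ cp Ad J D0 D1 hl0 hρ hrc hΛ0 hΛ hs0 hs s0 s1 f0 f1 hP1 hcp hΔ hAd hJ
  obtain ⟨I2, e2, -⟩ := g j hj0 hk1 (i + 1) (Nat.le_succ i) le_rfl mb n2 (sd i (2 ^ (n + j + 1)))
    hmb hn2 hN2 l0 ρ rc Λ sc Δ cp Ad J D0 D1 hl0 hρ hrc hΛ0 hΛ hs0 hs s0 s1 f0 f1 hP2 hcp hΔ hAd hJ
  have hc := H.hc
  have hl : H770.Sti.lK n (n + j) = n + 3 * j / 4 := by
    unfold H770.Sti.lK
    rw [Nat.add_sub_cancel_left]
  refine ⟨hb, mb, n1, n2, A, i1, i2, i3, L₀, c, C, c / 32 * 2 ^ (5 * j / 8), omS (y n) (ε n) cc i j,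
    ?_, ?_, by positivity, hpj, ?_, ?_⟩
  · rw [hl, Nat.add_sub_cancel_left]
    exact I1
  · rw [hl, Nat.add_sub_cancel_left]
    exact I2
  · rw [Nat.add_sub_cancel_left]
    exact e1
  · rw [Nat.add_sub_cancel_left]
    exact e2

end flow

end

end Vale.Agent.P159.H612.LocK
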