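import Vale.Agent.P159.H612.NeuG

/-!
P159 / S (helper612): **LOC for group elements with rough real parts**.

`m(X; P + f, W + g)`, `P`, `W` group elements (smooth dislocated changes), `f`, `g` real (rough):
four types `(f, g)`, `(f, W)`, `(g, P)`, `(P, W)`.  The rough parts enter only through numbers at
ZERO data and through the price `Tp0` at common backgrounds.

* `neu_rr` : two real changes;
* `neu_dd_price` : two dislocated changes, price `Tp0 (Y + P + W) Y + EE (P + W)`;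
* `locG` : the sum.
-/

set_option linter.unusedSectionVars false

namespace Vale.Agent.P159.H612

open Real Finset Filter Topology MeasureTheory
open Vale.Agent.P159.TM.H104 (EM Lg Ex li Gr Cv)
open Vale.Agent.P159.H37
open Vale.Agent.P159.H145 (LM L0 OscZ cs pair_src Per four osc_of Osc)
open Vale.Agent.P159.H770 (DisF EdW eW eWF ZB wTD eS eT Ed TD)
open Vale.Agent.P159.H353 (wI)
open Vale.Agent.P159.TM.SpecC (Tor wT)

noncomputable section

/-- `T'` on the diagonal is `T` -/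
theorem TpD_self {B V : Type} [AddCommGroup B] [Fintype V] (W : B → (V → ℤ) → ℝ) (b : B)
    (J : V → ℝ) : TpD W b b J J = TD W b J := by
  unfold TpD TD
  rw [sub_self, sub_self]
  ring

section edges

variable {V E : Type} [Fintype V] [Fintype E] {s t : E → V} {I : E → ℤ → ℝ} {M : Matrix V V ℝ}
  {m0 : ℝ}

/-- energy of a group element, neutral model -/
def EE (s t : E → V) (I : E → ℤ → ℝ) (M : Matrix V V ℝ) (Z : (E → ℤ) × (V → ℝ)) : ℝ :=
  Real.log (zn s t I M 0) - Real.log (zn s t I M Z)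

namespace EdM

variable (h : EdM I M m0)
include h

/-- **(rr)** two real changes -/
theorem neu_rr (hω : omE s t I M ≤ 1 / 2) (X : (E → ℤ) × (V → ℝ)) (f g : V → ℝ)
    (hbf : bf M f g = 0) {ν τ : ℝ}
    (hν : Cv (wM (eW s t I 0) M) 0 (fun k => li (M.mulVec f) k ^ 2)
      (fun k => li (M.mulVec g) k ^ 2) ≤ ν)
    (hτ : ∀ p ∈ Set.Icc (0 : ℝ) 1, ∀ q ∈ Set.Icc (0 : ℝ) 1,
      Tp0 s t I M (X + (0, p • f + q • g)) (X + (0, p • f + q • g)) ≤ τ) :
    |Real.log (zn s t I M (X + (0, f) + (0, g))) - Real.log (zn s t I M (X + (0, f))) -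
      Real.log (zn s t I M (X + (0, g))) + Real.log (zn s t I M X)| ≤
      Real.exp ((τ + 16 * omE s t I M) / 2) * √ν + 8 * omE s t I M ^ 2 := by
  have hE : ∀ η : E → ℤ, EM (wM (eW s t I η) M) := fun η => h.em η
  refine h.neu_four hω _ _ _ _ fun c _ => ?_
  set W : (E → ℤ) → (V → ℤ) → ℝ := fun η => wM (eW s t I η) M with hWd
  have hD : DisF W := h.src
  obtain ⟨p, hp, q, hq, he⟩ := mixed_eq (hE X.1) (M.mulVec (cs X.2 c)) (M.mulVec f) (M.mulVec g)
  have key : ∀ (η : E → ℤ) (F : V → ℝ), Lg (wM (eW s t I η) M) (M.mulVec F) =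
      LM (eW s t I η) M F + qf M F / 2 := fun η F => by
    rw [H145.LM_eq h.tr (hE η)]
    ring
  have g1 : M.mulVec (cs X.2 c) + M.mulVec f + M.mulVec g = M.mulVec (cs (X.2 + f + g) c) := by
    rw [← Matrix.mulVec_add, ← Matrix.mulVec_add]
    congr 1
    funext x
    simp only [cs, Pi.add_apply]
    ring
  have g2 : M.mulVec (cs X.2 c) + M.mulVec f = M.mulVec (cs (X.2 + f) c) := by
    rw [← Matrix.mulVec_add]
    congr 1
    funext x
    simp only [cs, Pi.add_apply]
    ring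
  have g3 : M.mulVec (cs X.2 c) + M.mulVec g = M.mulVec (cs (X.2 + g) c) := by
    rw [← Matrix.mulVec_add]
    congr 1
    funext x
    simp only [cs, Pi.add_apply]
    ring
  have g4 : M.mulVec (cs X.2 c) + p • M.mulVec f + q • M.mulVec g =
      M.mulVec (cs (X.2 + (p • f + q • g)) c) := by
    rw [← Matrix.mulVec_smul, ← Matrix.mulVec_smul, ← Matrix.mulVec_add, ← Matrix.mulVec_add]
    congr 1
    funext x
    simp only [cs, Pi.add_apply, Pi.smul_apply]
    ring
  -- the price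
  have hT : TD W X.1 (M.mulVec (cs (X.2 + (p • f + q • g)) c)) ≤ τ + 16 * omE s t I M := by
    have h2 := h.TpD_le_Tp0 hω (X + ((0 : E → ℤ), p • f + q • g))
      (X + ((0 : E → ℤ), p • f + q • g)) c (s := s) (t := t)
    have e1 : (X + ((0 : E → ℤ), p • f + q • g)).1 = X.1 := by
      show X.1 + 0 = X.1
      rw [add_zero]
    have e2 : (X + ((0 : E → ℤ), p • f + q • g)).2 = X.2 + (p • f + q • g) := rfl
    rw [e1, e2, TpD_self] at h2
    exact h2.trans (by linarith [hτ p hp q hq])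
  have hc : |Cv (wM (eW s t I X.1) M) (M.mulVec (cs (X.2 + (p • f + q • g)) c))
      (li (M.mulVec f)) (li (M.mulVec g))| ≤
      Real.exp ((τ + 16 * omE s t I M) / 2) * √ν := by
    have h3 := H770.lb1D hD X.1 (M.mulVec (cs (X.2 + (p • f + q • g)) c)) (M.mulVec f)
      (M.mulVec g)
    set C0 := Cv (W 0) 0 (fun k => li (M.mulVec f) k ^ 2) (fun k => li (M.mulVec g) k ^ 2)
      with hC0
    have hν' : C0 ≤ ν := hν
    set T := TD W X.1 (M.mulVec (cs (X.2 + (p • f + q • g)) c)) with hTd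
    have p0 : 0 ≤ C0 := by
      by_contra hneg
      push Not at hneg
      have q1 : 1 / 2 * Real.exp T * C0 < 0 :=
        mul_neg_of_pos_of_neg (by positivity) hneg
      have q2 := sq_nonneg (Cv (W X.1) (M.mulVec (cs (X.2 + (p • f + q • g)) c))
        (li (M.mulVec f)) (li (M.mulVec g)))
      linarith
    have hν0 : 0 ≤ ν := p0.trans hν'
    have h4 : Cv (wM (eW s t I X.1) M) (M.mulVec (cs (X.2 + (p • f + q • g)) c))
        (li (M.mulVec f)) (li (M.mulVec g)) ^ 2 ≤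
        (Real.exp ((τ + 16 * omE s t I M) / 2) * √ν) ^ 2 := by
      rw [mul_pow, Real.sq_sqrt hν0, ← Real.exp_nat_mul]
      have e3 : ((2 : ℕ) : ℝ) * ((τ + 16 * omE s t I M) / 2) = τ + 16 * omE s t I M := by
        push_cast
        ring
      rw [e3]
      refine h3.trans ?_
      calc 1 / 2 * Real.exp T * C0 ≤ 1 * Real.exp T * C0 := by
            refine mul_le_mul_of_nonneg_right (mul_le_mul_of_nonneg_right (by norm_num)
              (Real.exp_pos _).le) p0
        _ = Real.exp T * C0 := by ring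
        _ ≤ Real.exp (τ + 16 * omE s t I M) * ν :=
            mul_le_mul (Real.exp_le_exp.2 hT) hν' p0 (Real.exp_pos _).le
    exact abs_le_of_sq_le_sq h4 (mul_nonneg (Real.exp_pos _).le (Real.sqrt_nonneg _))
  rw [g4] at he
  rw [← he, g1, g2, g3] at hc
  simp only [key] at hc
  have q0 : qf M (cs (X.2 + f + g) c) - qf M (cs (X.2 + f) c) - qf M (cs (X.2 + g) c) +
      qf M (cs X.2 c) = 0 := by
    have f1 : cs (X.2 + f + g) c = cs X.2 c + f + g := by
      funext x
      simp only [cs, Pi.add_apply]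
      ring
    have f2 : cs (X.2 + g) c = cs X.2 c + g := by
      funext x
      simp only [cs, Pi.add_apply]
      ring
    have f3 : cs (X.2 + f) c = cs X.2 c + f := by
      funext x
      simp only [cs, Pi.add_apply]
      ring
    rw [f1, f2, f3, qf_add_vec h.tr (cs X.2 c + f) g, qf_add_vec h.tr (cs X.2 c) g,
      bf_add_left, hbf]
    ring
  have z1 : zc s t I M (X + (0, f) + (0, g)) c = ZM (eW s t I X.1) M (cs (X.2 + f + g) c) := by
    unfold zc
    have : (X + ((0 : E → ℤ), f) + ((0 : E → ℤ), g)).1 = X.1 := by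
      show X.1 + 0 + 0 = _
      rw [add_zero, add_zero]
    rw [this]
    rfl
  have z2 : zc s t I M (X + (0, f)) c = ZM (eW s t I X.1) M (cs (X.2 + f) c) := by
    unfold zc
    have : (X + ((0 : E → ℤ), f)).1 = X.1 := by
      show X.1 + 0 = _
      rw [add_zero]
    rw [this]
    rfl
  have z3 : zc s t I M (X + (0, g)) c = ZM (eW s t I X.1) M (cs (X.2 + g) c) := by
    unfold zc
    have : (X + ((0 : E → ℤ), g)).1 = X.1 := by
      show X.1 + 0 = _
      rw [add_zero]
    rw [this]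
    rfl
  have z4 : zc s t I M X c = ZM (eW s t I X.1) M (cs X.2 c) := rfl
  rw [z1, z2, z3, z4]
  refine le_trans (le_of_eq ?_) hc
  unfold LM at q0 ⊢
  congr 1
  linarith

/-- **(dd)** with the price in neutral letters -/
theorem neu_dd_price (hω : omE s t I M ≤ 1 / 16) (Y P W : (E → ℤ) × (V → ℝ)) {δ τ : ℝ}
    (hδ : 0 ≤ δ)
    (hbr : zc s t I M (P + W) 0 * zc s t I M 0 0 + zc s t I M (P - W) 0 * zc s t I M 0 0 -
      2 * (zc s t I M P 0 * zc s t I M W 0) ≤ δ * zc s t I M 0 0 ^ 2)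
    (hτ : Tp0 s t I M (Y + P + W) Y + EE s t I M (P + W) ≤ τ)
    (hsm : √δ * Real.exp (τ / 2) ≤ 1 / 4) :
    |Real.log (zn s t I M (Y + P + W)) - Real.log (zn s t I M (Y + P)) -
      Real.log (zn s t I M (Y + W)) + Real.log (zn s t I M Y)| ≤
      4 * (√δ * Real.exp (τ / 2)) + 8 * omE s t I M ^ 2 := by
  refine h.neu_dd' hω Y P W (by positivity) hsm hbr hδ ?_
  have p1 := h.zn_pos (Y + Y + P + W) (s := s) (t := t)
  have p2 := h.zn_pos 0 (s := s) (t := t)
  have p3 := h.zn_pos (Y + P + W) (s := s) (t := t)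
  have p4 := h.zn_pos Y (s := s) (t := t)
  have e1 : Y + P + W + Y = Y + Y + P + W := by abel
  have e2 : Y + P + W - Y = P + W := by abel
  unfold Tp0 EE at hτ
  rw [e1, e2] at hτ
  have e3 : (√δ * Real.exp (τ / 2)) ^ 2 = δ * Real.exp τ := by
    rw [mul_pow, Real.sq_sqrt hδ, ← Real.exp_nat_mul]
    congr 2
    push_cast
    ring
  rw [e3, mul_assoc]
  refine mul_le_mul_of_nonneg_left ?_ hδ
  have e4 : zn s t I M (Y + Y + P + W) * zn s t I M 0 ^ 3 =
      Real.exp (Real.log (zn s t I M (Y + Y + P + W)) + 3 * Real.log (zn s t I M 0)) := by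
    rw [Real.exp_add, Real.exp_log p1, show (3 : ℝ) = ((3 : ℕ) : ℝ) by norm_num,
      Real.exp_nat_mul, Real.exp_log p2]
  have e5 : Real.exp τ * (zn s t I M (Y + P + W) * zn s t I M Y) ^ 2 =
      Real.exp (τ + (2 * Real.log (zn s t I M (Y + P + W)) + 2 * Real.log (zn s t I M Y))) := by
    rw [Real.exp_add, mul_pow, Real.exp_add, show (2 : ℝ) = ((2 : ℕ) : ℝ) by norm_num,
      Real.exp_nat_mul, Real.exp_nat_mul, Real.exp_log p3, Real.exp_log p4]
  rw [e4, e5]
  refine Real.exp_le_exp.2 ?_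
  linarith

/-- **LOC for group elements with rough real parts**: smooth parts `P`, `W`, real parts `f`, `g` -/
theorem locG (hω : omE s t I M ≤ 1 / 16) (X P W : (E → ℤ) × (V → ℝ)) (f g : V → ℝ)
    (hfg : bf M f g = 0) (hfW : bf M f W.2 = 0) (hgP : bf M g P.2 = 0)
    {ν0 ν1 ν2 δ τ τ3 : ℝ}
    (h0 : Cv (wM (eW s t I 0) M) 0 (fun k => li (M.mulVec f) k ^ 2)
      (fun k => li (M.mulVec g) k ^ 2) ≤ ν0)
    (h1 : NX (fun η : E → ℤ => wM (eW s t I η) M) W.1 (M.mulVec W.2) (M.mulVec f) ≤ ν1)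
    (h2 : NX (fun η : E → ℤ => wM (eW s t I η) M) P.1 (M.mulVec P.2) (M.mulVec g) ≤ ν2)
    (hδ : 0 ≤ δ)
    (hbr : zc s t I M (P + W) 0 * zc s t I M 0 0 + zc s t I M (P - W) 0 * zc s t I M 0 0 -
      2 * (zc s t I M P 0 * zc s t I M W 0) ≤ δ * zc s t I M 0 0 ^ 2)
    (t0 : ∀ p ∈ Set.Icc (0 : ℝ) 1, ∀ q ∈ Set.Icc (0 : ℝ) 1,
      Tp0 s t I M (X + (0, p • f + q • g)) (X + (0, p • f + q • g)) ≤ τ)
    (t1 : ∀ p ∈ Set.Icc (0 : ℝ) 1,
      Tp0 s t I M (X + (0, p • f + g) + W) (X + (0, p • f + g)) ≤ τ)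
    (t2 : ∀ q ∈ Set.Icc (0 : ℝ) 1,
      Tp0 s t I M (X + (0, f + q • g) + P) (X + (0, f + q • g)) ≤ τ)
    (t3 : Tp0 s t I M (X + (0, f + g) + P + W) (X + (0, f + g)) + EE s t I M (P + W) ≤ τ3)
    (hsm : √δ * Real.exp (τ3 / 2) ≤ 1 / 4) :
    |Real.log (zn s t I M (X + (P + (0, f)) + (W + (0, g)))) -
      Real.log (zn s t I M (X + (P + (0, f)))) -
      Real.log (zn s t I M (X + (W + (0, g)))) + Real.log (zn s t I M X)| ≤
      Real.exp ((τ + 16 * omE s t I M) / 2) * (√ν0 + √ν1 + √ν2) + 4 * (√δ * Real.exp (τ3 / 2)) +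
        32 * omE s t I M ^ 2 := by
  have pair : ∀ u v : V → ℝ, ((0 : E → ℤ), u) + ((0 : E → ℤ), v) = ((0 : E → ℤ), u + v) :=
    fun u v => Prod.ext (add_zero _) rfl
  -- (rr)
  have A0 := h.neu_rr (by linarith) X f g hfg h0 t0 (s := s) (t := t)
  -- (rd)
  have A1 := h.neu_rd (by linarith) (X + (0, g)) W f hfW (τ := τ) (fun p hp => by
    have e1 : X + ((0 : E → ℤ), g) + W + (0, p • f) = X + ((0 : E → ℤ), p • f + g) + W := by
      rw [← pair]
      abel
    have e2 : X + ((0 : E → ℤ), g) + (0, p • f) = X + ((0 : E → ℤ), p • f + g) := by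
      rw [← pair]
      abel
    rw [e1, e2]
    exact t1 p hp) (s := s) (t := t)
  have A2 := h.neu_rd (by linarith) (X + (0, f)) P g hgP (τ := τ) (fun q hq => by
    have e1 : X + ((0 : E → ℤ), f) + P + (0, q • g) = X + ((0 : E → ℤ), f + q • g) + P := by
      rw [← pair]
      abel
    have e2 : X + ((0 : E → ℤ), f) + (0, q • g) = X + ((0 : E → ℤ), f + q • g) := by
      rw [← pair]
      abel
    rw [e1, e2]
    exact t2 q hq) (s := s) (t := t)
  -- (dd)
  have A3 := h.neu_dd_price hω (X + (0, f + g)) P W hδ hbr t3 hsm (s := s) (t := t)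
  have B1 := A1.trans (add_le_add_left (mul_le_mul_of_nonneg_left (Real.sqrt_le_sqrt h1)
    (Real.exp_pos _).le) _)
  have B2 := A2.trans (add_le_add_left (mul_le_mul_of_nonneg_left (Real.sqrt_le_sqrt h2)
    (Real.exp_pos _).le) _)
  -- the corners
  have c1 : X + ((0 : E → ℤ), f) + (0, g) = X + ((0 : E → ℤ), f + g) := by
    rw [← pair]
    abel
  have c2 : X + ((0 : E → ℤ), g) + (0, f) = X + ((0 : E → ℤ), f + g) := by
    rw [← pair]
    abel
  have c4 : X + (W + ((0 : E → ℤ), g)) = X + ((0 : E → ℤ), g) + W := by abel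
  have c5 : X + (P + ((0 : E → ℤ), f)) = X + ((0 : E → ℤ), f) + P := by abel
  have c6 : X + (P + ((0 : E → ℤ), f)) + (W + ((0 : E → ℤ), g)) =
      X + ((0 : E → ℤ), f + g) + P + W := by
    rw [← pair]
    abel
  rw [c1] at A0 B2
  rw [c2] at B1
  rw [c6, c5, c4]
  rw [abs_le] at A0 B1 B2 A3 ⊢
  have e := mul_add (Real.exp ((τ + 16 * omE s t I M) / 2)) (√ν0 + √ν1) (√ν2)
  have e' := mul_add (Real.exp ((τ + 16 * omE s t I M) / 2)) (√ν0) (√ν1)
  constructor
  · linarith [A0.1, B1.1, B2.1, A3.1]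
  · linarith [A0.2, B1.2, B2.2, A3.2]

end EdM

end edges

end

end Vale.Agent.P159.H612
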