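import Vale.Agent.P159.H280.Hs5
import Vale.Agent.P159.H764.Ctg
import Vale.Agent.P159.H474.Cb15
import Vale.Agent.P159.H817.Id1

/-!
P159 / S (helper612): **LocK, part 1**: gauges of edge fields.

* `gauge_in` : an edge field of the group which vanishes off the box of radius `L` around `w` is
  `eF η F` with `η`, `F` zero off the box;
* `gauge_out` : an edge field which vanishes on the box is `eF η F` with `η`, `F` zero on a
  slightly smaller box;
* the `Sup` forms (helper474's letters).
-/

set_option linter.unusedSectionVars false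

namespace Vale.Agent.P159.H612.LocK

open Finset
open Vale.Agent.P159.TM.Spec (V)
open Vale.Agent.P159.H817
open Vale.Agent.P159.H37 (re)
open Vale.Agent.P159.H770 (eS eT Ed)
open Vale.Agent.P159.TM.SpecC (Tor)
open Vale.Agent.P159.H474.Cb (GE Sup)
open Vale.Agent.P159.TM.H459 (sd ball mem_ball)

noncomputable section

variable {N : ℕ} [NeZero N]

/-- translation of a group element -/
def trG (w : V N) (X : GE N) : GE N := (fun e => X.1 (e.1 - w, e.2), fun x => X.2 (x - w))

lemma eF_trG (w : V N) (X : GE N) (e : V N × Bool) :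
    H817.eF (trG w X).1 (trG w X).2 e = H817.eF X.1 X.2 (e.1 - w, e.2) := by
  obtain ⟨x, c⟩ := e
  unfold H817.eF trG
  simp only [gr_eq]
  have e1 : x + eb c - w = x - w + eb c := by abel
  rw [e1]

/-- a change supported in a box -/
theorem gauge_in {L : ℕ} (hL : 2 * (L + 1) ≤ N) (w : V N) {β : V N × Bool → ℝ} (hβ : EG β)
    (h0 : ∀ e : V N × Bool, L < sz (e.1 - w) → β e = 0) : ∃ X : GE N,
      β = H817.eF X.1 X.2 ∧ (∀ e : V N × Bool, L < sz (e.1 - w) → X.1 e = 0) ∧
      (∀ v, L < sz (v - w) → X.2 v = 0) ∧ ∀ x b, L < sz (x - w) → X.2 (x + eb b) = 0 := by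
  set β' : V N × Bool → ℝ := fun e => β (e.1 + w, e.2) with hβ'
  have hE : EG β' := by
    obtain ⟨η, F, rfl⟩ := hβ
    refine ⟨fun e => η (e.1 + w, e.2), fun x => F (x + w), ?_⟩
    funext ⟨x, c⟩
    rw [hβ']
    unfold H817.eF
    simp only [gr_eq]
    have e1 : x + w + eb c = x + eb c + w := by abel
    rw [e1]
  obtain ⟨η, F, h1, h2, h3, h4⟩ := H280.Hs.gauge_box hL hE fun e he => by
    rw [hβ']
    exact h0 (e.1 + w, e.2) (by simpa using he)
  refine ⟨trG w (η, F), ?_, ?_, ?_, ?_⟩
  · funext e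
    rw [eF_trG, ← h1, hβ']
    simp only [sub_add_cancel, Prod.mk.eta]
  · intro e he
    exact h2 (e.1 - w, e.2) he
  · intro v hv
    exact h3 (v - w) hv
  · intro x b hx
    have := h4 (x - w) b hx
    show F (x + eb b - w) = 0
    rw [show x + eb b - w = x - w + eb b by abel]
    exact this

/-- a change supported off a box -/
theorem gauge_out {L : ℕ} (w : V N) {β : V N × Bool → ℝ} (hβ : EG β)
    (h0 : ∀ e : V N × Bool, sz (e.1 - w) ≤ L → β e = 0) : ∃ X : GE N,
      β = H817.eF X.1 X.2 ∧ (∀ e : V N × Bool, sz (e.1 - w) + 1 ≤ L → X.1 e = 0) ∧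
      (∀ v, sz (v - w) ≤ L → X.2 v = 0) := by
  classical
  obtain ⟨η, F, rfl⟩ := hβ
  have hstep : ∀ x b, sz (x - w) ≤ L → F (x + eb b) = F x - η (x, b) := by
    intro x b hx
    have h1 := h0 (x, b) hx
    unfold H817.eF at h1
    rw [gr_eq] at h1
    linarith
  set c : ℝ := Int.fract (F w) with hc
  have hfr : ∀ x, sz (x - w) ≤ L → Int.fract (F x) = c := fun x hx =>
    H764.Ctg.fract_box (fun x b hx _ => by
      rw [hstep x b hx]
      have e : F x - (η (x, b) : ℝ) = F x + ((-η (x, b) : ℤ) : ℝ) := by push_cast; ring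
      rw [e, Int.fract_add_intCast]) x hx
  set k : V N → ℤ := fun x => if sz (x - w) ≤ L then ⌊F x⌋ else 0 with hk
  set F' : V N → ℝ := fun x => F x - c - re k x with hF'
  have hz : ∀ x, sz (x - w) ≤ L → F' x = 0 := by
    intro x hx
    have h1 := Int.floor_add_fract (F x)
    rw [hfr x hx] at h1
    show F x - c - ((k x : ℤ) : ℝ) = 0
    rw [hk]
    simp only [if_pos hx]
    linarith
  have he : H817.eF η F = H817.eF (η + gi k) F' := by
    funext e
    obtain ⟨x, b⟩ := e
    unfold H817.eF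
    have h1 := gi_cast k (x, b)
    rw [gr_eq] at h1
    rw [gr_eq, gr_eq]
    have h2 : (((η + gi k) (x, b) : ℤ) : ℝ) = (η (x, b) : ℝ) + ((gi k (x, b) : ℤ) : ℝ) := by
      rw [Pi.add_apply]
      push_cast
      ring
    rw [h2, h1, hF']
    ring
  refine ⟨(η + gi k, F'), he, ?_, hz⟩
  rintro ⟨x, b⟩ hx
  simp only at hx
  have h1 := h0 (x, b) (by simp only; omega)
  rw [he] at h1
  have h3 := (sz_step (x - w) b).2
  unfold H817.eF at h1
  rw [gr_eq, hz x (by omega), hz (x + eb b) (by
    rw [show x + eb b - w = x - w + eb b by abel]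
    omega)] at h1
  have h2 : (((η + gi k) (x, b) : ℤ) : ℝ) = 0 := by linarith
  exact_mod_cast h2

end

end Vale.Agent.P159.H612.LocK
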