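import Vale.Agent.P159.H612.LocK1
import Vale.Agent.P159.H280.Prk
import Vale.Agent.P159.H474.Cb17

/-!
P159 / S (helper612): **LocK, part 2**: locality in edge letters, general form.

`locE` : edge fields `B`, `P`, `W` of the group, `P` supported in the box `R0` around `w`, `W` off the
box `R0 + l`, prices `PRS` of the four corners (helper280's text), the group element of `B` is flat
in the gap (`FltG`, helper474): the mixed difference of `EZ` is small.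
-/

set_option linter.unusedSectionVars false

namespace Vale.Agent.P159.H612.LocK

open Finset
open Vale.Agent.P159.TM.Spec (V)
open Vale.Agent.P159.H817
open Vale.Agent.P159.H37 (re Zn)
open Vale.Agent.P159.H770 (eS eT Ed wTD)
open Vale.Agent.P159.H353 (wI)
open Vale.Agent.P159.TM.SpecC (Tor)
open Vale.Agent.P159.H474.Cb (GE Sup mem_Far LN Geo FltG KL zN cst PR loc_pr KL_pos QB ZG Z0)
open Vale.Agent.P159.TM.H459 (sd ball mem_ball)
open Vale.Agent.P159.H280.Hs (PRS PRK QBK GOKK cstK gokK_iff qbK_iff)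

noncomputable section

section sup

variable {m n : ℕ} [NeZero ((m + 1) * (n + 2))]

lemma sd_sz (w x : V ((m + 1) * (n + 2))) : sd w x = sz (x - w) := rfl

lemma eT_eb {N : ℕ} (x : V N) (b : Bool) : eT N (x, b) = x + eb b := by
  unfold eT eb e1 e2
  cases b <;> rfl

theorem sup_in {w : V ((m + 1) * (n + 2))} {L R0 : ℕ} (h : L + 1 ≤ R0)
    {X : GE ((m + 1) * (n + 2))}
    (h1 : ∀ e : V ((m + 1) * (n + 2)) × Bool, L < sz (e.1 - w) → X.1 e = 0)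
    (h2 : ∀ v, L < sz (v - w) → X.2 v = 0) : Sup X (ball w R0) := by
  refine ⟨?_, fun v hv => h2 v ?_⟩
  · rintro ⟨x, b⟩ he
    refine h1 _ ?_
    rw [mem_ball, mem_ball, sd_sz, sd_sz, eT_eb] at he
    have e1 : eS ((m + 1) * (n + 2)) (x, b) = x := rfl
    rw [e1] at he
    have h3 := (sz_step (x - w) b).2
    have e2 : x - w + eb b = x + eb b - w := by abel
    rw [e2] at h3
    show L < sz (x - w)
    omega
  · rw [mem_ball, sd_sz] at hv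
    omega

theorem sup_out {w : V ((m + 1) * (n + 2))} {L R1 : ℕ} (h : R1 + 1 ≤ L)
    {X : GE ((m + 1) * (n + 2))}
    (h1 : ∀ e : V ((m + 1) * (n + 2)) × Bool, sz (e.1 - w) + 1 ≤ L → X.1 e = 0)
    (h2 : ∀ v, sz (v - w) ≤ L → X.2 v = 0) : Sup X (H474.Cb.Far w R1) := by
  refine ⟨?_, fun v hv => h2 v ?_⟩
  · rintro ⟨x, b⟩ he
    refine h1 _ ?_
    rw [mem_Far, mem_Far, sd_sz, sd_sz, eT_eb] at he
    have e1 : eS ((m + 1) * (n + 2)) (x, b) = x := rfl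
    rw [e1] at he
    have h3 := (sz_step (x - w) b).1
    have e2 : x - w + eb b = x + eb b - w := by abel
    rw [e2] at h3
    show sz (x - w) + 1 ≤ L
    omega
  · rw [mem_Far, sd_sz] at hv
    omega

end sup

lemma eF_add2 {N : ℕ} [NeZero N] (X Y : GE N) (e : V N × Bool) :
    H817.eF (X + Y).1 (X + Y).2 e = H817.eF X.1 X.2 e + H817.eF Y.1 Y.2 e := by
  obtain ⟨x, c⟩ := e
  unfold H817.eF
  simp only [gr_eq, Prod.fst_add, Prod.snd_add, Pi.add_apply]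
  push_cast
  ring

section main

variable {m n : ℕ} [NeZero ((m + 1) * (n + 2))] [NeZero ((m + 1) * 2)] {b : ℝ}

lemma EZ_zN (hb : 0 < b) {ξ : ℕ} (hξ : 0 < ξ) (Y : GE ((m + 1) * (n + 2))) :
    EZ ((m + 1) * (n + 2)) b (1 / (ξ : ℝ) ^ 2) (H817.eF Y.1 Y.2) =
      Real.log (zN m n b ξ 0) - Real.log (zN m n b ξ Y) := by
  have ht : 0 < 1 / (ξ : ℝ) ^ 2 := by positivity
  have p : ∀ X : GE ((m + 1) * (n + 2)), 0 < Zn (wTD ((m + 1) * (n + 2)) b X.1)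
      ((1 / (ξ : ℝ) ^ 2) • (1 : Matrix _ _ ℝ)) X.2 := fun X =>
    (H883.bw_wTD hb X.1).Zn_pos (H883.mf_scalar ht) X.2
  have p1 := p Y
  have p0 : 0 < Zn (wTD ((m + 1) * (n + 2)) b 0) ((1 / (ξ : ℝ) ^ 2) • (1 : Matrix _ _ ℝ)) 0 := p 0
  unfold EZ
  rw [H280.Hs.zero_eF, ZE_eF hb, ZE_eF hb, Real.log_div p1.ne' p0.ne', neg_sub]
  rfl

/-- helper280's price gives helper474's -/
theorem pr_of (hb : 0 < b) {ξ κ : ℕ} (hξ : 0 < ξ) {Pc : Finset (V ((m + 1) * (n + 2)))} {pr : ℝ}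
    {β : V ((m + 1) * (n + 2)) × Bool → ℝ} (h : PRS m n κ b (1 / (ξ : ℝ) ^ 2) Pc β pr)
    (hω : om0 ((m + 1) * (n + 2)) b ((1 / (ξ : ℝ) ^ 2) • (1 : Matrix _ _ ℝ)) ≤ 1 / 4)
    {Y : GE ((m + 1) * (n + 2))} (hY : H817.eF Y.1 Y.2 = β) : PR m n b ξ κ Pc (pr + 1) Y := by
  have ht : 0 < 1 / (ξ : ℝ) ^ 2 := by positivity
  obtain ⟨Q, q0, q1, q2⟩ := h.pt hb ht hω hY
  intro c1 hc1 s hs
  exact ⟨Q, q0, qbK_iff.1 (q1 c1 s (gokK_iff.2 hs)), q2 c1 hc1⟩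

/-- **locality in edge letters** -/
theorem locE (hb : 0 < b) {ξ A K κ l : ℕ} {L₀ c C : ℝ} (hc : 0 < c) (hC : 0 < C)
    (H : LN m n b hb ξ A L₀ c C) (g : Geo m n ξ A K κ l c)
    (w : V ((m + 1) * (n + 2))) {R0 : ℕ} (hR0 : 1 ≤ R0) (hRN : 2 * R0 ≤ (m + 1) * (n + 2))
    {B P W : V ((m + 1) * (n + 2)) × Bool → ℝ} (hB : EG B) (hP : EG P) (hW : EG W)
    (hP0 : ∀ e, R0 ≤ sz (e.1 - w) → P e = 0) (hW0 : ∀ e, sz (e.1 - w) ≤ R0 + l + 1 → W e = 0)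
    (hF : ∀ X : GE ((m + 1) * (n + 2)), H817.eF X.1 X.2 = B → FltG m n w R0 l X (2 * L₀ / ξ))
    (Pc : Finset (V ((m + 1) * (n + 2)))) (hPc : Pc.card ≤ K)
    (hPg : ∀ p ∈ Pc, sz (p - w) ≤ R0 ∨ R0 + l ≤ sz (p - w)) {pr : ℝ}
    (q00 : PRS m n κ b (1 / (ξ : ℝ) ^ 2) Pc B pr)
    (q10 : PRS m n κ b (1 / (ξ : ℝ) ^ 2) Pc (fun e => B e + P e) pr)
    (q01 : PRS m n κ b (1 / (ξ : ℝ) ^ 2) Pc (fun e => B e + W e) pr)
    (q11 : PRS m n κ b (1 / (ξ : ℝ) ^ 2) Pc (fun e => B e + P e + W e) pr)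
    {ω : ℝ} (hω : om0 ((m + 1) * (n + 2)) b ((1 / (ξ : ℝ) ^ 2) • (1 : Matrix _ _ ℝ)) ≤ ω)
    (hω4 : ω ≤ 1 / 4)
    (hη : KL A c C * ((((m + 1) * (n + 2) : ℕ) : ℝ) / ξ) ^ 2 * Real.exp (-(c * κ / (4 * ξ))) *
      Real.exp (2 * (pr + 1)) ≤ 1 / 2) :
    |EZ ((m + 1) * (n + 2)) b (1 / (ξ : ℝ) ^ 2) (fun e => B e + P e + W e) -
      EZ ((m + 1) * (n + 2)) b (1 / (ξ : ℝ) ^ 2) (fun e => B e + P e) -
      EZ ((m + 1) * (n + 2)) b (1 / (ξ : ℝ) ^ 2) (fun e => B e + W e) +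
      EZ ((m + 1) * (n + 2)) b (1 / (ξ : ℝ) ^ 2) B| ≤
      2 * (KL A c C * ((((m + 1) * (n + 2) : ℕ) : ℝ) / ξ) ^ 2 *
        Real.exp (-(c * κ / (4 * ξ))) * Real.exp (2 * (pr + 1))) + 8 * ω ^ 2 := by
  have hξ : 0 < ξ := by
    have := g.hA
    have := g.hAξ
    omega
  obtain ⟨η, F, hX⟩ := hB
  set X : GE ((m + 1) * (n + 2)) := (η, F) with hXd
  obtain ⟨XP, p1, p2, p3, -⟩ := gauge_in (L := R0 - 1) (by omega) w hP fun e he =>
    hP0 e (by omega)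
  obtain ⟨XW, w1, w2, w3⟩ := gauge_out (L := R0 + l + 1) w hW fun e he => hW0 e he
  have sP : Sup XP (ball w R0) := sup_in (by omega) p2 p3
  have sW : Sup XW (H474.Cb.Far w (R0 + l)) := sup_out le_rfl w2 w3
  have hXB : H817.eF X.1 X.2 = B := hX.symm
  have e10 : H817.eF (X + XP).1 (X + XP).2 = fun e => B e + P e := by
    funext e
    rw [eF_add2, hXB, ← p1]
  have e01 : H817.eF (X + XW).1 (X + XW).2 = fun e => B e + W e := by
    funext e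
    rw [eF_add2, hXB, ← w1]
  have e11 : H817.eF (X + XP + XW).1 (X + XP + XW).2 = fun e => B e + P e + W e := by
    funext e
    rw [eF_add2, e10, ← w1]
  have hω1 := hω.trans hω4
  have hom : omE (eS ((m + 1) * (n + 2))) (eT ((m + 1) * (n + 2))) (fun _ => wI b)
      ((1 / (ξ : ℝ) ^ 2) • (1 : Matrix _ _ ℝ)) =
      om0 ((m + 1) * (n + 2)) b ((1 / (ξ : ℝ) ^ 2) • (1 : Matrix _ _ ℝ)) := omE_torus
  have h := loc_pr hb hc hC H g w sP sW (hF X hXB) Pc hPc hPg (pr := pr + 1)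
    (pr_of hb hξ q00 hω1 hXB) (pr_of hb hξ q10 hω1 e10) (pr_of hb hξ q01 hω1 e01)
    (pr_of hb hξ q11 hω1 e11) (by rw [hom]; linarith) hη
  rw [hom] at h
  have hω0 : 0 ≤ om0 ((m + 1) * (n + 2)) b ((1 / (ξ : ℝ) ^ 2) • (1 : Matrix _ _ ℝ)) := by
    rw [← hom]
    have ht : 0 < 1 / (ξ : ℝ) ^ 2 := by positivity
    exact (edM_torus (N := (m + 1) * (n + 2)) hb (by
      rw [Matrix.transpose_smul, Matrix.transpose_one]) ht (H789.coer_smul _)).om_nonneg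
  have h2 : om0 ((m + 1) * (n + 2)) b ((1 / (ξ : ℝ) ^ 2) • (1 : Matrix _ _ ℝ)) ^ 2 ≤ ω ^ 2 :=
    pow_le_pow_left₀ hω0 hω 2
  rw [← e11, ← e10, ← e01, ← hXB, EZ_zN hb hξ, EZ_zN hb hξ, EZ_zN hb hξ, EZ_zN hb hξ]
  have e : Real.log (zN m n b ξ 0) - Real.log (zN m n b ξ (X + XP + XW)) -
      (Real.log (zN m n b ξ 0) - Real.log (zN m n b ξ (X + XP))) -
      (Real.log (zN m n b ξ 0) - Real.log (zN m n b ξ (X + XW))) +
      (Real.log (zN m n b ξ 0) - Real.log (zN m n b ξ X)) =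
      -(Real.log (zN m n b ξ (X + XP + XW)) - Real.log (zN m n b ξ (X + XP)) -
        Real.log (zN m n b ξ (X + XW)) + Real.log (zN m n b ξ X)) := by ring
  rw [e, abs_neg]
  linarith

end main

end

end Vale.Agent.P159.H612.LocK
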