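import Vale.Agent.P159.H612.LocK2

/-!
P159 / S (helper612): **LocK, part 3**: the data of a configuration of the class `KK`, and the free
zone.

* `PRS.mono` : the price for more points;
* `kk_data` : a configuration of the class has at most two points, its price, and is small and
  closed away from them;
* `free_zone` : eight points leave one of nine zones free.
-/

set_option linter.unusedSectionVars false

namespace Vale.Agent.P159.H612.LocK

open Finset
open Vale.Agent.P159.TM.Spec (V)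
open Vale.Agent.P159.H817
open Vale.Agent.P159.H37 (re Zn)
open Vale.Agent.P159.TM.SpecC (Tor)
open Vale.Agent.P159.H280.Hs (PRS PRK QBK GOKK cstK gokK_iff qbK_iff)

noncomputable section

section price

variable {K : ℕ} [NeZero K] {m n κ : ℕ} [NeZero ((m + 1) * 2)] {b t pr : ℝ}

/-- the price for more points -/
theorem PRS_mono {Pc Pc' : Finset (Tor K)} {β : V K × Bool → ℝ} (h : Pc' ⊆ Pc)
    (H : PRS m n κ b t Pc' β pr) : PRS m n κ b t Pc β pr := by
  intro Y hY
  obtain ⟨Q, q0, q1, q2⟩ := H Y hY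
  exact ⟨Q, q0, fun c s hs => q1 c s fun p hp => hs p (h hp), q2⟩

end price

/-- eight points leave one of nine zones free -/
theorem free_zone {α : Type*} (S : Finset α) (f : α → ℕ) (hS : S.card ≤ 8) (m u : ℕ) :
    ∃ j, j ≤ 8 ∧ ∀ p ∈ S, f p < m + 8 * u * j ∨ m + 8 * u * j + 8 * u ≤ f p := by
  classical
  by_contra hc
  push Not at hc
  have h : ∀ j : Fin 9, ∃ p ∈ S, m + 8 * u * j ≤ f p ∧ f p < m + 8 * u * j + 8 * u := by
    intro j
    exact hc j (by have := j.2; omega)
  choose φ h1 h2 using h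
  obtain ⟨i, -, j, -, hij, he⟩ := Finset.exists_ne_map_eq_of_card_lt_of_maps_to
    (s := (Finset.univ : Finset (Fin 9))) (t := S) (f := φ)
    (by rw [Finset.card_univ, Fintype.card_fin]; omega) (fun i _ => h1 i)
  have a := h2 i
  have b := h2 j
  rw [he] at a
  have key : ∀ i j : ℕ, i < j → 8 * u * i + 8 * u ≤ 8 * u * j := by
    intro i j hij
    calc 8 * u * i + 8 * u = 8 * u * (i + 1) := by ring
      _ ≤ 8 * u * j := Nat.mul_le_mul_left _ hij
  rcases lt_or_gt_of_ne (fun h => hij (Fin.ext h) : (i : ℕ) ≠ j) with h | h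
  · have := key _ _ h
    omega
  · have := key _ _ h
    omega

/-- the difference of two edge fields of the group -/
lemma EG_sub {N : ℕ} [NeZero N] {β β' : V N × Bool → ℝ} (h : EG β) (h' : EG β') :
    EG (fun e => β e - β' e) := by
  obtain ⟨η, F, rfl⟩ := h
  obtain ⟨η', F', rfl⟩ := h'
  refine ⟨η - η', F - F', ?_⟩
  funext ⟨x, c⟩
  unfold H817.eF
  simp only [gr_eq, Pi.sub_apply]
  push_cast
  ring

section data

variable {N : ℕ} [NeZero N] {mb nb κ : ℕ} [NeZero ((mb + 1) * 2)] {b t pr : ℝ}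

/-- the data of a configuration of the class -/
theorem kk_data {l r l0 : ℕ} {Λ : ℝ} {D0 D1 : Dec} (supp0 : ∀ F ∈ D0, SuppD l0 F)
    (supp1 : ∀ F ∈ D1, SuppD l0 F)
    (pr0 : ∀ g : V N → ℝ, GB (Λ / l) g → PRS mb nb κ b t (∅ : Finset (Tor N)) (H817.gr g) pr)
    (pr1 : ∀ F0 ∈ D0, ∀ F1 ∈ D1, ∀ (p q : V N) (g : V N → ℝ), H817.Far r p q → GB (Λ / l) g →
      PRS mb nb κ b t ({p, q} : Finset (Tor N)) (H817.cfg F0 F1 p q g) pr)
    {β : V N × Bool → ℝ} (hβ : H817.KK l r Λ D0 D1 β) : ∃ Pc : Finset (Tor N), Pc.card ≤ 2 ∧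
      PRS mb nb κ b t Pc β pr ∧ ∀ u : ℕ, l0 + 2 ≤ u → ∀ x : V N,
        (∀ z ∈ Pc, u ≤ sz (x - z)) →
        (∀ c, |β (x, c)| ≤ 1 / N + 4 * CG / (1 + u) + Λ / l) ∧ cu β x = 0 := by
  classical
  have hN := N_pos_real (N := N)
  have hC := CG_pos
  rcases hβ with ⟨g, hg, rfl⟩ | ⟨F0, h0, F1, h1, p, q, g, hf, hg, rfl⟩
  · refine ⟨∅, by simp, pr0 g hg, fun u _ x _ => ⟨fun c => ?_, cu_gr g x⟩⟩
    have h1 := hg (x, c)
    have h2 : (0 : ℝ) ≤ 1 / N + 4 * CG / (1 + u) := by positivity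
    linarith
  · refine ⟨{p, q}, Finset.card_le_two, pr1 F0 h0 F1 h1 p q g hf hg, fun u hu x hx => ?_⟩
    have hp : u ≤ sz (x - p) := hx p (by simp)
    have hq : u ≤ sz (x - q) := hx q (by simp)
    refine ⟨fun c => ?_, cu_cfg ?_ ?_⟩
    · unfold cfg
      rw [gr_dec_zero (supp0 F0 h0) c (by omega), gr_dec_zero (supp1 F1 h1) c (by omega), add_zero,
        add_zero]
      exact (abs_add_le _ _).trans (add_le_add (bD_le p q x c hp hq) (hg (x, c)))
    · rintro rfl
      rw [sub_self, sz_zero] at hp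
      omega
    · rintro rfl
      rw [sub_self, sz_zero] at hq
      omega

end data

end

end Vale.Agent.P159.H612.LocK
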