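import Vale.Agent.P159.H612.LocK3
import Vale.Agent.P159.H474.Fl1
import Vale.Agent.P159.H817.Id7

/-!
P159 / S (helper612): **LocK, part 4**: the field `loc` of helper817's `SysI` for the class `KK`.

* `epsL` : the error;
* `locK` : word for word the hypothesis `loc` of `sysI_rh` (any torus `N = (m + 1) (n + 2)`);
* `locD` : two real decorations (the hypotheses `hd`, `hd'` of helper817's `real_two`, `statz`).
-/

set_option linter.unusedSectionVars false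

namespace Vale.Agent.P159.H612.LocK

open Finset
open Vale.Agent.P159.TM.Spec (V)
open Vale.Agent.P159.H817
open Vale.Agent.P159.H37 (re Zn)
open Vale.Agent.P159.TM.SpecC (Tor)
open Vale.Agent.P159.H474.Cb (GE Sup LN Geo FltG KL zN fltG_of)
open Vale.Agent.P159.H280.Hs (PRS)

noncomputable section

/-- **the error of locality** -/
def epsL (N ξ A κ : ℕ) (c C pr ω : ℝ) : ℝ :=
  2 * (KL A c C * ((N : ℝ) / ξ) ^ 2 * Real.exp (-(c * κ / (4 * ξ))) * Real.exp (2 * (pr + 1))) +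
    8 * ω ^ 2

/-- one step: the free zone around `w`, for edge fields with at most two points each -/
theorem loc_zone {mb nb : ℕ} [NeZero ((mb + 1) * (nb + 2))] [NeZero ((mb + 1) * 2)] {b : ℝ}
    (hb : 0 < b) {ξ A κ l : ℕ} {L₀ c C : ℝ} (hc : 0 < c) (hC : 0 < C)
    (H : LN mb nb b hb ξ A L₀ c C) (g : Geo mb nb ξ A 8 κ (4 * (l / 100)) c)
    {pr ω S : ℝ}
    (hω : om0 ((mb + 1) * (nb + 2)) b ((1 / (ξ : ℝ) ^ 2) • (1 : Matrix _ _ ℝ)) ≤ ω)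
    (hω4 : ω ≤ 1 / 4)
    (hη : KL A c C * ((((mb + 1) * (nb + 2) : ℕ) : ℝ) / ξ) ^ 2 * Real.exp (-(c * κ / (4 * ξ))) *
      Real.exp (2 * (pr + 1)) ≤ 1 / 2)
    (w : V ((mb + 1) * (nb + 2))) {m : ℕ} (hmN : 2 * (m + l) ≤ (mb + 1) * (nb + 2))
    {B P W : V ((mb + 1) * (nb + 2)) × Bool → ℝ} (hB : EG B) (hP : EG P) (hW : EG W)
    {P0 P1 P2 P3 : Finset (Tor ((mb + 1) * (nb + 2)))} (k0 : P0.card ≤ 2) (k1 : P1.card ≤ 2)
    (k2 : P2.card ≤ 2) (k3 : P3.card ≤ 2)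
    (q00 : PRS mb nb κ b (1 / (ξ : ℝ) ^ 2) P0 B pr)
    (q10 : PRS mb nb κ b (1 / (ξ : ℝ) ^ 2) P1 (fun e => B e + P e) pr)
    (q01 : PRS mb nb κ b (1 / (ξ : ℝ) ^ 2) P2 (fun e => B e + W e) pr)
    (q11 : PRS mb nb κ b (1 / (ξ : ℝ) ^ 2) P3 (fun e => B e + P e + W e) pr)
    (hS0 : 0 ≤ S) (hS : S ≤ L₀ / ξ)
    (hfl : ∀ x : V ((mb + 1) * (nb + 2)), (∀ z ∈ P0, l / 100 ≤ sz (x - z)) →
      (∀ c, |B (x, c)| ≤ S) ∧ cu B x = 0)
    (hPs : ∀ e, P e ≠ 0 → sz (e.1 - w) ≤ m) (hWs : ∀ e, W e ≠ 0 → m + l ≤ sz (e.1 - w)) :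
    |EZ ((mb + 1) * (nb + 2)) b (1 / (ξ : ℝ) ^ 2) (fun e => B e + P e + W e) -
      EZ ((mb + 1) * (nb + 2)) b (1 / (ξ : ℝ) ^ 2) (fun e => B e + P e) -
      EZ ((mb + 1) * (nb + 2)) b (1 / (ξ : ℝ) ^ 2) (fun e => B e + W e) +
      EZ ((mb + 1) * (nb + 2)) b (1 / (ξ : ℝ) ^ 2) B| ≤
      epsL ((mb + 1) * (nb + 2)) ξ A κ c C pr ω := by
  classical
  have hξ : 0 < ξ := by
    have := g.hA
    have := g.hAξ
    omega
  have hξr : (0 : ℝ) < ξ := by exact_mod_cast hξ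
  have hL : 0 ≤ L₀ := by
    by_contra hc
    push Not at hc
    have := div_neg_of_neg_of_pos hc hξr
    linarith
  set u : ℕ := l / 100 with hu
  have hu1 : 1 ≤ u := by
    have h1 := g.hl
    omega
  have hul : 100 * u ≤ l := Nat.mul_div_le l 100
  set Pc : Finset (Tor ((mb + 1) * (nb + 2))) := P0 ∪ P1 ∪ P2 ∪ P3 with hPc
  have s0 : P0 ⊆ Pc := fun x hx => by simp [hPc, hx]
  have s1 : P1 ⊆ Pc := fun x hx => by simp [hPc, hx]
  have s2 : P2 ⊆ Pc := fun x hx => by simp [hPc, hx]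
  have s3 : P3 ⊆ Pc := fun x hx => by simp [hPc, hx]
  have hcard : Pc.card ≤ 8 := by
    have a1 := Finset.card_union_le P0 P1
    have a2 := Finset.card_union_le (P0 ∪ P1) P2
    have a3 := Finset.card_union_le (P0 ∪ P1 ∪ P2) P3
    rw [hPc]
    omega
  obtain ⟨j, hj, hz⟩ := free_zone Pc (fun z => sz (z - w)) hcard m u
  have hj1 : 8 * u * j ≤ 64 * u := by
    calc 8 * u * j ≤ 8 * u * 8 := Nat.mul_le_mul_left _ hj
      _ = 64 * u := by ring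
  set R0 : ℕ := m + 8 * u * j + 2 * u with hR0
  have hR1 : 1 ≤ R0 := by omega
  refine (locE hb hc hC H g w (R0 := R0) hR1 (by omega) hB hP hW (fun e he => ?_)
    (fun e he => ?_) (fun X hX => ?_) Pc hcard (fun p hp => ?_) (PRS_mono s0 q00)
    (PRS_mono s1 q10) (PRS_mono s2 q01) (PRS_mono s3 q11) hω hω4 hη).trans le_rfl
  · by_contra h
    have := hPs e h
    omega
  · by_contra h
    have := hWs e h
    omega
  · have h1 : ∀ x : V ((mb + 1) * (nb + 2)), R0 < sz (x - w) → sz (x - w) < R0 + 4 * u →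
        ∀ z ∈ P0, u ≤ sz (x - z) := by
      intro x hx1 hx2 z hz0
      have a1 := sz_add_le (x - z) (z - w)
      rw [sub_add_sub_cancel] at a1
      have a2 := sz_add_le (z - x) (x - w)
      rw [sub_add_sub_cancel, sz_sub_comm z x] at a2
      rcases hz z (s0 hz0) with h | h <;> omega
    have h2 := fltG_of (w := w) (R0 := R0) (l := 4 * u) (X := X) hS0
      (fun x c hx1 hx2 => by
        rw [hX]
        exact (hfl x (h1 x hx1 hx2)).1 c)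
      (fun x hx1 hx2 => by
        rw [hX]
        exact (hfl x (h1 x hx1 hx2)).2)
    intro s hs
    obtain ⟨v, v1, v2⟩ := h2 s hs
    refine ⟨v, v1, fun a c' a' c'' k h1 h2 h3 h4 h5 h6 h7 h8 =>
      (v2 a c' a' c'' k h1 h2 h3 h4 h5 h6 h7 h8).trans ?_⟩
    have h9 : 2 * S ≤ 2 * L₀ / ξ := by
      rw [mul_div_assoc]
      linarith
    exact mul_le_mul_of_nonneg_right h9 (Nat.cast_nonneg _)
  · rcases hz p hp with h | h
    · left
      omega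
    · right
      omega

/-- **locality for the class `KK`** : the hypothesis `loc` of `sysI_rh` -/
theorem locK {N : ℕ} [NeZero N] {mb nb : ℕ} [NeZero ((mb + 1) * (nb + 2))]
    [NeZero ((mb + 1) * 2)] (hN : (mb + 1) * (nb + 2) = N) {b : ℝ} (hb : 0 < b)
    {ξ A κ l r l0 : ℕ} {L₀ c C Λ pr ω : ℝ} {D0 D1 : Dec} (hc : 0 < c) (hC : 0 < C)
    (H : LN mb nb b hb ξ A L₀ c C) (g : Geo mb nb ξ A 8 κ (4 * (l / 100)) c)
    (hl0 : 100 * (l0 + 2) ≤ l) (hlr : 256 * l ≤ r) (hrN : 64 * r ≤ N) (hΛ : 0 ≤ Λ)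
    (hS : 1 / (N : ℝ) + 4 * CG / (1 + ((l / 100 : ℕ) : ℝ)) + Λ / l ≤ L₀ / ξ)
    (hω : om0 N b ((1 / (ξ : ℝ) ^ 2) • (1 : Matrix (V N) (V N) ℝ)) ≤ ω) (hω4 : ω ≤ 1 / 4)
    (hη : KL A c C * ((N : ℝ) / ξ) ^ 2 * Real.exp (-(c * κ / (4 * ξ))) *
      Real.exp (2 * (pr + 1)) ≤ 1 / 2)
    (supp0 : ∀ F ∈ D0, SuppD l0 F) (supp1 : ∀ F ∈ D1, SuppD l0 F)
    (pr0 : ∀ h : V N → ℝ, GB (Λ / l) h →
      PRS mb nb κ b (1 / (ξ : ℝ) ^ 2) (∅ : Finset (Tor N)) (H817.gr h) pr)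
    (pr1 : ∀ F0 ∈ D0, ∀ F1 ∈ D1, ∀ (p q : V N) (h : V N → ℝ), H817.Far r p q → GB (Λ / l) h →
      PRS mb nb κ b (1 / (ξ : ℝ) ^ 2) ({p, q} : Finset (Tor N)) (H817.cfg F0 F1 p q h) pr)
    (w : V N) (m : ℕ) (B P W : V N × Bool → ℝ) (hm : 8 * m ≤ r) (h00 : H817.KK l r Λ D0 D1 B)
    (h10 : H817.KK l r Λ D0 D1 (fun e => B e + P e))
    (h01 : H817.KK l r Λ D0 D1 (fun e => B e + W e))
    (h11 : H817.KK l r Λ D0 D1 (fun e => B e + P e + W e))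
    (hPs : ∀ e, P e ≠ 0 → sz (e.1 - w) ≤ m) (hWs : ∀ e, W e ≠ 0 → m + l ≤ sz (e.1 - w)) :
    |EZ N b (1 / (ξ : ℝ) ^ 2) (fun e => B e + P e + W e) -
      EZ N b (1 / (ξ : ℝ) ^ 2) (fun e => B e + P e) -
      EZ N b (1 / (ξ : ℝ) ^ 2) (fun e => B e + W e) + EZ N b (1 / (ξ : ℝ) ^ 2) B| ≤
      epsL N ξ A κ c C pr ω := by
  subst hN
  have hCG := CG_pos
  obtain ⟨P0, k0, q0, f0⟩ := kk_data supp0 supp1 pr0 pr1 h00
  obtain ⟨P1, k1, q1, -⟩ := kk_data supp0 supp1 pr0 pr1 h10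
  obtain ⟨P2, k2, q2, -⟩ := kk_data supp0 supp1 pr0 pr1 h01
  obtain ⟨P3, k3, q3, -⟩ := kk_data supp0 supp1 pr0 pr1 h11
  have eB := h00.eg
  have eP : EG P := by
    have h := EG_sub h10.eg eB
    have e : (fun e => B e + P e - B e) = P := by
      funext e
      ring
    rwa [e] at h
  have eW : EG W := by
    have h := EG_sub h01.eg eB
    have e : (fun e => B e + W e - B e) = W := by
      funext e
      ring
    rwa [e] at h
  refine loc_zone hb hc hC H g hω hω4 hη w (m := m) (by omega) eB eP eW k0 k1 k2 k3 q0 q1 q2 q3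
    (S := 1 / (((mb + 1) * (nb + 2) : ℕ) : ℝ) + 4 * CG / (1 + ((l / 100 : ℕ) : ℝ)) + Λ / l)
    (by positivity) hS (fun x hx => f0 (l / 100) (by omega) x hx) hPs hWs

lemma EZ_zero {N : ℕ} [NeZero N] (b : ℝ) {t : ℝ} (hb : 0 < b) (ht : 0 < t) :
    EZ N b t (0 : V N × Bool → ℝ) = 0 := by
  have h : 0 < ZE N b t (0 : V N × Bool → ℝ) := ZE_pos hb ht ⟨0, 0, H280.Hs.zero_eF⟩
  unfold EZ
  rw [div_self h.ne', Real.log_one, neg_zero]

/-- **two real decorations far from each other** : the hypotheses `hd`, `hd'` of `real_two` -/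
theorem locD {N : ℕ} [NeZero N] {mb nb : ℕ} [NeZero ((mb + 1) * (nb + 2))]
    [NeZero ((mb + 1) * 2)] (hN : (mb + 1) * (nb + 2) = N) {b : ℝ} (hb : 0 < b)
    {ξ A κ l l0 : ℕ} {L₀ c C pr ω : ℝ} (hc : 0 < c) (hC : 0 < C) (hL₀ : 0 ≤ L₀)
    (H : LN mb nb b hb ξ A L₀ c C) (g : Geo mb nb ξ A 8 κ (4 * (l / 100)) c)
    (hω : om0 N b ((1 / (ξ : ℝ) ^ 2) • (1 : Matrix (V N) (V N) ℝ)) ≤ ω) (hω4 : ω ≤ 1 / 4)
    (hη : KL A c C * ((N : ℝ) / ξ) ^ 2 * Real.exp (-(c * κ / (4 * ξ))) *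
      Real.exp (2 * (pr + 1)) ≤ 1 / 2)
    {F0 F1 : ℤ → ℤ → ℝ} (h0 : SuppD l0 F0) (h1 : SuppD l0 F1) {p q : V N}
    (hpq : 2 * (l0 + 1) + l ≤ sz (q - p)) (hN2 : 2 * (l0 + 1 + l) ≤ N)
    (q00 : PRS mb nb κ b (1 / (ξ : ℝ) ^ 2) ({p, q} : Finset (Tor N)) 0 pr)
    (q10 : PRS mb nb κ b (1 / (ξ : ℝ) ^ 2) ({p, q} : Finset (Tor N)) (H817.gr (dec F0 p)) pr)
    (q01 : PRS mb nb κ b (1 / (ξ : ℝ) ^ 2) ({p, q} : Finset (Tor N)) (H817.gr (dec F1 q)) pr)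
    (q11 : PRS mb nb κ b (1 / (ξ : ℝ) ^ 2) ({p, q} : Finset (Tor N))
      (H817.gr (edec F0 F1 p q)) pr) :
    |EZ N b (1 / (ξ : ℝ) ^ 2) (H817.gr (edec F0 F1 p q)) -
      EZ N b (1 / (ξ : ℝ) ^ 2) (H817.gr (dec F0 p)) -
      EZ N b (1 / (ξ : ℝ) ^ 2) (H817.gr (dec F1 q))| ≤ epsL N ξ A κ c C pr ω := by
  classical
  subst hN
  have hξ : 0 < ξ := by
    have := g.hA
    have := g.hAξ
    omega
  have hξr : (0 : ℝ) < ξ := by exact_mod_cast hξ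
  have hcard : ({p, q} : Finset (Tor ((mb + 1) * (nb + 2)))).card ≤ 2 := Finset.card_le_two
  have e1 : (fun e => (0 : V ((mb + 1) * (nb + 2)) × Bool → ℝ) e + H817.gr (dec F0 p) e) =
      H817.gr (dec F0 p) := by
    funext e
    rw [Pi.zero_apply, zero_add]
  have e2 : (fun e => (0 : V ((mb + 1) * (nb + 2)) × Bool → ℝ) e + H817.gr (dec F1 q) e) =
      H817.gr (dec F1 q) := by
    funext e
    rw [Pi.zero_apply, zero_add]
  have e3 : (fun e => (0 : V ((mb + 1) * (nb + 2)) × Bool → ℝ) e + H817.gr (dec F0 p) e +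
      H817.gr (dec F1 q) e) = H817.gr (edec F0 F1 p q) := by
    funext e
    rw [Pi.zero_apply, zero_add, gr_edec]
  have h := loc_zone hb hc hC H g hω hω4 hη p (m := l0 + 1) (l := l) hN2
    (B := 0) (P := H817.gr (dec F0 p)) (W := H817.gr (dec F1 q)) ⟨0, 0, H280.Hs.zero_eF⟩
    (EG.gr _) (EG.gr _) hcard hcard hcard hcard q00 (by rw [e1]; exact q10)
    (by rw [e2]; exact q01) (by rw [e3]; exact q11) (S := 0) le_rfl (by positivity)
    (fun x _ => ⟨fun c => by simp, by simp [cu]⟩) ?_ ?_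
  · rw [e1, e2, e3, EZ_zero b hb (by positivity), add_zero] at h
    exact h
  · rintro ⟨x, c⟩ hx
    by_contra hcn
    exact hx (gr_dec_zero h0 c (by simp only at hcn; omega))
  · rintro ⟨x, c⟩ hx
    by_contra hcn
    refine hx (gr_dec_zero h1 c ?_)
    simp only at hcn
    have g1 := sz_add_le (q - x) (x - p)
    rw [sub_add_sub_cancel, sz_sub_comm q x] at g1
    omega

end

end Vale.Agent.P159.H612.LocK
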