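import Vale.Agent.P159.TM.H265.Vt
import Vale.Agent.P159.H612.Local4

/-!
P159 / second order flow, module LOCAL (helper612): entrywise monotonicity of the covariance in the
mass. Inserting a nonnegative function of one height which is even and non-increasing in the
modulus lowers every entry of the covariance matrix (two copies, parity classes of 265).
-/

namespace Vale.Agent.P159.H612

open Filter Topology Finset
open Vale.Agent.P159.TM.H265 Vale.Agent.P159.TM.H708
open Vale.Agent.P159.T1.H934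
open Vale.Agent.P159.TM.H22 (bt bt_summable bt_nonneg tm_le phi_le)

/-- even functions which are nonnegative and non-increasing in the modulus -/
structure Ins (ψ : ℝ → ℝ) : Prop where
  /-- nonnegative -/
  nonneg : ∀ x, 0 ≤ ψ x
  /-- non-increasing in the modulus -/
  anti : ∀ x y, |x| ≤ |y| → ψ y ≤ ψ x

theorem Ins.even {ψ : ℝ → ℝ} (h : Ins ψ) (x : ℝ) : ψ (-x) = ψ x :=
  le_antisymm (h.anti _ _ (by rw [abs_neg])) (h.anti _ _ (by rw [abs_neg]))

theorem Ins.le {ψ : ℝ → ℝ} (h : Ins ψ) (x : ℝ) : ψ x ≤ ψ 0 :=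
  h.anti _ _ (by rw [abs_zero]; exact abs_nonneg _)

theorem Ins.abs_le {ψ : ℝ → ℝ} (h : Ins ψ) (x : ℝ) : |ψ x| ≤ ψ 0 := by
  rw [abs_of_nonneg (h.nonneg x)]
  exact h.le x

theorem ins_gauss {d : ℝ} (hd : 0 ≤ d) : Ins fun x => Real.exp (-(d / 2 * x ^ 2)) where
  nonneg _ := (Real.exp_pos _).le
  anti x y h := by
    have h1 := sq_le_sq.2 h
    exact Real.exp_le_exp.2 (by nlinarith)

section pairs

variable {V : Type}

open Classical in
/-- sum over the pairs of heights with an insertion at `p` -/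
theorem pair_ins {f g : (V → ℤ) → ℝ} (hf : Summable fun s => |f s|) (hg : Summable fun s => |g s|)
    (p : V) {ψ : ℝ → ℝ} (hψ : Ins ψ) :
    HasSum (fun c : ((V → ZMod 2) × ℤ) × ℤ =>
        cs p f c.1 * cs p g (c.1.1, c.2) * ψ (((c.1.2 : ℝ) - c.2) / 2))
      (∑' x : (V → ℤ) × (V → ℤ), f (x.1 + x.2) * g (x.1 - x.2) * ψ (x.2 p)) := by
  set G : (V → ℤ) × (V → ℤ) → ℝ := fun y =>
    if (∀ v, ((y.1 v : ℤ) : ZMod 2) = ((y.2 v : ℤ) : ZMod 2)) then
      f y.1 * g y.2 * ψ (((y.1 p : ℝ) - y.2 p) / 2) else 0 with hG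
  have hfg : Summable fun x : (V → ℤ) × (V → ℤ) => |f x.1| * |g x.2| :=
    hf.mul_of_nonneg hg (fun _ => abs_nonneg _) (fun _ => abs_nonneg _)
  have hGs : Summable G := by
    refine Summable.of_norm_bounded (hfg.mul_right (ψ 0)) fun x => ?_
    simp only [hG]
    split_ifs
    · rw [Real.norm_eq_abs, abs_mul, abs_mul]
      exact mul_le_mul_of_nonneg_left (hψ.abs_le _) (by positivity)
    · rw [norm_zero]
      exact mul_nonneg (by positivity) (hψ.nonneg _)
  have e1 : ∑' x : (V → ℤ) × (V → ℤ), f (x.1 + x.2) * g (x.1 - x.2) * ψ (x.2 p) =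
      ∑' y, G y := by
    rw [← (rot_inj (H := V → ℤ) two_inj).tsum_eq (f := G)]
    · refine tsum_congr fun x => ?_
      simp only [hG, rot]
      have hpar : ∀ v, (((x.1 + x.2) v : ℤ) : ZMod 2) = ((x.1 - x.2) v : ℤ) := by
        intro v
        rw [Pi.add_apply, Pi.sub_apply]
        push_cast
        have : ∀ a b : ZMod 2, a + b = a - b := by decide
        exact this _ _
      rw [if_pos hpar]
      congr 2
      simp only [Pi.add_apply, Pi.sub_apply]
      push_cast
      ring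
    · intro y hy
      have h3 : ∀ v, ((y.1 v : ℤ) : ZMod 2) = ((y.2 v : ℤ) : ZMod 2) := by
        by_contra hne
        exact hy (by simp only [hG]; rw [if_neg hne])
      have h4 : ∀ v, (2 : ℤ) ∣ y.1 v - y.2 v := fun v => zmod2_eq (h3 v)
      choose a ha using h4
      refine ⟨(y.2 + a, a), ?_⟩
      simp only [rot]
      ext v
      · simp only [Pi.add_apply]
        have := ha v
        omega
      · simp
  rw [e1]
  have h5 := hGs.hasSum.tsum_fiberwise fun y => (cls p y.1, y.2 p)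
  have e2 : ∀ c : ((V → ZMod 2) × ℤ) × ℤ,
      ∑' b : ((fun y : (V → ℤ) × (V → ℤ) => (cls p y.1, y.2 p)) ⁻¹' {c} : Set _), G b =
        cs p f c.1 * cs p g (c.1.1, c.2) * ψ (((c.1.2 : ℝ) - c.2) / 2) := by
    intro c
    have hf' : Summable fun s => (if cls p s = c.1 then f s else 0) := by
      refine Summable.of_norm_bounded hf fun s => ?_
      split_ifs
      · exact le_rfl
      · rw [norm_zero]; positivity
    have hg' : Summable fun s => (if cls p s = (c.1.1, c.2) then g s else 0) := by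
      refine Summable.of_norm_bounded hg fun s => ?_
      split_ifs
      · exact le_rfl
      · rw [norm_zero]; positivity
    have hfg' : Summable fun x : (V → ℤ) × (V → ℤ) =>
        (if cls p x.1 = c.1 then f x.1 else 0) *
          (if cls p x.2 = (c.1.1, c.2) then g x.2 else 0) := by
      refine Summable.of_norm_bounded hfg fun x => ?_
      rw [norm_mul]
      refine mul_le_mul ?_ ?_ (norm_nonneg _) (abs_nonneg _)
      · split_ifs
        · exact le_rfl
        · rw [norm_zero]; positivity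
      · split_ifs
        · exact le_rfl
        · rw [norm_zero]; positivity
    unfold cs
    rw [hf'.tsum_mul_tsum hg' hfg', ← tsum_mul_right,
      tsum_subtype (((fun y : (V → ℤ) × (V → ℤ) => (cls p y.1, y.2 p)) ⁻¹' {c})) G]
    refine tsum_congr fun y => ?_
    by_cases h1 : (cls p y.1, y.2 p) = c
    · have h1a : cls p y.1 = c.1 := congrArg Prod.fst h1
      have h1b : y.2 p = c.2 := congrArg Prod.snd h1
      rw [Set.indicator_of_mem (by simpa using h1), if_pos h1a]
      have k1 := cls_eq.1 h1a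
      simp only [hG]
      by_cases h2 : cls p y.2 = (c.1.1, c.2)
      · have k2 := cls_eq.1 h2
        rw [if_pos h2, if_pos fun v => (k1.1 v).trans (k2.1 v).symm, k1.2, h1b]
      · rw [if_neg h2, mul_zero, zero_mul, if_neg]
        intro h3
        refine h2 (cls_eq.2 ⟨fun v => (h3 v).symm.trans (k1.1 v), h1b⟩)
    · rw [Set.indicator_of_notMem (by simpa using h1)]
      by_cases h1a : cls p y.1 = c.1
      · have h2 : ¬ cls p y.2 = (c.1.1, c.2) := fun h2 =>
          h1 (Prod.ext h1a (cls_eq.1 h2).2)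
        rw [if_neg h2, mul_zero, zero_mul]
      · rw [if_neg h1a, zero_mul, zero_mul]
  simp only [e2] at h5
  exact h5

/-- the sign flip of the first value -/
def flp : ((V → ZMod 2) × ℤ) × ℤ ≃ ((V → ZMod 2) × ℤ) × ℤ where
  toFun c := ((c.1.1, -c.1.2), c.2)
  invFun c := ((c.1.1, -c.1.2), c.2)
  left_inv c := by simp
  right_inv c := by simp

/-- sign of the mean on a class -/
theorem cs_sgn {φ : (V → ℤ) → ℝ} (φ0 : ∀ s, 0 ≤ φ s) (φe : ∀ s, φ (-s) = φ s) (hc : CHol φ)
    (hs : Summable φ) {u : V} (hu : Summable fun s => |φ s * (s u : ℝ)|) (p : V)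
    (c : (V → ZMod 2) × ℤ) :
    (0 ≤ c.2 → 0 ≤ cs p (fun s => φ s * (s u : ℝ)) c) ∧
      (c.2 ≤ 0 → cs p (fun s => φ s * (s u : ℝ)) c ≤ 0) := by
  refine ⟨fun h => cs_nonneg φ0 φe hc hs hu p c h, fun h => ?_⟩
  have h1 := cs_nonneg φ0 φe hc hs hu p (c.1, -c.2) (by simpa using h)
  rw [cs_neg p c (fun s => by rw [φe, Pi.neg_apply]; push_cast; ring)] at h1
  linarith

theorem pair_ins_nonneg {φ : (V → ℤ) → ℝ} (φ0 : ∀ s, 0 ≤ φ s) (φe : ∀ s, φ (-s) = φ s)
    (hc : CHol φ) (hs : Summable φ) {u z : V} (hu : Summable fun s => |φ s * (s u : ℝ)|)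
    (hz : Summable fun s => |φ s * (s z : ℝ)|) (p : V) {ψ : ℝ → ℝ} (hψ : Ins ψ) :
    0 ≤ ∑' x : (V → ℤ) × (V → ℤ),
      φ (x.1 + x.2) * ((x.1 + x.2) u : ℝ) * (φ (x.1 - x.2) * ((x.1 - x.2) z : ℝ)) *
        ψ (x.2 p) := by
  have key := pair_ins hu hz p hψ
  have key2 := (Equiv.hasSum_iff (flp (V := V))).2 key
  have h := key.add key2
  have h0 := h.nonneg fun c => by
    simp only [Function.comp, flp, Equiv.coe_fn_mk]
    rw [cs_neg p c.1 (fun s => by rw [φe, Pi.neg_apply]; push_cast; ring)]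
    have e : ψ ((((-c.1.2 : ℤ) : ℝ) - c.2) / 2) = ψ (((c.1.2 : ℝ) + c.2) / 2) := by
      rw [← hψ.even]
      congr 1
      push_cast
      ring
    rw [e]
    have a := cs_sgn φ0 φe hc hs hu p c.1
    have b := cs_sgn φ0 φe hc hs hz p (c.1.1, c.2)
    simp only at b
    set A := cs p (fun s => φ s * (s u : ℝ)) c.1
    set B := cs p (fun s => φ s * (s z : ℝ)) (c.1.1, c.2)
    have e2 : A * B * ψ (((c.1.2 : ℝ) - c.2) / 2) + -A * B * ψ (((c.1.2 : ℝ) + c.2) / 2) =
        A * B * (ψ (((c.1.2 : ℝ) - c.2) / 2) - ψ (((c.1.2 : ℝ) + c.2) / 2)) := by ring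
    rw [e2]
    rcases le_total 0 c.1.2 with h1 | h1 <;> rcases le_total 0 c.2 with h2 | h2
    · have h1' : (0 : ℝ) ≤ c.1.2 := by exact_mod_cast h1
      have h2' : (0 : ℝ) ≤ c.2 := by exact_mod_cast h2
      have h3 := hψ.anti (((c.1.2 : ℝ) - c.2) / 2) (((c.1.2 : ℝ) + c.2) / 2) (by
        rw [abs_div, abs_div]
        refine div_le_div_of_nonneg_right ?_ (abs_nonneg _)
        rw [abs_of_nonneg (by linarith : (0 : ℝ) ≤ (c.1.2 : ℝ) + c.2), abs_le]
        constructor <;> linarith)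
      exact mul_nonneg (mul_nonneg (a.1 h1) (b.1 h2)) (by linarith)
    · have h1' : (0 : ℝ) ≤ c.1.2 := by exact_mod_cast h1
      have h2' : (c.2 : ℝ) ≤ 0 := by exact_mod_cast h2
      have h3 := hψ.anti (((c.1.2 : ℝ) + c.2) / 2) (((c.1.2 : ℝ) - c.2) / 2) (by
        rw [abs_div, abs_div]
        refine div_le_div_of_nonneg_right ?_ (abs_nonneg _)
        rw [abs_of_nonneg (by linarith : (0 : ℝ) ≤ (c.1.2 : ℝ) - c.2), abs_le]
        constructor <;> linarith)
      exact mul_nonneg_of_nonpos_of_nonpos (mul_nonpos_of_nonneg_of_nonpos (a.1 h1) (b.2 h2))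
        (by linarith)
    · have h1' : (c.1.2 : ℝ) ≤ 0 := by exact_mod_cast h1
      have h2' : (0 : ℝ) ≤ c.2 := by exact_mod_cast h2
      have h3 := hψ.anti (((c.1.2 : ℝ) + c.2) / 2) (((c.1.2 : ℝ) - c.2) / 2) (by
        rw [abs_div, abs_div]
        refine div_le_div_of_nonneg_right ?_ (abs_nonneg _)
        rw [abs_of_nonpos (by linarith : (c.1.2 : ℝ) - c.2 ≤ 0), abs_le]
        constructor <;> linarith)
      exact mul_nonneg_of_nonpos_of_nonpos (mul_nonpos_of_nonpos_of_nonneg (a.2 h1) (b.1 h2))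
        (by linarith)
    · have h1' : (c.1.2 : ℝ) ≤ 0 := by exact_mod_cast h1
      have h2' : (c.2 : ℝ) ≤ 0 := by exact_mod_cast h2
      have h3 := hψ.anti (((c.1.2 : ℝ) - c.2) / 2) (((c.1.2 : ℝ) + c.2) / 2) (by
        rw [abs_div, abs_div]
        refine div_le_div_of_nonneg_right ?_ (abs_nonneg _)
        rw [abs_of_nonpos (by linarith : (c.1.2 : ℝ) + c.2 ≤ 0), abs_le]
        constructor <;> linarith)
      exact mul_nonneg (mul_nonneg_of_nonpos_of_nonpos (a.2 h1) (b.2 h2)) (by linarith)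
  linarith

end pairs

section core

variable {V : Type} [Fintype V] {E : Type} [Fintype E] (D : (V → ℤ) →+ (E → ℤ)) {J : E → ℝ}

theorem ins_core (hD : Lat D) (hJ : ∀ e, 0 ≤ J e) {g : (V → ℤ) → ℝ} (g0 : ∀ s, 0 ≤ g s)
    (ge : ∀ s, g (-s) = g s) (gc : CHol g) (hs : Summable g) {u z : V}
    (hu : Summable fun s => |g s * (s u : ℝ)|) (hz : Summable fun s => |g s * (s z : ℝ)|)
    (p : V) {ψ : ℝ → ℝ} (hψ : Ins ψ) :
    0 ≤ ∑' x : (V → ℤ) × (V → ℤ), W D J x.1 * W D J x.2 *
      ((g (x.1 + x.2) * ((x.1 + x.2) u : ℝ)) * (g (x.1 - x.2) * ((x.1 - x.2) z : ℝ)) *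
        ψ (x.2 p)) := by
  have hK : ∀ e : E, 0 ≤ (0 : E → ℝ) e := fun _ => le_rfl
  have hb := bt_summable hJ hK
  have hψ0 := hψ.nonneg 0
  have hp : Summable fun x : (V → ℤ) × (V → ℤ) =>
      |g (x.1 + x.2) * ((x.1 + x.2) u : ℝ)| * |g (x.1 - x.2) * ((x.1 - x.2) z : ℝ)| * ψ 0 := by
    have h1 : Summable fun x : (V → ℤ) × (V → ℤ) => |g x.1 * (x.1 u : ℝ)| * |g x.2 * (x.2 z : ℝ)| :=
      hu.mul_of_nonneg hz (fun _ => abs_nonneg _) (fun _ => abs_nonneg _)
    have h3 := h1.comp_injective (rot_inj (H := V → ℤ) two_inj)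
    refine (h3.congr fun x => ?_).mul_right _
    simp only [Function.comp, rot]
  set A : (V → ℤ) × (V → ℤ) → ℝ := fun x =>
    (g (x.1 + x.2) * ((x.1 + x.2) u : ℝ)) * (g (x.1 - x.2) * ((x.1 - x.2) z : ℝ)) *
        ψ (x.2 p) with hA
  have hAle : ∀ x, |A x| ≤
      |g (x.1 + x.2) * ((x.1 + x.2) u : ℝ)| * |g (x.1 - x.2) * ((x.1 - x.2) z : ℝ)| * ψ 0 := by
    intro x
    simp only [hA]
    rw [abs_mul, abs_mul]
    exact mul_le_mul_of_nonneg_left (hψ.abs_le _) (by positivity)
  set F : (E → ℕ × ℕ) × ((V → ℤ) × (V → ℤ)) → ℝ := fun y => tm D J 0 y.1 y.2 * A y.2 with hF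
  have hFs : Summable F := by
    have h1 : Summable fun y : (E → ℕ × ℕ) × ((V → ℤ) × (V → ℤ)) =>
        bt J 0 y.1 * (|g (y.2.1 + y.2.2) * ((y.2.1 + y.2.2) u : ℝ)| *
          |g (y.2.1 - y.2.2) * ((y.2.1 - y.2.2) z : ℝ)| * ψ 0) :=
      hb.mul_of_nonneg hp (fun i => bt_nonneg hJ hK i) (fun _ => by positivity)
    refine Summable.of_norm_bounded h1 fun y => ?_
    simp only [hF]
    rw [Real.norm_eq_abs, abs_mul]
    exact mul_le_mul (tm_le hJ hK (fun h => D h) y.1 y.2) (hAle y.2) (abs_nonneg _)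
      (bt_nonneg hJ hK _)
  have e1 : ∀ x : (V → ℤ) × (V → ℤ), ∑' i : E → ℕ × ℕ, F (i, x) = W D J x.1 * W D J x.2 * A x := by
    intro x
    simp only [hF]
    rw [tsum_mul_right]
    congr 1
    have := tm_sum (fun h => D h) hJ hK x
    rw [add_zero] at this
    exact this
  rw [← tsum_congr e1, Summable.tsum_comm (f := fun i x => F (i, x)) hFs]
  refine tsum_nonneg fun i => ?_
  by_cases hi : ∃ e, (i e).2 ≠ 0
  · obtain ⟨e, he⟩ := hi
    have h0 : ∀ x, F (i, x) = 0 := by
      intro x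
      simp only [hF]
      have : tm (fun h => D h) J 0 i x = 0 := by
        unfold tm
        refine Finset.prod_eq_zero (Finset.mem_univ e) ?_
        unfold kt
        simp only [Pi.zero_apply]
        rw [cc_zero_of _ _ he, zero_mul]
      rw [this, zero_mul]
    simp [h0]
  · push Not at hi
    set φ : (V → ℤ) → ℝ := fun s => (∏ e, T1.H934.phi 0 (i e).1 (D s e)) * g s with hφ
    have p0 : ∀ s, 0 ≤ ∏ e, T1.H934.phi 0 (i e).1 (D s e) := fun s =>
      Finset.prod_nonneg fun e _ => phi_nonneg _ _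
    have φ0 : ∀ s, 0 ≤ φ s := fun s => mul_nonneg (p0 s) (g0 s)
    have φe : ∀ s, φ (-s) = φ s := by
      intro s
      simp only [hφ]
      rw [ge]
      congr 1
      refine Finset.prod_congr rfl fun e _ => ?_
      rw [map_neg, Pi.neg_apply, phi_neg]
      ring
    have φc : CHol φ := by
      refine CHol.mul (CHol.prod (fun e _ => hD e (i e).1) fun e _ x => phi_nonneg _ _) gc p0 g0
    have hM : ∀ s, (∏ e, T1.H934.phi 0 (i e).1 (D s e)) ≤ ∏ e, (2 : ℝ) ^ ((i e).1 + 0) := fun s =>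
      Finset.prod_le_prod (fun e _ => phi_nonneg _ _) fun e _ =>
        (le_abs_self _).trans (phi_le _ _ _)
    set M : ℝ := ∏ e, (2 : ℝ) ^ ((i e).1 + 0) with hMd
    have M0 : 0 ≤ M := (p0 0).trans (hM 0)
    have φs : Summable φ := Summable.of_nonneg_of_le φ0
      (fun s => mul_le_mul_of_nonneg_right (hM s) (g0 s)) (hs.mul_left M)
    have φm : ∀ {v : V}, (Summable fun s => |g s * (s v : ℝ)|) →
        Summable fun s => |φ s * (s v : ℝ)| := by
      intro v hv
      refine Summable.of_nonneg_of_le (fun _ => abs_nonneg _) (fun s => ?_) (hv.mul_left M)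
      have : φ s * (s v : ℝ) = (∏ e, T1.H934.phi 0 (i e).1 (D s e)) * (g s * (s v : ℝ)) := by
        simp only [hφ]; ring
      rw [this, abs_mul, abs_of_nonneg (p0 s)]
      exact mul_le_mul_of_nonneg_right (hM s) (abs_nonneg _)
    have hnn := pair_ins_nonneg φ0 φe φc φs (φm hu) (φm hz) p hψ
    have e3 : ∀ x : (V → ℤ) × (V → ℤ), F (i, x) = (∏ e, cc (J e) 0 (i e)) *
        (φ (x.1 + x.2) * ((x.1 + x.2) u : ℝ) * (φ (x.1 - x.2) * ((x.1 - x.2) z : ℝ)) *
          ψ (x.2 p)) := by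
      intro x
      simp only [hF, hA, hφ]
      have h5 : tm (fun h => D h) J 0 i x = (∏ e, cc (J e) 0 (i e)) *
          ((∏ e, T1.H934.phi 0 (i e).1 (D (x.1 + x.2) e)) *
            ∏ e, T1.H934.phi 0 (i e).1 (D (x.1 - x.2) e)) := by
        unfold tm kt
        rw [← Finset.prod_mul_distrib, ← Finset.prod_mul_distrib]
        refine Finset.prod_congr rfl fun e _ => ?_
        simp only [Pi.zero_apply]
        rw [hi e, map_add, map_sub, Pi.add_apply, Pi.sub_apply]
      rw [h5]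
      ring
    rw [tsum_congr e3, tsum_mul_left]
    exact mul_nonneg (Finset.prod_nonneg fun e _ => cc_nonneg (hJ e) le_rfl _) hnn

end core

section model

variable {V : Type} [Fintype V] {E : Type} [Fintype E] {D : (V → ℤ) →+ (E → ℤ)} {J : E → ℝ}
  {m m' : V → ℝ} {X : Set V}

/-- insertions are admissible functions -/
theorem gr_ins {ψ : ℝ → ℝ} (hψ : Ins ψ) (p : V) : Gr fun h : V → ℤ => ψ (h p) :=
  Gr.of_bdd fun _ => hψ.abs_le _

/-- **one insertion**: an even function of one height, non-increasing in the modulus, lowers every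
entry of the covariance -/
theorem entry_ins (hL : Lat D) (hJ : ∀ e, 0 ≤ J e) (hm : ∀ x, 0 < m x) (X : Set V) (p u z : V)
    {ψ : ℝ → ℝ} (hψ : Ins ψ) :
    SS D J m X (fun h => (h u : ℝ) * (h z : ℝ) * ψ (h p)) * SS D J m X (fun _ => 1) ≤
      SS D J m X (fun h => (h u : ℝ) * (h z : ℝ)) * SS D J m X fun h => ψ (h p) := by
  set g : (V → ℤ) → ℝ := fun s => ga (fun x => m x / 2) s * iX X s with hg
  have g0 : ∀ s, 0 ≤ g s := fun s => mul_nonneg (ga_pos _ s).le (iX_nonneg X s)
  have ge : ∀ s, g (-s) = g s := fun s => by simp only [hg]; rw [ga_even, iX_even]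
  have gc : CHol g := CHol.mul (chol_ga _) (chol_iX X) (fun s => (ga_pos _ s).le) (iX_nonneg X)
  have gs : Summable g := by
    have := summable_half hm X (Gr.one (V := V))
    simp only [mul_one] at this
    exact this.of_abs
  have h1 := ins_core D hL hJ g0 ge gc gs (summable_half hm X (gr_at u))
    (summable_half hm X (gr_at z)) p hψ
  have h2 := ins_core D hL hJ g0 ge gc gs (summable_half hm X (gr_at z))
    (summable_half hm X (gr_at u)) p hψ
  -- the products
  have gψ := gr_ins (V := V) hψ p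
  have a1 := bw_summable (D := D) (X := X) hJ hm (Gr.one (V := V))
  have aG := bw_summable (D := D) (X := X) hJ hm (gr_at2 u z)
  have b1 := bw_summable (D := D) (X := X) hJ hm gψ
  have bG := bw_summable (D := D) (X := X) hJ hm ((gr_at2 u z).mul gψ)
  have k1 := (hasSum_mul_pair aG b1).sub (hasSum_mul_pair a1 bG)
  have key : ∀ x : (V → ℤ) × (V → ℤ), ∀ v w : V, W D J x.1 * W D J x.2 *
      ((g (x.1 + x.2) * ((x.1 + x.2) v : ℝ)) * (g (x.1 - x.2) * ((x.1 - x.2) w : ℝ)) *
        ψ (x.2 p)) = bw D J m X x.1 * (bw D J m X x.2 * ψ (x.2 p)) *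
        (((x.1 v : ℝ) + x.2 v) * ((x.1 w : ℝ) - x.2 w)) := by
    intro x v w
    have e1 := ga_split m x.1 x.2
    have e2 := iX_split X x.1 x.2
    unfold bw
    simp only [hg, Pi.add_apply, Pi.sub_apply]
    push_cast
    have e3 : ga (fun x => m x / 2) (x.1 + x.2) * iX X (x.1 + x.2) *
        (ga (fun x => m x / 2) (x.1 - x.2) * iX X (x.1 - x.2)) =
        (ga m x.1 * iX X x.1) * (ga m x.2 * iX X x.2) := by
      calc _ = (ga (fun x => m x / 2) (x.1 + x.2) * ga (fun x => m x / 2) (x.1 - x.2)) *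
          (iX X (x.1 + x.2) * iX X (x.1 - x.2)) := by ring
        _ = _ := by rw [← e1, ← e2]; ring
    linear_combination (W D J x.1 * W D J x.2 * (((x.1 v : ℝ) + x.2 v) * ((x.1 w : ℝ) - x.2 w)) *
      ψ (x.2 p)) * e3
  simp only [key] at h1 h2
  have c1 := bw_summable (D := D) (X := X) hJ hm (gr_at u)
  have c2 := bw_summable (D := D) (X := X) hJ hm (gr_at z)
  have d1 := bw_summable (D := D) (X := X) hJ hm ((gr_at u).mul gψ)
  have d2 := bw_summable (D := D) (X := X) hJ hm ((gr_at z).mul gψ)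
  have s1 : Summable fun x : (V → ℤ) × (V → ℤ) => bw D J m X x.1 * (bw D J m X x.2 * ψ (x.2 p)) *
        (((x.1 u : ℝ) + x.2 u) * ((x.1 z : ℝ) - x.2 z)) := by
    have := (((hasSum_mul_pair aG b1).sub (hasSum_mul_pair a1 bG)).add
      (hasSum_mul_pair c2 d1)).sub (hasSum_mul_pair c1 d2)
    refine this.summable.congr fun x => ?_
    ring
  have s2 : Summable fun x : (V → ℤ) × (V → ℤ) => bw D J m X x.1 * (bw D J m X x.2 * ψ (x.2 p)) *
        (((x.1 z : ℝ) + x.2 z) * ((x.1 u : ℝ) - x.2 u)) := by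
    have := (((hasSum_mul_pair aG b1).sub (hasSum_mul_pair a1 bG)).add
      (hasSum_mul_pair c1 d2)).sub (hasSum_mul_pair c2 d1)
    refine this.summable.congr fun x => ?_
    ring
  have h3 := add_nonneg h1 h2
  rw [← s1.tsum_add s2] at h3
  have h4 : ∑' x : (V → ℤ) × (V → ℤ), (bw D J m X x.1 * (bw D J m X x.2 * ψ (x.2 p)) *
        (((x.1 u : ℝ) + x.2 u) * ((x.1 z : ℝ) - x.2 z)) +
        bw D J m X x.1 * (bw D J m X x.2 * ψ (x.2 p)) *
        (((x.1 z : ℝ) + x.2 z) * ((x.1 u : ℝ) - x.2 u))) =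
      2 * (SS D J m X (fun h => (h u : ℝ) * (h z : ℝ)) * SS D J m X (fun h => ψ (h p)) -
        SS D J m X (fun _ => 1) * SS D J m X (fun h => (h u : ℝ) * (h z : ℝ) * ψ (h p))) := by
    unfold SS
    rw [← (k1.mul_left 2).tsum_eq]
    refine tsum_congr fun x => ?_
    ring
  rw [h4] at h3
  linarith

theorem bw_upd [DecidableEq V] (p : V) {d : ℝ} (h : V → ℤ) :
    bw D J (m + Pi.single p d) X h = bw D J m X h * Real.exp (-(d / 2 * (h p : ℝ) ^ 2)) := by
  unfold bw
  have e : ga (m + Pi.single p d) h = ga m h * Real.exp (-(d / 2 * (h p : ℝ) ^ 2)) := by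
    unfold ga
    rw [← Real.exp_add, ← neg_add]
    congr 2
    have e1 : ∀ x : V, (m + Pi.single p d : V → ℝ) x / 2 * (h x : ℝ) ^ 2 =
        m x / 2 * (h x : ℝ) ^ 2 + (if x = p then d / 2 * (h p : ℝ) ^ 2 else 0) := by
      intro x
      rw [Pi.add_apply, Pi.single_apply]
      split_ifs with hx
      · rw [hx]
        ring
      · ring
    simp only [e1, Finset.sum_add_distrib, Finset.sum_ite_eq', Finset.mem_univ, if_true]
  rw [e]
  ring

/-- one mass is raised -/
theorem cv_upd_le [DecidableEq V] (hL : Lat D) (hJ : ∀ e, 0 ≤ J e) (hm : ∀ x, 0 < m x)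
    (X : Set V) (p : V) {d : ℝ} (hd : 0 ≤ d) (u z : V) :
    Cv D J (m + Pi.single p d) X u z ≤ Cv D J m X u z := by
  have hm' : ∀ x, 0 < (m + Pi.single p d : V → ℝ) x := by
    intro x
    rw [Pi.add_apply, Pi.single_apply]
    have := hm x
    split_ifs <;> linarith
  unfold Cv
  rw [div_le_div_iff₀ (SS_one_pos D hJ hm' _) (SS_one_pos D hJ hm _)]
  have h1 := entry_ins hL hJ hm X p u z (ins_gauss hd)
  have e1 : SS D J (m + Pi.single p d) X (fun h => (h u : ℝ) * (h z : ℝ)) =
      SS D J m X (fun h => (h u : ℝ) * (h z : ℝ) * Real.exp (-(d / 2 * (h p : ℝ) ^ 2))) := by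
    unfold SS
    refine tsum_congr fun h => ?_
    rw [bw_upd]
    ring
  have e2 : SS D J (m + Pi.single p d) X (fun _ => 1) =
      SS D J m X (fun h => Real.exp (-(d / 2 * (h p : ℝ) ^ 2))) := by
    unfold SS
    refine tsum_congr fun h => ?_
    rw [bw_upd]
    ring
  rw [e1, e2]
  exact h1

/-- **entrywise monotonicity in the masses** -/
theorem cv_mass_mono (hL : Lat D) (hJ : ∀ e, 0 ≤ J e) (hm : ∀ x, 0 < m x) (h : ∀ x, m x ≤ m' x)
    (X : Set V) (u z : V) : Cv D J m' X u z ≤ Cv D J m X u z := by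
  classical
  have key : ∀ S : Finset V, Cv D J (m + ∑ p ∈ S, Pi.single p (m' p - m p)) X u z ≤
      Cv D J m X u z := by
    intro S
    induction S using Finset.induction_on with
    | empty => simp
    | insert a S ha ih =>
      rw [Finset.sum_insert ha, add_comm (Pi.single a (m' a - m a) : V → ℝ), ← add_assoc]
      refine (cv_upd_le hL hJ ?_ X a (by linarith [h a]) u z).trans ih
      intro x
      rw [Pi.add_apply, Finset.sum_apply]
      have h1 : 0 ≤ ∑ c ∈ S, (Pi.single c (m' c - m c) : V → ℝ) x := by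
        refine Finset.sum_nonneg fun c _ => ?_
        rw [Pi.single_apply]
        have := h c
        split_ifs <;> linarith
      linarith [hm x]
  have e : m' = m + ∑ p, Pi.single p (m' p - m p) := by
    funext x
    rw [Pi.add_apply, Finset.sum_apply]
    simp only [Pi.single_apply, Finset.sum_ite_eq, Finset.mem_univ, if_true]
    ring
  rw [e]
  exact key _

end model

end Vale.Agent.P159.H612
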