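import Vale.Agent.P159.H612.MeanD

/-!
P159 / S (helper612): **moments of a linear functional under a dislocated law, with the exact
variance** (row 6708, corrected).  `X = (b; J)` any data of a dislocation family, `u` a source.

* `prod_cs` : `2 (L(X + v) + L(X - v)) ≤ L(2X) + L(2v) + 2 L(0)`, `L = log Z` (Gram kernel);
* `mom_exp` : `E^X e^{±λ s (u - m)} ≤ e` with `λ = 1 / (1 + K)`,
  `K = (4 E(X) - E(2X)) / 2 + (log E⁰ e^{2 s u}) / 2`;
* `mom4` : `E^X (u - m)⁴ ≤ 48 e ((1 + K) / s)⁴`, `mom8` : zero data, eighth moment.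
So crude numbers (`E(X)`) enter only polynomially, and rough sources only through
`log E⁰ e^{2 s u}` (variance and second order remainder at zero data).
-/

set_option linter.unusedSectionVars false

namespace Vale.Agent.P159.H612

open Real Finset Filter Topology
open Vale.Agent.P159.TM.H104 (EM T Ex Cv Lg li nh Gr)
open Vale.Agent.P159.H37
open Vale.Agent.P159.H770

section family

variable {B V : Type} [AddCommGroup B] [Fintype V] {W : B → (V → ℤ) → ℝ}

/-- **the product bound** -/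
theorem prod_cs (hW : DisF W) (b : B) (J v : V → ℝ) :
    2 * (Lg (W b) (J + v) + Lg (W b) (J - v)) ≤
      Lg (W (b + b)) (J + J) + Lg (W 0) (v + v) + 2 * Lg (W 0) 0 := by
  set x : B × (V → ℝ) := (b, J) with hx
  set y : B × (V → ℝ) := (0, v) with hy
  have hs : ∀ a c, kp (ZB W) (ZB W) a c = kp (ZB W) (ZB W) c a := kp_symm hW.negB
  have key : ∀ c d : ℝ, 0 ≤ c ^ 2 * kp (ZB W) (ZB W) x x +
      2 * (c * d * kp (ZB W) (ZB W) x y) + d ^ 2 * kp (ZB W) (ZB W) y y := by
    intro c d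
    have h1 := hW.psdk 2 ![x, y] ![c, d]
    simp only [Fin.sum_univ_two, Matrix.cons_val_zero, Matrix.cons_val_one] at h1
    have h2 : H789.kk (ZB W) = kp (ZB W) (ZB W) := rfl
    rw [h2, hs y x] at h1
    linarith
  have h1 := H789.disc key
  have p1 := hW.pos b (J + v)
  have p2 := hW.pos b (J - v)
  have p3 := hW.pos 0 0
  have p4 := hW.pos (b + b) (J + J)
  have p5 := hW.pos 0 (v + v)
  have e1 : kp (ZB W) (ZB W) x y = Zs (W b) (J + v) * Zs (W b) (J - v) := by
    simp only [kp, ZB, hx, hy, Prod.mk_add_mk, Prod.mk_sub_mk, add_zero, sub_zero]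
  have e2 : kp (ZB W) (ZB W) x x = Zs (W (b + b)) (J + J) * Zs (W 0) 0 := by
    simp only [kp, ZB, hx, Prod.mk_add_mk, sub_self, Prod.fst_zero, Prod.snd_zero]
  have e3 : kp (ZB W) (ZB W) y y = Zs (W 0) (v + v) * Zs (W 0) 0 := by
    simp only [kp, ZB, hy, Prod.mk_add_mk, sub_self, Prod.fst_zero, Prod.snd_zero, add_zero]
  rw [e1, e2, e3] at h1
  have h2 := Real.log_le_log (by positivity) h1
  rw [Real.log_pow, Real.log_mul p1.ne' p2.ne', Real.log_mul (by positivity) (by positivity),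
    Real.log_mul p4.ne' p3.ne', Real.log_mul p5.ne' p3.ne'] at h2
  push_cast at h2
  have e : ∀ b : B, ∀ J : V → ℝ, Lg (W b) J = Real.log (Zs (W b) J) := fun _ _ => rfl
  rw [e, e, e, e, e]
  linarith

/-- exponential moments as ratios -/
theorem Ex_exp {μ : (V → ℤ) → ℝ} (hμ : EM μ) (J v : V → ℝ) :
    Ex μ J (fun h => Real.exp (li v h)) = Real.exp (Lg μ (J + v) - Lg μ J) := by
  have h1 : TM.H104.T μ J (fun h => Real.exp (li v h)) = TM.H104.T μ (J + v) fun _ => 1 := by
    unfold TM.H104.T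
    refine tsum_congr fun h => ?_
    rw [TM.H104.li_add, Real.exp_add]
    ring
  have p1 := TM.H104.T_one_pos hμ (J + v)
  have p2 := TM.H104.T_one_pos hμ J
  unfold TM.H104.Ex
  rw [h1, Real.exp_sub]
  unfold TM.H104.Lg
  rw [Real.exp_log p1, Real.exp_log p2]

/-- Jensen -/
theorem lg_tan {μ : (V → ℤ) → ℝ} (hμ : EM μ) (J v : V → ℝ) :
    Ex μ J (li v) ≤ Lg μ (J + v) - Lg μ J := by
  have h1 := Ex_exp hμ J v
  set m := Ex μ J (li v) with hm
  have h2 : Real.exp m * (1 - m) + Real.exp m * m ≤ Ex μ J fun h => Real.exp (li v h) := by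
    have h3 := TM.H104.Ex_mono hμ (((Gr.const (Real.exp m * (1 - m))).add
      ((Gr.li v).cmul (Real.exp m)))) (Gr.exp_li v) (fun h => by
        have h4 := Real.add_one_le_exp (li v h - m)
        have h5 : Real.exp (li v h) = Real.exp m * Real.exp (li v h - m) := by
          rw [← Real.exp_add]
          congr 1
          ring
        rw [h5]
        have h6 := mul_le_mul_of_nonneg_left h4 (Real.exp_pos m).le
        linarith) J
    rw [TM.H104.Ex_add hμ (Gr.const _) ((Gr.li v).cmul _), TM.H104.Ex_const hμ,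
      TM.H104.Ex_cmul] at h3
    exact h3
  have h3 : Real.exp m ≤ Real.exp (Lg μ (J + v) - Lg μ J) := by
    rw [← h1]
    linarith
  exact Real.exp_le_exp.1 h3

/-- convexity along a ray from `J` -/
theorem lg_ray {μ : (V → ℤ) → ℝ} (hμ : EM μ) (J v : V → ℝ) {l : ℝ} (h0 : 0 ≤ l) (h1 : l ≤ 1) :
    Lg μ (J + l • v) - Lg μ J ≤ l * (Lg μ (J + v) - Lg μ J) := by
  set c := Lg μ (J + v) - Lg μ J with hc
  have e1 := Ex_exp hμ J v
  have e2 := Ex_exp hμ J (l • v)
  rw [← hc] at e1
  have h2 := TM.H104.Ex_mono hμ (Gr.exp_li (l • v))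
    ((Gr.const (Real.exp (l * c) * (1 - l))).add
      ((Gr.exp_li v).cmul (Real.exp (l * c) * l * Real.exp (-c)))) (fun h => by
      have h3 := (convexOn_exp.2 (Set.mem_univ (li v h - c)) (Set.mem_univ 0) h0
        (by linarith : 0 ≤ 1 - l) (by ring))
      simp only [smul_eq_mul, mul_zero, add_zero, Real.exp_zero, mul_one] at h3
      have h5 : Real.exp (li (l • v) h) = Real.exp (l * c) * Real.exp (l * (li v h - c)) := by
        rw [← Real.exp_add, TM.H104.li_smul]
        congr 1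
        ring
      have h6 : Real.exp (li v h - c) = Real.exp (-c) * Real.exp (li v h) := by
        rw [← Real.exp_add]
        congr 1
        ring
      rw [h5]
      rw [h6] at h3
      have h7 := mul_le_mul_of_nonneg_left h3 (Real.exp_pos (l * c)).le
      refine h7.trans (le_of_eq ?_)
      ring) J
  rw [TM.H104.Ex_add hμ (Gr.const _) ((Gr.exp_li v).cmul _), TM.H104.Ex_const hμ,
    TM.H104.Ex_cmul, e1, e2] at h2
  have h3 : Real.exp (l * c) * (1 - l) + Real.exp (l * c) * l * Real.exp (-c) * Real.exp c =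
      Real.exp (l * c) := by
    have : Real.exp (-c) * Real.exp c = 1 := by
      rw [← Real.exp_add]
      simp
    calc _ = Real.exp (l * c) * (1 - l) + Real.exp (l * c) * l * (Real.exp (-c) * Real.exp c) := by
          ring
      _ = _ := by
          rw [this]
          ring
  rw [h3] at h2
  exact Real.exp_le_exp.1 h2

/-- the centred exponential moment at the reduced scale -/
theorem mom_exp (hW : DisF W) (b : B) (J u : V → ℝ) {s T r : ℝ}
    (hT : Lg (W (b + b)) (J + J) + 3 * Lg (W 0) 0 - 4 * Lg (W b) J ≤ T)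
    (hr : Lg (W 0) ((2 * s) • u) - Lg (W 0) 0 ≤ 2 * r) {l : ℝ} (h0 : 0 ≤ l) (h1 : l ≤ 1) :
    Lg (W b) (J + (l * s) • u) - Lg (W b) J - (l * s) * Ex (W b) J (li u) ≤ l * (T / 2 + r) ∧
    Lg (W b) (J - (l * s) • u) - Lg (W b) J + (l * s) * Ex (W b) J (li u) ≤
      l * (T / 2 + r) := by
  have hE := hW.em b
  have hp := prod_cs hW b J (s • u)
  have e1 : s • u + s • u = (2 * s) • u := by rw [← add_smul]; ring_nf
  rw [e1] at hp
  have t1 := lg_tan hE J (s • u)
  have t2 := lg_tan hE J (-(s • u))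
  have l1 : Ex (W b) J (li (s • u)) = s * Ex (W b) J (li u) := by
    rw [show li (s • u) = fun h => s * li u h from funext fun h => TM.H104.li_smul s u h,
      TM.H104.Ex_cmul]
  have l2 : Ex (W b) J (li (-(s • u))) = -(s * Ex (W b) J (li u)) := by
    rw [← l1, show li (-(s • u)) = fun h => (-1 : ℝ) * li (s • u) h from funext fun h => by
      rw [TM.H104.li_neg]; ring, TM.H104.Ex_cmul]
    ring
  rw [l1] at t1
  rw [l2, ← sub_eq_add_neg] at t2
  have r1 := lg_ray hE J (s • u) h0 h1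
  have r2 := lg_ray hE J (-(s • u)) h0 h1
  rw [smul_smul] at r1
  rw [smul_neg, smul_smul, ← sub_eq_add_neg, ← sub_eq_add_neg] at r2
  constructor
  · have : l * (Lg (W b) (J + s • u) - Lg (W b) J) ≤
        l * (T / 2 + r + s * Ex (W b) J (li u)) := mul_le_mul_of_nonneg_left (by linarith) h0
    linarith
  · have : l * (Lg (W b) (J - s • u) - Lg (W b) J) ≤
        l * (T / 2 + r - s * Ex (W b) J (li u)) := mul_le_mul_of_nonneg_left (by linarith) h0
    linarith

theorem pow_fac (x : ℝ) {k : ℕ} (hk : Even k) :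
    x ^ k ≤ (Nat.factorial k : ℝ) * (Real.exp x + Real.exp (-x)) := by
  have h1 := Real.pow_div_factorial_le_exp (|x|) (abs_nonneg x) k
  rw [hk.pow_abs, div_le_iff₀ (by positivity)] at h1
  have h4 : Real.exp |x| ≤ Real.exp x + Real.exp (-x) := by
    rcases abs_cases x with ⟨h, _⟩ | ⟨h, _⟩
    · rw [h]
      linarith [Real.exp_pos (-x)]
    · rw [h]
      linarith [Real.exp_pos x]
  have h5 := mul_le_mul_of_nonneg_left h4 (Nat.cast_nonneg (α := ℝ) (Nat.factorial k))
  linarith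

/-- the centred power -/
theorem Gr.cpow {u : V → ℝ} (m : ℝ) (k : ℕ) : Gr fun h : V → ℤ => (li u h - m) ^ k := by
  induction k with
  | zero => simpa using Gr.const (V := V) 1
  | succ k ih =>
    have h1 := ih.mul ((Gr.li u).sub (Gr.const m))
    simpa only [pow_succ] using h1

/-- even moments from the two exponential bounds -/
theorem mom_of {μ : (V → ℤ) → ℝ} (hμ : EM μ) (J u : V → ℝ) {a m c : ℝ} (ha : 0 < a) {k : ℕ}
    (hk : Even k) (h1 : Lg μ (J + a • u) - Lg μ J - a * m ≤ c)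
    (h2 : Lg μ (J - a • u) - Lg μ J + a * m ≤ c) :
    Ex μ J (fun h => (li u h - m) ^ k) ≤
      2 * (Nat.factorial k : ℝ) * Real.exp c * (1 / a) ^ k := by
  have key : ∀ h : V → ℤ, (li u h - m) ^ k ≤ ((Nat.factorial k : ℝ) * (1 / a) ^ k) *
      (Real.exp (-(a * m)) * Real.exp (li (a • u) h) +
        Real.exp (a * m) * Real.exp (li (-(a • u)) h)) := by
    intro h
    have h3 := pow_fac (a * (li u h - m)) hk
    have h4 : (li u h - m) ^ k = (1 / a) ^ k * (a * (li u h - m)) ^ k := by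
      rw [← mul_pow]
      congr 1
      field_simp
    rw [h4, ← Real.exp_add, ← Real.exp_add, TM.H104.li_neg, TM.H104.li_smul]
    have h5 := mul_le_mul_of_nonneg_left h3 (show 0 ≤ (1 / a) ^ k by positivity)
    refine h5.trans (le_of_eq ?_)
    have e1 : a * (li u h - m) = -(a * m) + a * li u h := by ring
    have e2 : -(a * (li u h - m)) = a * m + -(a * li u h) := by ring
    rw [e2, e1]
    ring
  have h3 := TM.H104.Ex_mono hμ (Gr.cpow m k) ((((Gr.exp_li (a • u)).cmul (Real.exp (-(a * m)))).add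
    ((Gr.exp_li (-(a • u))).cmul (Real.exp (a * m)))).cmul
      ((Nat.factorial k : ℝ) * (1 / a) ^ k)) key J
  refine h3.trans ?_
  rw [TM.H104.Ex_cmul, TM.H104.Ex_add hμ ((Gr.exp_li _).cmul _) ((Gr.exp_li _).cmul _),
    TM.H104.Ex_cmul, TM.H104.Ex_cmul, Ex_exp hμ, Ex_exp hμ, ← Real.exp_add, ← Real.exp_add,
    ← sub_eq_add_neg]
  have q1 : Real.exp (-(a * m) + (Lg μ (J + a • u) - Lg μ J)) ≤ Real.exp c :=
    Real.exp_le_exp.2 (by linarith)
  have q2 : Real.exp (a * m + (Lg μ (J - a • u) - Lg μ J)) ≤ Real.exp c :=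
    Real.exp_le_exp.2 (by linarith)
  calc _ ≤ (Nat.factorial k : ℝ) * (1 / a) ^ k * (Real.exp c + Real.exp c) :=
        mul_le_mul_of_nonneg_left (add_le_add q1 q2) (by positivity)
    _ = _ := by ring

/-- **(MOM)** fourth centred moment under arbitrary dislocated data -/
theorem mom4 (hW : DisF W) (b : B) (J u : V → ℝ) {s T r : ℝ} (hs : 0 < s)
    (hT : Lg (W (b + b)) (J + J) + 3 * Lg (W 0) 0 - 4 * Lg (W b) J ≤ T)
    (hr : Lg (W 0) ((2 * s) • u) - Lg (W 0) 0 ≤ 2 * r) (hK : 0 ≤ T / 2 + r) :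
    Ex (W b) J (fun h => (li u h - Ex (W b) J (li u)) ^ 4) ≤
      48 * Real.exp 1 * ((1 + (T / 2 + r)) / s) ^ 4 := by
  set K := T / 2 + r with hKd
  have hl0 : 0 < 1 / (1 + K) := by positivity
  have hl1 : 1 / (1 + K) ≤ 1 := by
    rw [div_le_one (by linarith)]
    linarith
  have hlK : 1 / (1 + K) * K ≤ 1 := by
    rw [div_mul_eq_mul_div, one_mul, div_le_one (by linarith)]
    linarith
  obtain ⟨h1, h2⟩ := mom_exp hW b J u hT hr hl0.le hl1
  rw [← hKd] at h1 h2
  have h3 := mom_of (hW.em b) J u (a := 1 / (1 + K) * s) (k := 4) (by positivity) (by decide)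
    (h1.trans hlK) (h2.trans hlK)
  refine h3.trans (le_of_eq ?_)
  have e1 : ((Nat.factorial 4 : ℕ) : ℝ) = 24 := by norm_num [Nat.factorial]
  have e2 : 1 / (1 / (1 + K) * s) = (1 + K) / s := by field_simp
  rw [e1, e2]
  ring

/-- eighth moment at zero data -/
theorem mom8 (hW : DisF W) (u : V → ℝ) {s r : ℝ} (hs : 0 < s)
    (hr : Lg (W 0) ((2 * s) • u) - Lg (W 0) 0 ≤ 2 * r) (hr0 : 0 ≤ r) :
    Ex (W 0) 0 (fun h => li u h ^ 8) ≤ 80640 * Real.exp 1 * ((1 + 2 * r) / (2 * s)) ^ 8 := by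
  have hE := hW.em 0
  have hl0 : 0 < 1 / (1 + 2 * r) := by positivity
  have hl1 : 1 / (1 + 2 * r) ≤ 1 := by
    rw [div_le_one (by linarith)]
    linarith
  have hlK : 1 / (1 + 2 * r) * (2 * r) ≤ 1 := by
    rw [div_mul_eq_mul_div, one_mul, div_le_one (by linarith)]
    linarith
  have r1 := lg_ray hE 0 ((2 * s) • u) hl0.le hl1
  have r2 := lg_ray hE 0 (-((2 * s) • u)) hl0.le hl1
  rw [smul_smul, zero_add, zero_add] at r1
  rw [smul_neg, smul_smul, zero_add, zero_add] at r2
  have ev : Lg (W 0) (-((2 * s) • u)) = Lg (W 0) ((2 * s) • u) := by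
    unfold TM.H104.Lg
    exact congrArg Real.log (hW.neg0 ((2 * s) • u))
  rw [ev] at r2
  have m1 : 1 / (1 + 2 * r) * (Lg (W 0) ((2 * s) • u) - Lg (W 0) 0) ≤ 1 :=
    (mul_le_mul_of_nonneg_left hr hl0.le).trans hlK
  have h3 := mom_of hE 0 u (a := 1 / (1 + 2 * r) * (2 * s)) (m := 0) (c := 1) (k := 8)
    (by positivity) (by decide) (by rw [zero_add]; linarith) (by rw [zero_sub]; linarith)
  simp only [sub_zero] at h3
  refine h3.trans (le_of_eq ?_)
  have e1 : ((Nat.factorial 8 : ℕ) : ℝ) = 40320 := by norm_num [Nat.factorial]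
  have e2 : 1 / (1 / (1 + 2 * r) * (2 * s)) = (1 + 2 * r) / (2 * s) := by field_simp
  rw [e1, e2]
  ring

end family

end Vale.Agent.P159.H612
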