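import Vale.Agent.P159.H612.Mom1
import Vale.Agent.P159.H612.LocG
import Vale.Agent.P159.H764.Swr

/-!
P159 / S (helper612): **the numbers (rd) and (rr) with the exact variance** (any finite graph).

* `nx_abs` : `NX ≤ 6 ε' D` from the swap with the squares `(u + L)²` and `mom4`;
* `nx_mom` : helper764's `nx_le` with `72 ((1 + 2E + r) / S)² e^(E/2) ∑ √(a_i)` in place of
  `9 (τ ∑ f²) (Z₀ / Z(W)) ∑ √(a_i)`: `Z₀ ≤ e^E Z(W)`, `log E⁰ e^{2 S u} ≤ 2 r`;
* `swn2_le` : the swap with a product `f(h) g(h)`, `f` local on `VP`, `g` on `VW`;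
* `rr_mom` : `E⁰ u² v² - E⁰ u² E⁰ v² ≤ 30 ((1 + 2r) / S)² ((1 + 2r') / S')² ∑ √(a_i)`.
-/

set_option linter.unusedSectionVars false
set_option linter.unusedDecidableInType false

namespace Vale.Agent.P159.H612

open scoped ENNReal
open Finset Vale.Agent.P159.TM.H60 Vale.Agent.P159.TM.H576
open Vale.Agent.P159.H770 (eW eWF EdW DisF)
open Vale.Agent.P159.H37 (ZM qf re wM)
open Vale.Agent.P159.TM.H104 (EM T Ex Cv Lg li nh Gr)
open Vale.Agent.P159.T1.H897 (LogC)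
open Vale.Agent.P159.H764 (SE ZE ABf ABf_sq AB SwD swD_W swn_ex Ex_eWF SE_real ZE_real sgF wG
  sgF_fl_pos I0_wG swapB_le em_eWF T_shift)
open Vale.Agent.P159.H145.Dz (I0)
open Vale.Agent.P159.H474.Cb (qa)

section abs

variable {B V : Type} [AddCommGroup B] [Fintype V] {W : B → (V → ℤ) → ℝ}

/-- quadratic expansion of the mean of `(u + L)²` -/
theorem ex_sq_add {μ : (V → ℤ) → ℝ} (hμ : EM μ) (J u : V → ℝ) (L : ℝ) :
    Ex μ J (fun h => (li u h + L) ^ 2) =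
      Ex μ J (fun h => li u h ^ 2) + 2 * L * Ex μ J (li u) + L ^ 2 := by
  have hG2 : Gr fun h : V → ℤ => li u h ^ 2 := by
    have h1 := (Gr.li u).mul (Gr.li u)
    simpa only [pow_two] using h1
  have e : (fun h : V → ℤ => (li u h + L) ^ 2) =
      fun h => (li u h ^ 2 + 2 * L * li u h) + L ^ 2 := by
    funext h
    ring
  rw [e, TM.H104.Ex_add hμ (hG2.add ((Gr.li u).cmul _)) (Gr.const _),
    TM.H104.Ex_add hμ hG2 ((Gr.li u).cmul _), TM.H104.Ex_cmul, TM.H104.Ex_const hμ]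

/-- **the excess second moment from the swap of squares** -/
theorem nx_abs (hW : DisF W) (b : B) (J u : V → ℝ) {ε D : ℝ} (hD : 0 < D)
    (h4 : Ex (W b) J (fun h => (li u h - Ex (W b) J (li u)) ^ 4) ≤ D ^ 2)
    (hε : 0 ≤ ε) (hε6 : 6 * ε ≤ 1)
    (hsw : ∀ L : ℝ, Ex (W b) J (fun h => (li u h + L) ^ 2) ≤
      Ex (W 0) 0 (fun h => (li u h + L) ^ 2) +
        ε * √(Ex (W b) J fun h => ((li u h + L) ^ 2) ^ 2)) : NX W b J u ≤ 6 * ε * D := by
  set m := Ex (W b) J (li u) with hm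
  have h0 : Ex (W 0) 0 (li u) = 0 := H789.Ex_zero_li hW.ev0 u
  have hE := hW.em b
  -- the fourth moment
  have q4 : ∀ L : ℝ, √(Ex (W b) J fun h => ((li u h + L) ^ 2) ^ 2) ≤ 3 * (D + (m + L) ^ 2) := by
    intro L
    have h5 : Ex (W b) J (fun h => ((li u h + L) ^ 2) ^ 2) ≤ 8 * D ^ 2 + 8 * (m + L) ^ 4 := by
      have h6 := TM.H104.Ex_mono hE (F := fun h => ((li u h + L) ^ 2) ^ 2)
        (G := fun h => 8 * (li u h - m) ^ 4 + 8 * (m + L) ^ 4) (by
          have h7 := Gr.cpow (V := V) (u := u) (-L) 4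
          have e : (fun h : V → ℤ => ((li u h + L) ^ 2) ^ 2) = fun h => (li u h - -L) ^ 4 := by
            funext h
            ring
          rw [e]
          exact h7) (((Gr.cpow m 4).cmul 8).add (Gr.const _)) (fun h => by
          have h8 : (li u h + L) = (li u h - m) + (m + L) := by ring
          rw [h8]
          set x := li u h - m
          set y := m + L
          nlinarith [sq_nonneg (x - y), sq_nonneg (x ^ 2 - y ^ 2), sq_nonneg (x + y),
            mul_nonneg (sq_nonneg (x - y)) (sq_nonneg (x + y)),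
            mul_nonneg (sq_nonneg (x - y)) (sq_nonneg (x - y)),
            mul_nonneg (sq_nonneg (x - y)) (sq_nonneg x),
            mul_nonneg (sq_nonneg (x - y)) (sq_nonneg y)]) J
      rw [TM.H104.Ex_add hE ((Gr.cpow m 4).cmul 8) (Gr.const _), TM.H104.Ex_cmul,
        TM.H104.Ex_const hE] at h6
      linarith
    refine Real.sqrt_le_iff.2 ⟨by positivity, h5.trans ?_⟩
    have h6 : 0 ≤ D * (m + L) ^ 2 := by positivity
    nlinarith [sq_nonneg D, sq_nonneg ((m + L) ^ 2)]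
  -- the swap
  have key : ∀ L : ℝ, NX W b J u + 2 * L * m ≤ ε * (3 * (D + (m + L) ^ 2)) := by
    intro L
    have h1 := hsw L
    rw [ex_sq_add hE, ex_sq_add (hW.em 0), h0] at h1
    have h2 := mul_le_mul_of_nonneg_left (q4 L) hε
    unfold NX
    rw [← hm] at h1
    linarith
  have hN : m ^ 2 ≤ NX W b J u := by
    rw [NX_eq hW]
    linarith [Cv_ex_nonneg hW b J u]
  have hs := Real.sqrt_nonneg D
  have hsD := Real.sq_sqrt hD.le
  have hmD : m ^ 2 ≤ D := by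
    have k1 := key √D
    have k2 := key (-√D)
    have a1 : (m + √D) ^ 2 ≤ 2 * m ^ 2 + 2 * D := by nlinarith [sq_nonneg (m - √D)]
    have a2 : (m + -√D) ^ 2 ≤ 2 * m ^ 2 + 2 * D := by nlinarith [sq_nonneg (m + √D)]
    have b1 : ε * (3 * (D + (m + √D) ^ 2)) ≤ ε * (3 * (3 * D + 2 * m ^ 2)) :=
      mul_le_mul_of_nonneg_left (by linarith) hε
    have b2 : ε * (3 * (D + (m + -√D) ^ 2)) ≤ ε * (3 * (3 * D + 2 * m ^ 2)) :=
      mul_le_mul_of_nonneg_left (by linarith) hε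
    have c1 : 6 * ε * m ^ 2 ≤ m ^ 2 := by nlinarith [sq_nonneg m]
    have c2 : 9 * ε * D ≤ 3 / 2 * D := by nlinarith
    have d1 : 2 * √D * m ≤ 3 / 2 * D := by linarith
    have d2 : -(2 * √D * m) ≤ 3 / 2 * D := by linarith
    have d3 : (2 * √D * m) ^ 2 ≤ (3 / 2 * D) ^ 2 := by
      refine sq_le_sq' (by linarith) d1
    have d4 : (2 * √D * m) ^ 2 = 4 * D * m ^ 2 := by
      rw [mul_pow, mul_pow, hsD]
      ring
    rw [d4] at d3
    have d5 : D * (4 * m ^ 2) ≤ D * (9 / 4 * D) := by nlinarith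
    have d6 := le_of_mul_le_mul_left d5 hD
    linarith
  have k0 := key 0
  have b0 : ε * (3 * (D + (m + 0) ^ 2)) ≤ ε * (3 * (D + D)) :=
    mul_le_mul_of_nonneg_left (by rw [add_zero]; linarith) hε
  linarith

end abs

section graph

variable {V E : Type} [Fintype V] [DecidableEq V] [Fintype E] [DecidableEq E]
variable {s t : E → V} {I : E → ℤ → ℝ} {τ : ℝ}

theorem tr_smul : (τ • (1 : Matrix V V ℝ)).transpose = τ • (1 : Matrix V V ℝ) := by
  rw [Matrix.transpose_smul, Matrix.transpose_one]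

theorem coer_smul' : ∀ u : V → ℝ, τ * ∑ x, u x ^ 2 ≤ qf (τ • (1 : Matrix V V ℝ)) u := by
  intro u
  rw [H37.qf_smul_one]

/-- source form and background form of the energy of a group element -/
theorem lg_zm (hE : EdW I) (hτ : 0 < τ) (X : (E → ℤ) × (V → ℝ)) :
    Lg (wM (eW s t I X.1) (τ • (1 : Matrix V V ℝ))) ((τ • (1 : Matrix V V ℝ)).mulVec X.2) =
      Real.log (ZM (eW s t I X.1) (τ • (1 : Matrix V V ℝ)) X.2) +
        qf (τ • (1 : Matrix V V ℝ)) X.2 / 2 := by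
  have hEM : EM (wM (eW s t I X.1) (τ • (1 : Matrix V V ℝ))) := hE.em X.1 hτ coer_smul'
  have h := H145.LM_eq (tr_smul (V := V) (τ := τ)) hEM X.2
  unfold H145.LM at h
  rw [h]
  ring

/-- **the number of `NX` with the exact variance** -/
theorem nx_mom (hE : EdW I) (hτ : 0 < τ) (hL : ∀ e, LogC (I e)) {E0 : Finset E}
    {VP VW : Finset V} {W : (E → ℤ) × (V → ℝ)} (h0 : ∀ e ∈ E0, W.1 e = 0)
    (he : ∀ e, e ∉ E0 → (s e ∈ VP ∧ t e ∈ VP ∧ W.1 e = 0) ∨ (s e ∈ VW ∧ t e ∈ VW))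
    (hv : ∀ v, v ∉ VW → W.2 v = 0) {f : V → ℝ} (hf : ∀ v, v ∉ VP → f v = 0)
    {ι : Type*} (J : Finset ι) (B Λ : ι → Finset V) {δ : V → ℕ}
    (hδ : ∀ e, δ (s e) ≤ δ (t e) + 1 ∧ δ (t e) ≤ δ (s e) + 1) {k : ℕ}
    (hP : ∀ v ∈ VP, δ v < k) (hW : ∀ v ∈ VW, k ≤ δ v)
    (hB : ∀ z, δ z = k → ∃ i ∈ J, z ∈ B i) (hΛ : ∀ i ∈ J, ∀ v ∈ VP, v ∉ Λ i)
    {a : ι → ℝ} (ha : ∀ i ∈ J, 0 ≤ a i) {Z0 en : ℝ}
    (hZ : ∀ X : (E → ℤ) × (V → ℝ), ZM (eW s t I X.1) (τ • (1 : Matrix V V ℝ)) X.2 ≤ Z0)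
    (hZ00 : ZM (eW s t I 0) (τ • (1 : Matrix V V ℝ)) 0 = Z0)
    (hen : Z0 ≤ Real.exp en * ZM (eW s t I W.1) (τ • (1 : Matrix V V ℝ)) W.2)
    (hA : ∀ i ∈ J, AB s t hE.pos hL E0 W.1 τ W 0 (B i) (Λ i) ≤ ENNReal.ofReal (a i * Z0 ^ 2))
    {S r : ℝ} (hS : 0 < S) (hr0 : 0 ≤ r)
    (hr : Lg (wM (eW s t I 0) (τ • (1 : Matrix V V ℝ)))
        ((2 * S) • (τ • (1 : Matrix V V ℝ)).mulVec f) -
      Lg (wM (eW s t I 0) (τ • (1 : Matrix V V ℝ))) 0 ≤ 2 * r)
    (h6 : 6 * (Real.exp (en / 2) * ∑ i ∈ J, √(a i)) ≤ 1) :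
    NX (fun η : E → ℤ => wM (eW s t I η) (τ • (1 : Matrix V V ℝ))) W.1
        ((τ • (1 : Matrix V V ℝ)).mulVec W.2) ((τ • (1 : Matrix V V ℝ)).mulVec f) ≤
      72 * ((1 + (2 * en + r)) / S) ^ 2 * (Real.exp (en / 2) * ∑ i ∈ J, √(a i)) := by
  have hMt := tr_smul (V := V) (τ := τ)
  set M : Matrix V V ℝ := τ • (1 : Matrix V V ℝ) with hM
  set u : V → ℝ := M.mulVec f with hu
  have hux : ∀ x, u x = τ * f x := by
    intro x
    rw [hu, hM, Matrix.smul_mulVec, Matrix.one_mulVec]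
    rfl
  set ZW := ZM (eW s t I W.1) M W.2 with hZW
  have hT : ∀ X : (E → ℤ) × (V → ℝ),
      TM.H104.T (eWF s t I M X) 0 (fun _ => 1) = ZM (eW s t I X.1) M X.2 := by
    intro X
    have h := T_shift (s := s) (t := t) (I := I) hτ X (0 : V → ℝ)
    simp only [Pi.zero_apply, zero_mul, Finset.sum_const_zero, ne_eq, OfNat.ofNat_ne_zero,
      not_false_eq_true, zero_pow, zero_div, add_zero, Real.exp_zero, one_mul, smul_zero] at h
    exact h
  have hpos : ∀ X : (E → ℤ) × (V → ℝ), 0 < ZM (eW s t I X.1) M X.2 := by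
    intro X
    rw [← hT]
    exact TM.H104.T_one_pos (em_eWF (s := s) (t := t) hE hτ X) 0
  have hZWp : 0 < ZW := hpos W
  have hZ0p : 0 < Z0 := by
    rw [← hZ00]
    exact hpos 0
  have hen0 : 0 ≤ en := by
    have h1 : ZW ≤ Real.exp en * ZW := (hZ W).trans hen
    have h2 : 1 ≤ Real.exp en := by
      by_contra hcon
      push Not at hcon
      nlinarith
    exact Real.one_le_exp_iff.1 h2
  have hzW : ZE s t I τ W = ENNReal.ofReal ZW := by rw [ZE_real hE hτ, hT]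
  have hz0 : ZE s t I τ 0 = ENNReal.ofReal Z0 := by
    rw [ZE_real hE hτ, hT]
    exact congrArg _ hZ00
  have hD : DisF fun η : E → ℤ => wM (eW s t I η) M := H770.disF_edges hE hτ coer_smul'
  -- the swap of squares
  set ε' := Real.exp (en / 2) * ∑ i ∈ J, √(a i) with hε'
  have hSg : 0 ≤ ∑ i ∈ J, √(a i) := Finset.sum_nonneg fun _ _ => Real.sqrt_nonneg _
  have hε0 : 0 ≤ ε' := mul_nonneg (Real.exp_pos _).le hSg
  have hsw : ∀ L : ℝ, Ex (wM (eW s t I W.1) M) (M.mulVec W.2) (fun h => (li u h + L) ^ 2) ≤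
      Ex (wM (eW s t I 0) M) 0 (fun h => (li u h + L) ^ 2) +
        ε' * √(Ex (wM (eW s t I W.1) M) (M.mulVec W.2) fun h => ((li u h + L) ^ 2) ^ 2) := by
    intro L
    have hG2 : Gr fun h : V → ℤ => (li u h + L) ^ 2 := by
      have h1 := Gr.cpow (V := V) (u := u) (-L) 2
      simpa only [sub_neg_eq_add] using h1
    have h1 := swn_ex (s := s) (t := t) hE hτ hL (swD_W h0 he hv) (mul_comm _ _)
      (f := fun h => (li u h + L) ^ 2) (fun h => sq_nonneg _) hG2 (fun h h' hh => by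
        have : li u h = li u h' := by
          unfold li
          refine Finset.sum_congr rfl fun x _ => ?_
          by_cases hx : x ∈ VP
          · rw [hh x hx]
          · rw [hux, hf x hx, mul_zero, zero_mul, zero_mul]
        rw [this]) J B Λ hδ hP hW hB hΛ
      (ε := fun i => a i * Z0 / ZW) (fun i hi => by
        refine (hA i hi).trans (le_of_eq ?_)
        rw [hzW, hz0, ← ENNReal.ofReal_mul hZWp.le,
          ← ENNReal.ofReal_mul (div_nonneg (mul_nonneg (ha i hi) hZ0p.le) hZWp.le)]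
        congr 1
        field_simp)
    rw [Ex_eWF hMt, Ex_eWF hMt] at h1
    simp only [add_zero, Prod.fst_zero, Prod.snd_zero, Matrix.mulVec_zero] at h1
    refine h1.trans (add_le_add le_rfl ?_)
    rw [hε', Finset.mul_sum, Finset.sum_mul]
    refine Finset.sum_le_sum fun i hi => ?_
    rw [Ex_eWF hMt, add_zero]
    have hai := ha i hi
    have h2 : a i * Z0 / ZW ≤ a i * Real.exp en := by
      rw [mul_div_assoc]
      refine mul_le_mul_of_nonneg_left ?_ hai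
      rw [div_le_iff₀ hZWp]
      exact hen
    have h3 : 0 ≤ Ex (wM (eW s t I W.1) M) (M.mulVec W.2) fun h => ((li u h + L) ^ 2) ^ 2 :=
      TM.H104.Ex_nonneg (hD.em W.1) (fun h => sq_nonneg _) _
    have h4 : Real.exp en = Real.exp (en / 2) ^ 2 := by
      rw [← Real.exp_nat_mul]
      congr 1
      push_cast
      ring
    calc √(a i * Z0 / ZW * Ex (wM (eW s t I W.1) M) (M.mulVec W.2) fun h => ((li u h + L) ^ 2) ^ 2)
        ≤ √(a i * Real.exp en *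
            Ex (wM (eW s t I W.1) M) (M.mulVec W.2) fun h => ((li u h + L) ^ 2) ^ 2) :=
          Real.sqrt_le_sqrt (mul_le_mul_of_nonneg_right h2 h3)
      _ = _ := by
          rw [Real.sqrt_mul (by positivity), Real.sqrt_mul hai, h4,
            Real.sqrt_sq (Real.exp_pos _).le]
          ring
  -- the fourth moment
  have hKT : Lg (wM (eW s t I (W.1 + W.1)) M) (M.mulVec W.2 + M.mulVec W.2) +
      3 * Lg (wM (eW s t I 0) M) 0 - 4 * Lg (wM (eW s t I W.1) M) (M.mulVec W.2) ≤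
      4 * en := by
    have e1 := lg_zm (s := s) (t := t) hE hτ (W + W)
    have e2 := lg_zm (s := s) (t := t) hE hτ W
    have e3 := lg_zm (s := s) (t := t) hE hτ 0
    rw [← hM] at e1 e2 e3
    rw [Prod.snd_zero, Matrix.mulVec_zero, Prod.fst_zero, hZ00, H37.qf_zero_vec] at e3
    rw [Prod.fst_add, Prod.snd_add, Matrix.mulVec_add] at e1
    rw [e1, e2, e3]
    have e4 : qf M (W.2 + W.2) = 4 * qf M W.2 := by
      have h1 := H37.qf_add_vec hMt W.2 W.2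
      have h2 : H37.bf M W.2 W.2 = qf M W.2 := rfl
      rw [h1, h2]
      ring
    have e5 : Real.log (ZM (eW s t I (W.1 + W.1)) M (W.2 + W.2)) ≤ Real.log Z0 :=
      Real.log_le_log (hpos (W + W)) (hZ (W + W))
    have e6 : Real.log Z0 ≤ en + Real.log ZW := by
      have h1 := Real.log_le_log hZ0p hen
      rwa [Real.log_mul (Real.exp_pos _).ne' hZWp.ne', Real.log_exp] at h1
    rw [e4, ← hZW]
    linarith
  have h4 := mom4 hD W.1 (M.mulVec W.2) u (T := 4 * en) hS hKT hr (by linarith)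
  have eK : 4 * en / 2 + r = 2 * en + r := by ring
  rw [eK] at h4
  set K := 2 * en + r with hK
  have hK0 : 0 ≤ K := by linarith
  have hDp : 0 < 12 * ((1 + K) / S) ^ 2 := by positivity
  have h5 : Ex (wM (eW s t I W.1) M) (M.mulVec W.2)
      (fun h => (li u h - Ex (wM (eW s t I W.1) M) (M.mulVec W.2) (li u)) ^ 4) ≤
      (12 * ((1 + K) / S) ^ 2) ^ 2 := by
    refine h4.trans ?_
    have h7 : 48 * Real.exp 1 ≤ 144 := by
      have := Real.exp_one_lt_d9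
      linarith
    calc 48 * Real.exp 1 * ((1 + K) / S) ^ 4 ≤ 144 * ((1 + K) / S) ^ 4 :=
          mul_le_mul_of_nonneg_right h7 (by positivity)
      _ = _ := by ring
  have h7 := nx_abs hD W.1 (M.mulVec W.2) u hDp h5 hε0 h6 hsw
  refine h7.trans (le_of_eq ?_)
  ring

/-! ### the swap with a product (zero data) -/

/-- **the swap with a product**: `f` local on `VP`, `g` local on `VW` -/
theorem swn2_le (hI : ∀ e n, 0 < I e n) (hL : ∀ e, LogC (I e)) {E0 : Finset E} {VP VW : Finset V}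
    (he : ∀ e, e ∉ E0 → (s e ∈ VP ∧ t e ∈ VP) ∨ (s e ∈ VW ∧ t e ∈ VW)) (τ : ℝ)
    {f g : (V → ℤ) → ℝ≥0∞} (hf : ∀ h h' : V → ℤ, (∀ v ∈ VP, h v = h' v) → f h = f h')
    (hg : ∀ h h' : V → ℤ, (∀ v ∈ VW, h v = h' v) → g h = g h') {ι : Type*} (J : Finset ι)
    (B Λ : ι → Finset V) {δ : V → ℕ} (hδ : ∀ e, δ (s e) ≤ δ (t e) + 1 ∧ δ (t e) ≤ δ (s e) + 1)
    {k : ℕ} (hP : ∀ v ∈ VP, δ v < k) (hW : ∀ v ∈ VW, k ≤ δ v)
    (hB : ∀ z, δ z = k → ∃ i ∈ J, z ∈ B i) (hΛ : ∀ i ∈ J, ∀ v ∈ VP, v ∉ Λ i) :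
    SE s t I τ 0 (fun h => f h * g h) * ZE s t I τ 0 ≤ SE s t I τ 0 f * SE s t I τ 0 g +
      ∑ i ∈ J, ABf s t hI hL E0 0 τ 0 0 (fun h => f h * g h) (B i) (Λ i) := by
  have D : SwD s t E0 VP VW (0 : (E → ℤ) × (V → ℝ)) 0 0 0 :=
    swD_W (fun e _ => rfl) (fun e h => by
      rcases he e h with ⟨h1, h2⟩ | h1
      · exact Or.inl ⟨h1, h2, rfl⟩
      · exact Or.inr h1) (fun v _ => rfl)
  have hz : ∀ e ∈ E0, (0 : (E → ℤ) × (V → ℝ)).1 e = (0 : E → ℤ) e := fun _ _ => rfl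
  have key1 : I0 (sgF s t hI hL E0 0) (fun x => wG s t I E0 τ 0 0 x *
      (f (fun v => (x v).1) * g fun v => (x v).1)) =
        SE s t I τ 0 (fun h => f h * g h) * ZE s t I τ 0 := by
    rw [I0_wG hI hL E0 0 τ hz hz (fun x => f (fun v => (x v).1) * g fun v => (x v).1)]
    unfold SE ZE
    rw [← ENNReal.tsum_mul_right]
    refine tsum_congr fun h => ?_
    rw [← ENNReal.tsum_mul_left]
    refine tsum_congr fun h' => ?_
    ring
  have key2 : I0 (sgF s t hI hL E0 0) (fun x => wG s t I E0 τ 0 0 x *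
      (f (fun v => (x v).1) * g fun v => (x v).2)) = SE s t I τ 0 f * SE s t I τ 0 g := by
    rw [I0_wG hI hL E0 0 τ hz hz (fun x => f (fun v => (x v).1) * g fun v => (x v).2)]
    unfold SE
    rw [← ENNReal.tsum_mul_right]
    refine tsum_congr fun h => ?_
    rw [← ENNReal.tsum_mul_left]
    refine tsum_congr fun h' => ?_
    ring
  rw [← key1, ← key2]
  refine (swapB_le (sgF s t hI hL E0 0)
    (GA := fun x => wG s t I E0 τ 0 0 x * (f (fun v => (x v).1) * g fun v => (x v).1))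
    (GB := fun x => wG s t I E0 τ 0 0 x * (f (fun v => (x v).1) * g fun v => (x v).2))
    (VW := VW) (VP := VP)
    (fun A hA hP' x => ?_) (sgF_fl_pos hI hL E0 0)
    J B Λ hδ hP hW hB hΛ).trans (le_of_eq ?_)
  · rw [D.flip_eq hI hL 0 τ hA hP' x]
    congr 1
    refine congrArg₂ _ (hf _ _ fun v hv => ?_) (hg _ _ fun v hv => ?_)
    · rw [(sgF s t hI hL E0 0).flip_not_mem (Finset.disjoint_right.1 hP' hv)]
    · rw [(sgF s t hI hL E0 0).flip_mem (hA hv)]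
      rfl
  · congr 1
    refine Finset.sum_congr rfl fun z _ => ?_
    have h5 := I0_wG (s := s) (t := t) hI hL E0 0 τ hz hz (fun x =>
      (f (fun v => (x v).1) * g fun v => (x v).1) * qa (sgF s t hI hL E0 0) (B z) (Λ z) x)
    unfold ABf
    rw [← h5]
    simp only [mul_assoc]

/-- **the swap with a product, normalised** -/
theorem swn2_ex (hE : EdW I) (hτ : 0 < τ) (hL : ∀ e, LogC (I e)) {E0 : Finset E}
    {VP VW : Finset V} (he : ∀ e, e ∉ E0 → (s e ∈ VP ∧ t e ∈ VP) ∨ (s e ∈ VW ∧ t e ∈ VW))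
    {f g : (V → ℤ) → ℝ} (hf0 : ∀ h, 0 ≤ f h) (hg0 : ∀ h, 0 ≤ g h) (hfG : Gr f) (hgG : Gr g)
    (hf : ∀ h h' : V → ℤ, (∀ v ∈ VP, h v = h' v) → f h = f h')
    (hg : ∀ h h' : V → ℤ, (∀ v ∈ VW, h v = h' v) → g h = g h') {ι : Type*} (J : Finset ι)
    (B Λ : ι → Finset V) {δ : V → ℕ} (hδ : ∀ e, δ (s e) ≤ δ (t e) + 1 ∧ δ (t e) ≤ δ (s e) + 1)
    {k : ℕ} (hP : ∀ v ∈ VP, δ v < k) (hW : ∀ v ∈ VW, k ≤ δ v)
    (hB : ∀ z, δ z = k → ∃ i ∈ J, z ∈ B i) (hΛ : ∀ i ∈ J, ∀ v ∈ VP, v ∉ Λ i) {a : ι → ℝ}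
    (ha : ∀ i ∈ J, 0 ≤ a i)
    (hA : ∀ i ∈ J, AB s t hE.pos hL E0 0 τ 0 0 (B i) (Λ i) ≤
      ENNReal.ofReal (a i) * (ZE s t I τ 0 * ZE s t I τ 0)) :
    Ex (wM (eW s t I 0) (τ • (1 : Matrix V V ℝ))) 0 (fun h => f h * g h) ≤
      Ex (wM (eW s t I 0) (τ • (1 : Matrix V V ℝ))) 0 f *
        Ex (wM (eW s t I 0) (τ • (1 : Matrix V V ℝ))) 0 g +
        ∑ i ∈ J, √(a i * Ex (wM (eW s t I 0) (τ • (1 : Matrix V V ℝ))) 0
          fun h => (f h * g h) ^ 2) := by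
  have h1 := swn2_le (s := s) (t := t) hE.pos hL he τ (f := fun h => ENNReal.ofReal (f h))
    (g := fun h => ENNReal.ofReal (g h)) (fun h h' hh => by rw [hf h h' hh])
    (fun h h' hh => by rw [hg h h' hh]) J B Λ hδ hP hW hB hΛ
  have hEM := em_eWF (s := s) (t := t) hE hτ (0 : (E → ℤ) × (V → ℝ))
  have hfg : Gr fun h => f h * g h := hfG.mul hgG
  have hfg0 : ∀ h, 0 ≤ f h * g h := fun h => mul_nonneg (hf0 h) (hg0 h)
  have hfG2 : Gr fun h => (f h * g h) ^ 2 := by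
    have := hfg.mul hfg
    simpa only [pow_two] using this
  have nn : ∀ {G : (V → ℤ) → ℝ}, (∀ h, 0 ≤ G h) →
      0 ≤ TM.H104.T (eWF s t I (τ • (1 : Matrix V V ℝ)) 0) 0 G := by
    intro G hG
    exact TM.H104.T_nonneg hEM hG 0
  set z := TM.H104.T (eWF s t I (τ • (1 : Matrix V V ℝ)) 0) 0 fun _ => 1 with hz
  have pz : 0 < z := TM.H104.T_one_pos hEM 0
  set A := TM.H104.T (eWF s t I (τ • (1 : Matrix V V ℝ)) 0) 0 (fun h => f h * g h) with hAd
  set A2 := TM.H104.T (eWF s t I (τ • (1 : Matrix V V ℝ)) 0) 0 (fun h => (f h * g h) ^ 2)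
    with hA2d
  set F := TM.H104.T (eWF s t I (τ • (1 : Matrix V V ℝ)) 0) 0 f with hFd
  set G := TM.H104.T (eWF s t I (τ • (1 : Matrix V V ℝ)) 0) 0 g with hGd
  have pA2 : 0 ≤ A2 := nn fun h => sq_nonneg _
  have pA : 0 ≤ A := nn hfg0
  have pF : 0 ≤ F := nn hf0
  have pG : 0 ≤ G := nn hg0
  have eZ : ZE s t I τ 0 = ENNReal.ofReal z := ZE_real hE hτ 0
  have eF : SE s t I τ 0 (fun h => ENNReal.ofReal (f h)) = ENNReal.ofReal F :=
    SE_real hE hτ 0 hf0 hfG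
  have eG : SE s t I τ 0 (fun h => ENNReal.ofReal (g h)) = ENNReal.ofReal G :=
    SE_real hE hτ 0 hg0 hgG
  have eA : SE s t I τ 0 (fun h => ENNReal.ofReal (f h) * ENNReal.ofReal (g h)) =
      ENNReal.ofReal A := by
    rw [← SE_real hE hτ 0 hfg0 hfg]
    congr 1
    funext h
    rw [ENNReal.ofReal_mul (hf0 h)]
  have eA2 : SE s t I τ 0 (fun h => (ENNReal.ofReal (f h) * ENNReal.ofReal (g h)) ^ 2) =
      ENNReal.ofReal A2 := by
    rw [← SE_real hE hτ 0 (fun h => sq_nonneg (f h * g h)) hfG2]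
    congr 1
    funext h
    rw [ENNReal.ofReal_pow (hfg0 h), ENNReal.ofReal_mul (hf0 h)]
  -- each arm term
  have hi : ∀ i ∈ J, ABf s t hE.pos hL E0 0 τ 0 0
      (fun h => ENNReal.ofReal (f h) * ENNReal.ofReal (g h)) (B i) (Λ i) ≤
      ENNReal.ofReal (√(a i * (A2 / z)) * (z * z)) := by
    intro i hi
    have h2 := ABf_sq (s := s) (t := t) hE.pos hL E0 0 τ 0 0
      (fun h => ENNReal.ofReal (f h) * ENNReal.ofReal (g h)) (B i) (Λ i)
    have h3 := h2.trans (mul_le_mul' le_rfl (hA i hi))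
    have hai := ha i hi
    rw [eA2, eZ, ← ENNReal.ofReal_mul pz.le, ← ENNReal.ofReal_mul hai,
      ← ENNReal.ofReal_mul pA2, ← ENNReal.ofReal_mul (by positivity)] at h3
    have h5 : A2 * z * (a i * (z * z)) = (√(a i * (A2 / z)) * (z * z)) ^ 2 := by
      rw [mul_pow, Real.sq_sqrt (by positivity)]
      field_simp
    rw [h5, ENNReal.ofReal_pow (by positivity)] at h3
    exact (ENNReal.pow_le_pow_left_iff two_ne_zero).1 h3
  have h6 := h1.trans (add_le_add_right (Finset.sum_le_sum hi) _)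
  rw [eA, eF, eG, eZ, ← ENNReal.ofReal_mul pA, ← ENNReal.ofReal_mul pF,
    ← ENNReal.ofReal_sum_of_nonneg (fun i _ => by positivity),
    ← ENNReal.ofReal_add (by positivity) (Finset.sum_nonneg fun i _ => by positivity),
    ENNReal.ofReal_le_ofReal_iff (add_nonneg (by positivity)
      (Finset.sum_nonneg fun i _ => by positivity))] at h6
  rw [← Finset.sum_mul] at h6
  have conv : ∀ G : (V → ℤ) → ℝ, Ex (wM (eW s t I 0) (τ • (1 : Matrix V V ℝ))) 0 G =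
      TM.H104.T (eWF s t I (τ • (1 : Matrix V V ℝ)) 0) 0 G / z := by
    intro G
    have h := Ex_eWF (s := s) (t := t) (I := I) (tr_smul (V := V) (τ := τ))
      (0 : (E → ℤ) × (V → ℝ)) 0 G
    rw [Prod.snd_zero, Matrix.mulVec_zero, add_zero, Prod.fst_zero] at h
    rw [← h]
    rfl
  rw [conv, conv, conv, ← hAd, ← hFd, ← hGd]
  have e7 : ∑ i ∈ J, √(a i * Ex (wM (eW s t I 0) (τ • (1 : Matrix V V ℝ))) 0
      fun h => (f h * g h) ^ 2) = ∑ i ∈ J, √(a i * (A2 / z)) :=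
    Finset.sum_congr rfl fun i _ => by rw [conv]
  rw [e7]
  have h7 : A / z = A * z / (z * z) := by field_simp
  have h8 : F / z * (G / z) = F * G / (z * z) := by field_simp
  rw [h7, h8, div_add' _ _ _ (by positivity), div_le_div_iff_of_pos_right (by positivity)]
  exact h6

/-- Cauchy-Schwarz for expectations -/
theorem ex_cs {μ : (V → ℤ) → ℝ} (hμ : EM μ) (J : V → ℝ) {F G : (V → ℤ) → ℝ} (hF : Gr F)
    (hG : Gr G) : Ex μ J (fun h => F h * G h) ^ 2 ≤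
      Ex μ J (fun h => F h ^ 2) * Ex μ J (fun h => G h ^ 2) := by
  have hF2 : Gr fun h => F h ^ 2 := by
    have := hF.mul hF
    simpa only [pow_two] using this
  have hG2 : Gr fun h => G h ^ 2 := by
    have := hG.mul hG
    simpa only [pow_two] using this
  have key : ∀ c d : ℝ, 0 ≤ c ^ 2 * Ex μ J (fun h => F h ^ 2) +
      2 * (c * d * Ex μ J (fun h => F h * G h)) + d ^ 2 * Ex μ J (fun h => G h ^ 2) := by
    intro c d
    have h1 := TM.H104.Ex_nonneg hμ (F := fun h => (c * F h + d * G h) ^ 2)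
      (fun h => sq_nonneg _) J
    have e : (fun h => (c * F h + d * G h) ^ 2) =
        fun h => (c ^ 2 * F h ^ 2 + 2 * (c * d) * (F h * G h)) + d ^ 2 * G h ^ 2 := by
      funext h
      ring
    rw [e, TM.H104.Ex_add hμ ((hF2.cmul _).add ((hF.mul hG).cmul _)) (hG2.cmul _),
      TM.H104.Ex_add hμ (hF2.cmul _) ((hF.mul hG).cmul _), TM.H104.Ex_cmul, TM.H104.Ex_cmul,
      TM.H104.Ex_cmul] at h1
    linarith
  have h2 := H789.disc key
  exact h2

/-- **the number (rr)** -/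
theorem rr_mom (hE : EdW I) (hτ : 0 < τ) (hL : ∀ e, LogC (I e)) {E0 : Finset E}
    {VP VW : Finset V} (he : ∀ e, e ∉ E0 → (s e ∈ VP ∧ t e ∈ VP) ∨ (s e ∈ VW ∧ t e ∈ VW))
    {f g : V → ℝ} (hf : ∀ v, v ∉ VP → f v = 0) (hg : ∀ v, v ∉ VW → g v = 0)
    {ι : Type*} (J : Finset ι) (B Λ : ι → Finset V) {δ : V → ℕ}
    (hδ : ∀ e, δ (s e) ≤ δ (t e) + 1 ∧ δ (t e) ≤ δ (s e) + 1) {k : ℕ}
    (hP : ∀ v ∈ VP, δ v < k) (hW : ∀ v ∈ VW, k ≤ δ v)
    (hB : ∀ z, δ z = k → ∃ i ∈ J, z ∈ B i) (hΛ : ∀ i ∈ J, ∀ v ∈ VP, v ∉ Λ i)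
    {a : ι → ℝ} (ha : ∀ i ∈ J, 0 ≤ a i)
    (hA : ∀ i ∈ J, AB s t hE.pos hL E0 0 τ 0 0 (B i) (Λ i) ≤
      ENNReal.ofReal (a i * ZM (eW s t I 0) (τ • (1 : Matrix V V ℝ)) 0 ^ 2))
    {S r S' r' : ℝ} (hS : 0 < S) (hr0 : 0 ≤ r)
    (hr : Lg (wM (eW s t I 0) (τ • (1 : Matrix V V ℝ)))
        ((2 * S) • (τ • (1 : Matrix V V ℝ)).mulVec f) -
      Lg (wM (eW s t I 0) (τ • (1 : Matrix V V ℝ))) 0 ≤ 2 * r)
    (hS' : 0 < S') (hr0' : 0 ≤ r')
    (hr' : Lg (wM (eW s t I 0) (τ • (1 : Matrix V V ℝ)))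
        ((2 * S') • (τ • (1 : Matrix V V ℝ)).mulVec g) -
      Lg (wM (eW s t I 0) (τ • (1 : Matrix V V ℝ))) 0 ≤ 2 * r') :
    Cv (wM (eW s t I 0) (τ • (1 : Matrix V V ℝ))) 0
        (fun h => li ((τ • (1 : Matrix V V ℝ)).mulVec f) h ^ 2)
        (fun h => li ((τ • (1 : Matrix V V ℝ)).mulVec g) h ^ 2) ≤
      30 * (((1 + 2 * r) / S) ^ 2 * ((1 + 2 * r') / S') ^ 2) * ∑ i ∈ J, √(a i) := by
  set M : Matrix V V ℝ := τ • (1 : Matrix V V ℝ) with hM
  have hD : DisF fun η : E → ℤ => wM (eW s t I η) M := H770.disF_edges hE hτ coer_smul'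
  have hux : ∀ (f : V → ℝ) x, M.mulVec f x = τ * f x := by
    intro f x
    rw [hM, Matrix.smul_mulVec, Matrix.one_mulVec]
    rfl
  have hloc : ∀ (f : V → ℝ) (U : Finset V), (∀ v, v ∉ U → f v = 0) →
      ∀ h h' : V → ℤ, (∀ v ∈ U, h v = h' v) →
        li (M.mulVec f) h ^ 2 = li (M.mulVec f) h' ^ 2 := by
    intro f U hf h h' hh
    congr 1
    unfold li
    refine Finset.sum_congr rfl fun x _ => ?_
    by_cases hx : x ∈ U
    · rw [hh x hx]
    · rw [hux, hf x hx, mul_zero, zero_mul, zero_mul]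
  have hG2 : ∀ u : V → ℝ, Gr fun h : V → ℤ => li u h ^ 2 := fun u => by
    have h1 := (Gr.li u).mul (Gr.li u)
    simpa only [pow_two] using h1
  have hG4 : ∀ u : V → ℝ, Gr fun h : V → ℤ => li u h ^ 4 := fun u => by
    have h1 := (hG2 u).mul (hG2 u)
    have e : (fun h : V → ℤ => li u h ^ 4) = fun h => li u h ^ 2 * li u h ^ 2 := by
      funext h
      ring
    rw [e]
    exact h1
  have hT0 : TM.H104.T (eWF s t I M 0) 0 (fun _ => 1) = ZM (eW s t I 0) M 0 := by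
    have h := T_shift (s := s) (t := t) (I := I) hτ (0 : (E → ℤ) × (V → ℝ)) (0 : V → ℝ)
    simp only [Pi.zero_apply, zero_mul, Finset.sum_const_zero, ne_eq, OfNat.ofNat_ne_zero,
      not_false_eq_true, zero_pow, zero_div, add_zero, Real.exp_zero, one_mul, smul_zero,
      Prod.fst_zero, Prod.snd_zero] at h
    exact h
  have hZp : 0 < ZM (eW s t I 0) M 0 := by
    rw [← hT0]
    exact TM.H104.T_one_pos (em_eWF (s := s) (t := t) hE hτ 0) 0
  have hz0 : ZE s t I τ 0 = ENNReal.ofReal (ZM (eW s t I 0) M 0) := by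
    rw [ZE_real hE hτ, hT0]
  have h1 := swn2_ex (s := s) (t := t) hE hτ hL he (f := fun h => li (M.mulVec f) h ^ 2)
    (g := fun h => li (M.mulVec g) h ^ 2) (fun _ => sq_nonneg _) (fun _ => sq_nonneg _)
    (hG2 _) (hG2 _) (hloc f VP hf) (hloc g VW hg) J B Λ hδ hP hW hB hΛ ha (fun i hi => by
      refine (hA i hi).trans (le_of_eq ?_)
      rw [hz0, ← ENNReal.ofReal_mul hZp.le, ← ENNReal.ofReal_mul (ha i hi)]
      congr 1
      ring)
  rw [← hM] at h1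
  -- the eighth moments
  have m1 := mom8 hD (M.mulVec f) hS hr hr0
  have m2 := mom8 hD (M.mulVec g) hS' hr' hr0'
  have c1 := ex_cs (hD.em 0) 0 (hG4 (M.mulVec f)) (hG4 (M.mulVec g))
  set A := (1 + 2 * r) / S with hA'
  set A' := (1 + 2 * r') / S' with hA''
  have hA0 : 0 < A := by positivity
  have hA0' : 0 < A' := by positivity
  have e8 : ∀ u : V → ℝ, (fun h : V → ℤ => (li u h ^ 4) ^ 2) = fun h => li u h ^ 8 := fun u => by
    funext h
    ring
  rw [e8, e8] at c1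
  have d1 : (1 + 2 * r) / (2 * S) = A / 2 := by
    rw [hA']
    field_simp
  have d2 : (1 + 2 * r') / (2 * S') = A' / 2 := by
    rw [hA'']
    field_simp
  rw [d1] at m1
  rw [d2] at m2
  have he1 := Real.exp_one_lt_d9
  have p1 : 0 ≤ Ex (wM (eW s t I 0) M) 0 fun h => li (M.mulVec g) h ^ 8 :=
    TM.H104.Ex_nonneg (hD.em 0) (fun h => by positivity) _
  have c2 : Ex (wM (eW s t I 0) M) 0 (fun h => li (M.mulVec f) h ^ 4 * li (M.mulVec g) h ^ 4) ≤
      (30 * (A ^ 2 * A' ^ 2)) ^ 2 := by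
    have c3 : Ex (wM (eW s t I 0) M) 0
        (fun h => li (M.mulVec f) h ^ 4 * li (M.mulVec g) h ^ 4) ^ 2 ≤
        (80640 * Real.exp 1 * (A / 2) ^ 8) * (80640 * Real.exp 1 * (A' / 2) ^ 8) :=
      c1.trans (mul_le_mul m1 m2 p1 (by positivity))
    have c4 : (80640 * Real.exp 1 * (A / 2) ^ 8) * (80640 * Real.exp 1 * (A' / 2) ^ 8) =
        (80640 * Real.exp 1 * (A / 2) ^ 4 * (A' / 2) ^ 4) ^ 2 := by ring
    rw [c4] at c3
    have c5 := abs_le_of_sq_le_sq c3 (by positivity)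
    have c6 := (abs_le.1 c5).2
    refine c6.trans ?_
    have c7 : 80640 * Real.exp 1 ≤ 225000 := by linarith
    calc 80640 * Real.exp 1 * (A / 2) ^ 4 * (A' / 2) ^ 4
        ≤ 225000 * (A / 2) ^ 4 * (A' / 2) ^ 4 := by
          refine mul_le_mul_of_nonneg_right (mul_le_mul_of_nonneg_right c7 (by positivity))
            (by positivity)
      _ = 225000 / 256 * (A ^ 4 * A' ^ 4) := by ring
      _ ≤ 900 * (A ^ 4 * A' ^ 4) :=
          mul_le_mul_of_nonneg_right (by norm_num) (by positivity)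
      _ = _ := by ring
  have e9 : (fun h : V → ℤ => (li (M.mulVec f) h ^ 2 * li (M.mulVec g) h ^ 2) ^ 2) =
      fun h => li (M.mulVec f) h ^ 4 * li (M.mulVec g) h ^ 4 := by
    funext h
    ring
  rw [e9] at h1
  unfold Cv
  have h2 : ∑ i ∈ J, √(a i * Ex (wM (eW s t I 0) M) 0 fun h =>
      li (M.mulVec f) h ^ 4 * li (M.mulVec g) h ^ 4) ≤
      30 * (A ^ 2 * A' ^ 2) * ∑ i ∈ J, √(a i) := by
    rw [Finset.mul_sum]
    refine Finset.sum_le_sum fun i hi => ?_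
    have hai := ha i hi
    calc _ ≤ √(a i * (30 * (A ^ 2 * A' ^ 2)) ^ 2) :=
          Real.sqrt_le_sqrt (mul_le_mul_of_nonneg_left c2 hai)
      _ = _ := by
          rw [Real.sqrt_mul hai, Real.sqrt_sq (by positivity)]
          ring
  linarith

end graph

end Vale.Agent.P159.H612
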