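import Vale.Agent.P159.H447.Cg5
import Vale.Agent.P159.H239.Loc2

/-!
P159 / GLUE P_up, module NEARG (helper612), part 1: localisation of the trace form of the mean
excess Hessian, letters of CONTRG (helper447), idea LT of helper239.

`X g` the uncut background, `X2 g` the cut one, `Z g` the window part, `X Zᵀ = X2 Zᵀ = 0`.

* `ray_mdz` : the mixed difference of the ray functions of `Rs` is the mean mixed difference of the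
  values of `log Z`; bilinear terms have mean zero.
* `Maj.ray_S` : second difference of the ray function.
* `Maj.loc_one` : `E tr (Z Zᵀ N(X g + Z g))` against `E tr (Z Zᵀ N(X2 g + Z g))`.
-/

namespace Vale.Agent.P159.H612

open Finset Matrix MeasureTheory ProbabilityTheory
open Vale.Agent.P159.TM.H104 (EM Ex Cv K3 Lg li nh Gr)
open Vale.Agent.P159.H37
open Vale.Agent.P159.H159 (GT egr_lin egr_coord egr_sum egr_Rs egr_mn egr_Cm egr_qf egr_Lg)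
open Vale.Agent.P159.H239 (Dom2 Dom Met TR ray mdz egr_mv egr_mvs int_qf_ray int_bf_zero)
open Vale.Agent.P159.H447

noncomputable section

variable {V : Type} [Fintype V] {μ : (V → ℤ) → ℝ} {Bm : Matrix V V ℝ}
variable {I : Type*} [Fintype I]

/-- the ray function of the remainder in terms of `Lg` -/
lemma ray_eq (hμ : EM μ) (hG : GT μ) (X Z : Matrix V I ℝ) (τ : ℝ) :
    ray (gau I) (Rs μ) (fun g => X *ᵥ g) (fun g => Z *ᵥ g) τ =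
      ∫ g, Lg μ (X *ᵥ g + τ • (Z *ᵥ g)) ∂(gau I) - Lg μ 0 -
        (∫ g, qf (Gm μ) (X *ᵥ g + τ • (Z *ᵥ g)) ∂(gau I)) / 2 := by
  have hLg := egr_Lg hμ hG
  have h1 : EGr fun g : I → ℝ => Lg μ (X *ᵥ g + τ • (Z *ᵥ g)) := egr_mvs hLg X Z τ
  have h2 : EGr fun g : I → ℝ => qf (Gm μ) (X *ᵥ g + τ • (Z *ᵥ g)) := egr_mvs (egr_qf _) X Z τ
  unfold H239.ray
  have e : (fun g : I → ℝ => Rs μ (X *ᵥ g + τ • (Z *ᵥ g))) =
      fun g => (Lg μ (X *ᵥ g + τ • (Z *ᵥ g)) - Lg μ 0) -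
        (1 / 2) * qf (Gm μ) (X *ᵥ g + τ • (Z *ᵥ g)) := by
    funext g
    unfold Rs
    ring
  have i1 : Integrable (fun g : I → ℝ => Lg μ (X *ᵥ g + τ • (Z *ᵥ g)) - Lg μ 0) (gau I) :=
    (int_egr h1).sub (integrable_const _)
  have i2 : Integrable (fun g : I → ℝ => (1 / 2) * qf (Gm μ) (X *ᵥ g + τ • (Z *ᵥ g))) (gau I) :=
    (int_egr h2).const_mul _
  rw [e, integral_sub i1 i2, integral_sub (int_egr h1) (integrable_const _),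
    integral_const, probReal_univ, integral_const_mul, smul_eq_mul, one_mul]
  ring

lemma egr_mdz (hμ : EM μ) (hG : GT μ) (X X2 Z : Matrix V I ℝ) (τ : ℝ) :
    EGr fun g : I → ℝ => mdz μ X X2 Z τ g := by
  have hLg := egr_Lg hμ hG
  exact (((egr_mvs hLg X Z τ).sub (egr_mv hLg X)).sub (egr_mvs hLg X2 Z τ)).add (egr_mv hLg X2)

lemma egr_bfm (M : Matrix V V ℝ) (A B : Matrix V I ℝ) :
    EGr fun g : I → ℝ => bf M (A *ᵥ g) (B *ᵥ g) := by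
  unfold bf
  refine egr_sum _ fun x _ => egr_sum _ fun y _ => ?_
  exact ((egr_mv (egr_coord x) A).mul (EGr.const _)).mul (egr_mv (egr_coord y) B)

/-- **mixed differences of ray functions** -/
theorem ray_mdz (hμ : EM μ) (hG : GT μ) (hGm : (Gm μ)ᵀ = Gm μ) {X X2 Z : Matrix V I ℝ}
    (hXZ : Z * Xᵀ = 0) (hX2 : Z * X2ᵀ = 0) (M : Matrix V V ℝ) (τ : ℝ) :
    ray (gau I) (Rs μ) (fun g => X *ᵥ g) (fun g => Z *ᵥ g) τ -
      ray (gau I) (Rs μ) (fun g => X2 *ᵥ g) (fun g => Z *ᵥ g) τ -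
      (ray (gau I) (Rs μ) (fun g => X *ᵥ g) (fun g => Z *ᵥ g) 0 -
      ray (gau I) (Rs μ) (fun g => X2 *ᵥ g) (fun g => Z *ᵥ g) 0) =
      ∫ g, (mdz μ X X2 Z τ g - τ * bf M ((X - X2) *ᵥ g) (Z *ᵥ g)) ∂(gau I) := by
  have hLg := egr_Lg hμ hG
  have eA := int_egr (egr_mv (I := I) hLg X)
  have eL := int_egr (egr_mv (I := I) hLg X2)
  have eAz := int_egr (egr_mvs (I := I) hLg X Z τ)
  have eLz := int_egr (egr_mvs (I := I) hLg X2 Z τ)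
  have hZ : Z * (X - X2)ᵀ = 0 := by
    rw [Matrix.transpose_sub, Matrix.mul_sub, hXZ, hX2, sub_zero]
  have h0 := int_bf_zero M hZ
  have hm : ∫ g, mdz μ X X2 Z τ g ∂(gau I) =
      ∫ g, Lg μ (X *ᵥ g + τ • (Z *ᵥ g)) ∂(gau I) - ∫ g, Lg μ (X *ᵥ g) ∂(gau I) -
        ∫ g, Lg μ (X2 *ᵥ g + τ • (Z *ᵥ g)) ∂(gau I) +
          ∫ g, Lg μ (X2 *ᵥ g) ∂(gau I) := by
    have e : (fun g => mdz μ X X2 Z τ g) = fun g => ((Lg μ (X *ᵥ g + τ • (Z *ᵥ g)) -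
        Lg μ (X *ᵥ g)) - Lg μ (X2 *ᵥ g + τ • (Z *ᵥ g))) + Lg μ (X2 *ᵥ g) := by
      funext g
      simp only [mdz]
    have j1 : Integrable (fun g : I → ℝ => Lg μ (X *ᵥ g + τ • (Z *ᵥ g)) - Lg μ (X *ᵥ g))
        (gau I) := eAz.sub eA
    have j2 : Integrable (fun g : I → ℝ => Lg μ (X *ᵥ g + τ • (Z *ᵥ g)) - Lg μ (X *ᵥ g) -
        Lg μ (X2 *ᵥ g + τ • (Z *ᵥ g))) (gau I) := j1.sub eLz
    rw [e, integral_add j2 eL, integral_sub j1 eLz, integral_sub eAz eA]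
  have i3 : Integrable (fun g : I → ℝ => τ * bf M ((X - X2) *ᵥ g) (Z *ᵥ g)) (gau I) :=
    (int_egr (egr_bfm M (X - X2) Z)).const_mul _
  rw [integral_sub (int_egr (egr_mdz hμ hG X X2 Z τ)) i3, integral_const_mul, h0, hm,
    ray_eq hμ hG, ray_eq hμ hG, ray_eq hμ hG, ray_eq hμ hG, int_qf_ray hGm hXZ, int_qf_ray hGm hX2,
    int_qf_ray hGm hXZ, int_qf_ray hGm hX2]
  simp only [zero_smul, add_zero]
  ring

/-- **localisation of a trace** (LT), bilinear part removed -/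
theorem loc_tr (h : Maj μ Bm) {X X2 Z : Matrix V I ℝ} (hXZ : X * Zᵀ = 0) (hX2 : X2 * Zᵀ = 0)
    (M : Matrix V V ℝ) {e d S : ℝ} (he : 0 < e)
    (hd : ∀ τ : ℝ, τ = 1 ∨ τ = 1 + e ∨ τ = 1 - e →
      ∫ g, |mdz μ X X2 Z τ g - τ * bf M ((X - X2) *ᵥ g) (Z *ᵥ g)| ∂(gau I) ≤ d)
    (hS : ray (gau I) (Rs μ) (fun g => X2 *ᵥ g) (fun g => Z *ᵥ g) (1 + e) +
      ray (gau I) (Rs μ) (fun g => X2 *ᵥ g) (fun g => Z *ᵥ g) (1 - e) -
      2 * ray (gau I) (Rs μ) (fun g => X2 *ᵥ g) (fun g => Z *ᵥ g) 1 ≤ S) :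
    |∫ g, pr (NR μ ((X + Z) *ᵥ g)) (Z * Zᵀ) ∂(gau I) -
      ∫ g, pr (NR μ ((X2 + Z) *ᵥ g)) (Z * Zᵀ) ∂(gau I)| ≤ (2 * d + S) / e := by
  have hGm : (Gm μ)ᵀ = Gm μ := H789.Cm_symm μ 0
  set c0 : ℝ := ray (gau I) (Rs μ) (fun g => X *ᵥ g) (fun g => Z *ᵥ g) 0 -
      ray (gau I) (Rs μ) (fun g => X2 *ᵥ g) (fun g => Z *ᵥ g) 0 with hc0
  have H : ∀ τ : ℝ, τ = 1 ∨ τ = 1 + e ∨ τ = 1 - e →
      |ray (gau I) (Rs μ) (fun g => X *ᵥ g) (fun g => Z *ᵥ g) τ -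
      ray (gau I) (Rs μ) (fun g => X2 *ᵥ g) (fun g => Z *ᵥ g) τ - c0| ≤ d := by
    intro τ hτ
    rw [hc0, ray_mdz h.em h.gt hGm (orth_tr hXZ) (orth_tr hX2) M τ]
    exact abs_integral_le_integral_abs.trans (hd τ hτ)
  have mx : ∀ Y : Matrix V I ℝ, Measurable fun g : I → ℝ => Y *ᵥ g := fun Y =>
    H552.meas_mulVec Y
  have hcv := H789.Rs_convex h.em h.ev h.pk
  have c1 := h.dom.ray_convex (P := gau I) hcv (mx X) (mx Z) (Q_int Bm X) (Q_int Bm Z)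
  have c2 := h.dom.ray_convex (P := gau I) hcv (mx X2) (mx Z) (Q_int Bm X2) (Q_int Bm Z)
  exact H239.cvx_slope c2 c1 he (h.d_ray hX2) (h.d_ray hXZ) (H 1 (Or.inl rfl))
    (H (1 + e) (Or.inr (Or.inl rfl))) (H (1 - e) (Or.inr (Or.inr rfl))) hS

/-! ### second difference of the ray function -/

lemma two_pow_ge (n : ℕ) : (4 : ℝ) ≤ 2 ^ (n + 2) := by
  have : (1 : ℝ) ≤ 2 ^ n := one_le_pow₀ one_le_two
  rw [pow_add]
  linarith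

theorem ray_S (h : Maj μ Bm) {X Z : Matrix V I ℝ} (hXZ : X * Zᵀ = 0)
    {n : ℕ} {D e lam p β q : ℝ} (he0 : 0 < e) (he1 : e ≤ 1) (hD : 0 < D)
    (hl : 0 ≤ lam) (hq : 0 < q)
    (hKD : K4S μ ((X + Z) * (X + Z)ᵀ) ((X + Z) * (X + Z)ᵀ) ≤ D)
    (hra : cl n (128 * (lam * D)) ≤ 1)
    (hp : (gau I).real {g | 1 < Rs μ ((2 : ℝ) ^ (n + 2) • ((X + Z) *ᵥ g))} ≤ p)
    (hβ : 4 * p + 12 * Real.exp (-(√lam / 10)) ≤ β)
    (hqA : pr Bm ((X + Z) * (X + Z)ᵀ) ≤ q) :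
    ray (gau I) (Rs μ) (fun g => X *ᵥ g) (fun g => Z *ᵥ g) (1 + e) +
      ray (gau I) (Rs μ) (fun g => X *ᵥ g) (fun g => Z *ᵥ g) (1 - e) -
      2 * ray (gau I) (Rs μ) (fun g => X *ᵥ g) (fun g => Z *ᵥ g) 1 ≤
      176 * (32 * (lam * D * e ^ 2)) ^ (1 - (1 / 2 : ℝ) ^ n) + 144 * (q * √β) := by
  set ra := cl n (128 * (lam * D)) with hradef
  set rh := cl n (8 * (lam * (e ^ 4 * D))) with hrhdef
  set ex := Real.exp (-(√lam / 10)) with hex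
  have hra0 : 0 ≤ ra := cl_nonneg _ _
  have hrh0 : 0 ≤ rh := cl_nonneg _ _
  have he2 : e ^ 2 ≤ 1 := pow_le_one₀ he0.le he1
  have he4 : e ^ 4 ≤ 1 := pow_le_one₀ he0.le he1
  have hlD : 0 ≤ lam * D := mul_nonneg hl hD.le
  have hrhra : rh ≤ ra := by
    refine cl_mono n ?_
    nlinarith
  have hrh : rh ≤ 1 := hrhra.trans hra
  set Q : (V → ℝ) → ℝ := fun J => qf Bm J / 2 with hQ
  have hdom : Dom2 (Rs μ) Q := h.dom
  have hQ0 : ∀ F, 0 ≤ Q F := fun F => hdom.toDom.Q_nonneg F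
  set x : (I → ℝ) → V → ℝ := fun g => X *ᵥ g with hx
  set z : (I → ℝ) → V → ℝ := fun g => Z *ᵥ g with hz
  have mx : Measurable x := H552.meas_mulVec X
  have mz : Measurable z := H552.meas_mulVec Z
  have hray : ∀ (τ : ℝ) (g : I → ℝ), x g + τ • z g = (X + τ • Z) *ᵥ g := fun τ g =>
    (C2.ray_mulVec X Z τ g).symm
  set A : Set (I → ℝ) := {g | (X + (1 : ℝ) • Z) *ᵥ g ∈ Gs μ n (lam * (16 * D))} ∩
    {g | (e • Z) *ᵥ g ∈ Gs μ n (lam * (e ^ 4 * D))} with hAdef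
  have mGs : ∀ (Y : Matrix V I ℝ) (b : ℝ), MeasurableSet {g : I → ℝ | Y *ᵥ g ∈ Gs μ n b} :=
    fun Y b => (h.Gs_meas n b).preimage (H552.meas_mulVec Y)
  have hA : MeasurableSet A := (mGs _ _).inter (mGs _ _)
  have hps1 : (((2 : ℝ) ^ 2) • ((X + Z) * (X + Z)ᵀ) -
      (X + (1 : ℝ) • Z) * (X + (1 : ℝ) • Z)ᵀ).PosSemidef := by
    have e4 : ((2 : ℝ) ^ 2) = 4 := by norm_num
    rw [e4]
    exact psd_ray hXZ (by norm_num) (by norm_num)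
  have hpz : (((2 : ℝ) ^ 2) • ((X + Z) * (X + Z)ᵀ) - (e • Z) * (e • Z)ᵀ).PosSemidef :=
    psd_ray_z hXZ (by norm_num) (he2.trans (by norm_num))
  have hK16 : K4S μ ((X + (1 : ℝ) • Z) * (X + (1 : ℝ) • Z)ᵀ)
      ((X + (1 : ℝ) • Z) * (X + (1 : ℝ) • Z)ᵀ) ≤ 16 * D := by
    rw [one_smul]
    linarith
  have hKe : K4S μ ((e • Z) * (e • Z)ᵀ) ((e • Z) * (e • Z)ᵀ) ≤ e ^ 4 * D := by
    have h1 := K4S_psd h.em h.ev h.pk (psd_gram (e • Z))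
      (psd_ray_z hXZ (sq_nonneg e) (le_refl (e ^ 2)))
    rw [K4S_smul2] at h1
    have : (e ^ 2) ^ 2 = e ^ 4 := by ring
    rw [this] at h1
    exact h1.trans (mul_le_mul_of_nonneg_left hKD (by positivity))
  have hPA : (gau I).real Aᶜ ≤ β := by
    have hsub : Aᶜ ⊆ {g | (X + (1 : ℝ) • Z) *ᵥ g ∉ Gs μ n (lam * (16 * D))} ∪
        {g | (e • Z) *ᵥ g ∉ Gs μ n (lam * (e ^ 4 * D))} := by
      rw [hAdef, Set.compl_inter]
      exact Set.Subset.rfl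
    have b1 := h.prob4 hps1 (D := 16 * D) (by positivity) hl hK16 hp
    have b4 := h.prob4 hpz (D := e ^ 4 * D) (by positivity) hl hKe hp
    refine (measureReal_mono hsub).trans ((measureReal_union_le _ _).trans ?_)
    linarith
  have e16 : 8 * (lam * (16 * D)) = 128 * (lam * D) := by ring
  have hAR : ∀ ω ∈ A, Rs μ (x ω + (1 : ℝ) • z ω) ≤ 1 ∧ TR (Rs μ) (x ω + (1 : ℝ) • z ω) ≤ ra := by
    intro ω hω
    rw [hray]
    obtain ⟨a1, -, a3⟩ := h.Gs_good hω.1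
    rw [e16] at a3
    exact ⟨a1, a3⟩
  have hAh : ∀ ω ∈ A, Rs μ (e • z ω) ≤ rh ∧ TR (Rs μ) (e • z ω) ≤ rh := by
    intro ω hω
    obtain ⟨-, a2, a3⟩ := h.Gs_good hω.2
    rw [Matrix.smul_mulVec] at a2 a3
    exact ⟨a2, a3⟩
  have hpr : ∀ Y : Matrix V I ℝ, (((2 : ℝ) ^ 2) • ((X + Z) * (X + Z)ᵀ) - Y * Yᵀ).PosSemidef →
      pr Bm (Y * Yᵀ) ≤ 4 * q := by
    intro Y hYp
    have h1 := pr_psd h.qf_nonneg hYp
    rw [pr_smul] at h1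
    linarith
  have hq4 : 0 < 4 * q := by linarith
  have t5 : ∫ ω in Aᶜ, Q (x ω + (1 : ℝ) • z ω) ∂(gau I) ≤ 6 * (4 * q) * √β := by
    simp only [hray]
    exact h.Q_set _ hq4 (hpr _ hps1) hA.compl hPA
  have t6 : ∫ ω in Aᶜ, Q (e • z ω) ∂(gau I) ≤ 6 * (4 * q) * √β := by
    have : ∀ ω, e • z ω = (e • Z) *ᵥ ω := fun ω => (Matrix.smul_mulVec _ _ _).symm
    simp only [this]
    exact h.Q_set _ hq4 (hpr _ hpz) hA.compl hPA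
  have key := hdom.ray_second (P := gau I) (x := x) (z := z) mx mz (Q_int Bm X) (Q_int Bm Z)
    (e := e) hA hra0 hra hrh0 hrh hAR hAh
  have hδ : (0 : ℝ) ≤ 1 - (1 / 2 : ℝ) ^ n := by
    have : (1 / 2 : ℝ) ^ n ≤ 1 := pow_le_one₀ (by norm_num) (by norm_num)
    linarith
  have s1 : √ra * √rh = 8 * (32 * (lam * D * e ^ 2)) ^ (1 - (1 / 2 : ℝ) ^ n) := by
    rw [hradef, hrhdef, sqrt_cl_mul n (by positivity) (by positivity)]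
    have e1 : 128 * (lam * D) * (8 * (lam * (e ^ 4 * D))) = (32 * (lam * D * e ^ 2)) ^ 2 := by
      ring
    rw [e1, Real.sqrt_sq (by positivity)]
  have s2 : rh ≤ 8 * (32 * (lam * D * e ^ 2)) ^ (1 - (1 / 2 : ℝ) ^ n) := by
    rw [hrhdef, cl_eq n (by positivity)]
    refine mul_le_mul_of_nonneg_left (Real.rpow_le_rpow (by positivity) ?_ hδ) (by norm_num)
    have h1 : e ^ 4 ≤ e ^ 2 := by nlinarith [sq_nonneg e]
    nlinarith [mul_le_mul_of_nonneg_left h1 hlD, mul_nonneg hlD (sq_nonneg e)]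
  rw [s1] at key
  linarith

/-! ### the mean mixed difference -/

lemma Lg_ge (h : Maj μ Bm) (J : V → ℝ) : 0 ≤ Lg μ J - Lg μ 0 := by
  have h1 := h.Rs_nonneg J
  have h2 : 0 ≤ qf (Gm μ) J := H114.qf_Cm_nonneg h.em 0 J
  unfold Rs at h1
  linarith

lemma abs_bf_le (h : Maj μ Bm) (u v : V → ℝ) : |bf Bm u v| ≤ qf Bm u / 2 + qf Bm v / 2 := by
  have h1 := h.qf_nonneg (u + v)
  have h2 := h.qf_nonneg (u + (-1 : ℝ) • v)
  rw [qf_add_vec h.symm] at h1 h2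
  rw [bf_smul_right, qf_smul] at h2
  rw [abs_le]
  constructor <;> linarith

lemma mdz_crude (h : Maj μ Bm) (hLg : ∀ J, Lg μ J - Lg μ 0 ≤ qf Bm J / 2)
    (X X2 Z : Matrix V I ℝ) (τ : ℝ) (g : I → ℝ) :
    |mdz μ X X2 Z τ g - τ * bf Bm ((X - X2) *ᵥ g) (Z *ᵥ g)| ≤
      qf Bm ((X + τ • Z) *ᵥ g) / 2 + qf Bm ((X2 + τ • Z) *ᵥ g) / 2 +
      3 * (qf Bm ((X + (0 : ℝ) • Z) *ᵥ g) / 2) + 3 * (qf Bm ((X2 + (0 : ℝ) • Z) *ᵥ g) / 2) +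
      qf Bm ((τ • Z) *ᵥ g) / 2 := by
  have e1 : (X + τ • Z) *ᵥ g = X *ᵥ g + τ • (Z *ᵥ g) := by rw [add_mulVec, smul_mulVec]
  have e2 : (X2 + τ • Z) *ᵥ g = X2 *ᵥ g + τ • (Z *ᵥ g) := by rw [add_mulVec, smul_mulVec]
  have e3 : τ * bf Bm ((X - X2) *ᵥ g) (Z *ᵥ g) = bf Bm (X *ᵥ g - X2 *ᵥ g) (τ • (Z *ᵥ g)) := by
    rw [bf_smul_right, sub_mulVec]
  have a1 := Lg_ge h (X *ᵥ g + τ • (Z *ᵥ g))
  have a2 := Lg_ge h (X *ᵥ g)
  have a3 := Lg_ge h (X2 *ᵥ g + τ • (Z *ᵥ g))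
  have a4 := Lg_ge h (X2 *ᵥ g)
  have b1 := hLg (X *ᵥ g + τ • (Z *ᵥ g))
  have b2 := hLg (X *ᵥ g)
  have b3 := hLg (X2 *ᵥ g + τ • (Z *ᵥ g))
  have b4 := hLg (X2 *ᵥ g)
  have c1 := abs_le.1 (abs_bf_le h (X *ᵥ g - X2 *ᵥ g) (τ • (Z *ᵥ g)))
  have c2 := H789.qf_par Bm (X *ᵥ g) (X2 *ᵥ g)
  have c3 := h.qf_nonneg (X *ᵥ g + X2 *ᵥ g)
  rw [e1, e2, e3, zero_smul, add_zero, add_zero, smul_mulVec]
  unfold H239.mdz
  rw [abs_le]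
  constructor <;> linarith

/-- **localisation of the trace form**, one prior; `X + Z` uncut, `X2 + Z` cut -/
theorem loc_one (h : Maj μ Bm) (hLg : ∀ J, Lg μ J - Lg μ 0 ≤ qf Bm J / 2)
    {X X2 Z : Matrix V I ℝ} (hXZ : X * Zᵀ = 0) (hX2 : X2 * Zᵀ = 0)
    {n : ℕ} {D e lam p pX β q E : ℝ} (he0 : 0 < e) (he1 : e ≤ 1) (hD : 0 < D)
    (hl : 0 ≤ lam) (hq : 0 < q)
    (hKD : K4S μ ((X2 + Z) * (X2 + Z)ᵀ) ((X2 + Z) * (X2 + Z)ᵀ) ≤ D)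
    (hra : 8 * (128 * (lam * D)) ^ (1 - (1 / 2 : ℝ) ^ n) ≤ 1)
    (hp : (gau I).real {g | 1 < Rs μ ((2 : ℝ) ^ (n + 2) • ((X2 + Z) *ᵥ g))} ≤ p)
    (hpX : (gau I).real {g | 1 < Rs μ ((4 : ℝ) • ((X + Z) *ᵥ g))} ≤ pX)
    (hβ : 4 * pX + 4 * p + 12 * Real.exp (-(√lam / 10)) ≤ β)
    (hqA : pr Bm ((X2 + Z) * (X2 + Z)ᵀ) ≤ q) (hqX : pr Bm ((X + Z) * (X + Z)ᵀ) ≤ q)
    {Er : (I → ℝ) → ℝ} (hEr0 : ∀ g, 0 ≤ Er g) (hErI : Integrable Er (gau I))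
    (hErE : ∫ g, Er g ∂(gau I) ≤ E)
    (hmix : ∀ τ : ℝ, 0 ≤ τ → τ ≤ 2 → ∀ g : I → ℝ, Rs μ ((2 : ℝ) • (X *ᵥ g)) ≤ 1 →
      Rs μ ((2 : ℝ) • (X *ᵥ g + τ • (Z *ᵥ g))) ≤ 1 → Rs μ ((2 : ℝ) • (X2 *ᵥ g)) ≤ 1 →
      Rs μ ((2 : ℝ) • (X2 *ᵥ g + τ • (Z *ᵥ g))) ≤ 1 →
      |mdz μ X X2 Z τ g - τ * bf Bm ((X - X2) *ᵥ g) (Z *ᵥ g)| ≤ Er g) :
    |∫ g, pr (NR μ ((X + Z) *ᵥ g)) (Z * Zᵀ) ∂(gau I) -
      ∫ g, pr (NR μ ((X2 + Z) *ᵥ g)) (Z * Zᵀ) ∂(gau I)| ≤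
      (2 * E + 176 * (32 * (lam * D * e ^ 2)) ^ (1 - (1 / 2 : ℝ) ^ n) + 576 * (q * √β)) / e := by
  have hlD : 0 ≤ lam * D := mul_nonneg hl hD.le
  have hra' : cl n (128 * (lam * D)) ≤ 1 := by
    rw [cl_eq n (by positivity)]
    exact hra
  have hex := Real.exp_pos (-(√lam / 10))
  have hp0 : 0 ≤ p := measureReal_nonneg.trans hp
  have hpX0 : 0 ≤ pX := measureReal_nonneg.trans hpX
  have hS := ray_S h hX2 (n := n) (D := D) (e := e) (lam := lam) (p := p) (β := β) (q := q) he0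
    he1 hD hl hq hKD hra' hp (by linarith) hqA
  have hp4 : (gau I).real {g | 1 < Rs μ ((4 : ℝ) • ((X2 + Z) *ᵥ g))} ≤ p :=
    (h.prob_scale (X2 + Z) (by norm_num) (two_pow_ge n)).trans hp
  have hps : ∀ Y : Matrix V I ℝ, Y * Zᵀ = 0 → ∀ τ : ℝ, τ ^ 2 ≤ 4 →
      (((2 : ℝ) ^ 2) • ((Y + Z) * (Y + Z)ᵀ) - (Y + τ • Z) * (Y + τ • Z)ᵀ).PosSemidef := by
    intro Y hY τ hτ
    have e4 : ((2 : ℝ) ^ 2) = 4 := by norm_num
    rw [e4]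
    exact psd_ray hY (by norm_num) hτ
  have hpr : ∀ Y W : Matrix V I ℝ, pr Bm (W * Wᵀ) ≤ q →
      (((2 : ℝ) ^ 2) • (W * Wᵀ) - Y * Yᵀ).PosSemidef → pr Bm (Y * Yᵀ) ≤ 4 * q := by
    intro Y W hW hYp
    have h1 := pr_psd h.qf_nonneg hYp
    rw [pr_smul] at h1
    linarith
  have hq4 : 0 < 4 * q := by linarith
  have hPr : ∀ Y : Matrix V I ℝ, Y * Zᵀ = 0 → ∀ (τ p' : ℝ), τ ^ 2 ≤ 4 →
      (gau I).real {g | 1 < Rs μ ((4 : ℝ) • ((Y + Z) *ᵥ g))} ≤ p' →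
      (gau I).real {g | 1 < Rs μ ((2 : ℝ) • ((Y + τ • Z) *ᵥ g))} ≤ 2 * p' := by
    intro Y hY τ p' hτ hp'
    have h1 := h.prob_psd 2 2 (hps Y hY τ hτ) 1
    have e4 : (2 : ℝ) * 2 = 4 := by norm_num
    rw [e4] at h1
    linarith
  refine loc_tr h hXZ hX2 Bm (e := e) (d := E + 216 * (q * √β))
    (S := 176 * (32 * (lam * D * e ^ 2)) ^ (1 - (1 / 2 : ℝ) ^ n) + 144 * (q * √β)) he0 ?_ hS
    |>.trans (le_of_eq ?_)
  · intro τ hτ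
    have hτ0 : 0 ≤ τ := by rcases hτ with rfl | rfl | rfl <;> linarith
    have hτ2 : τ ≤ 2 := by rcases hτ with rfl | rfl | rfl <;> linarith
    have hτ4 : τ ^ 2 ≤ 4 := by nlinarith
    have h04 : (0 : ℝ) ^ 2 ≤ 4 := by norm_num
    set G : Set (I → ℝ) := ({g | 1 < Rs μ ((2 : ℝ) • ((X + (0 : ℝ) • Z) *ᵥ g))} ∪
      ({g | 1 < Rs μ ((2 : ℝ) • ((X + τ • Z) *ᵥ g))} ∪
      ({g | 1 < Rs μ ((2 : ℝ) • ((X2 + (0 : ℝ) • Z) *ᵥ g))} ∪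
      {g | 1 < Rs μ ((2 : ℝ) • ((X2 + τ • Z) *ᵥ g))}))) with hGdef
    have mU : ∀ Y : Matrix V I ℝ, MeasurableSet {g : I → ℝ | 1 < Rs μ ((2 : ℝ) • (Y *ᵥ g))} :=
      fun Y => (h.U_meas 2).preimage (H552.meas_mulVec Y)
    have hGm : MeasurableSet G := (mU _).union ((mU _).union ((mU _).union (mU _)))
    have hPG : (gau I).real G ≤ β := by
      have c1 := measureReal_union_le (μ := gau I)
        {g | 1 < Rs μ ((2 : ℝ) • ((X + (0 : ℝ) • Z) *ᵥ g))}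
        ({g | 1 < Rs μ ((2 : ℝ) • ((X + τ • Z) *ᵥ g))} ∪
        ({g | 1 < Rs μ ((2 : ℝ) • ((X2 + (0 : ℝ) • Z) *ᵥ g))} ∪
        {g | 1 < Rs μ ((2 : ℝ) • ((X2 + τ • Z) *ᵥ g))}))
      have c2 := measureReal_union_le (μ := gau I)
        {g | 1 < Rs μ ((2 : ℝ) • ((X + τ • Z) *ᵥ g))}
        ({g | 1 < Rs μ ((2 : ℝ) • ((X2 + (0 : ℝ) • Z) *ᵥ g))} ∪
        {g | 1 < Rs μ ((2 : ℝ) • ((X2 + τ • Z) *ᵥ g))})
      have c3 := measureReal_union_le (μ := gau I)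
        {g | 1 < Rs μ ((2 : ℝ) • ((X2 + (0 : ℝ) • Z) *ᵥ g))}
        {g | 1 < Rs μ ((2 : ℝ) • ((X2 + τ • Z) *ᵥ g))}
      have d1 := hPr X hXZ 0 pX h04 hpX
      have d2 := hPr X hXZ τ pX hτ4 hpX
      have d3 := hPr X2 hX2 0 p h04 hp4
      have d4 := hPr X2 hX2 τ p hτ4 hp4
      linarith
    set F : (I → ℝ) → ℝ := fun g => mdz μ X X2 Z τ g - τ * bf Bm ((X - X2) *ᵥ g) (Z *ᵥ g) with hF
    have eF : EGr F := (egr_mdz h.em h.gt X X2 Z τ).sub ((egr_bfm Bm (X - X2) Z).cmul τ)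
    have iF : Integrable (fun g => |F g|) (gau I) := int_egr eF.abs
    have hon : ∀ g ∈ Gᶜ, |F g| ≤ Er g := by
      intro g hg
      simp only [hGdef, Set.mem_compl_iff, Set.mem_union, Set.mem_ofPred_eq, not_or, not_lt,
        add_mulVec, smul_mulVec, zero_smul, add_zero] at hg
      exact hmix τ hτ0 hτ2 g hg.1 hg.2.1 hg.2.2.1 hg.2.2.2
    have hQi : ∀ Y : Matrix V I ℝ, Integrable (fun g : I → ℝ => qf Bm (Y *ᵥ g) / 2) (gau I) :=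
      fun Y => Q_int Bm Y
    have k1 := h.Q_set (X + τ • Z) hq4 (hpr _ _ hqX (hps X hXZ τ hτ4)) hGm hPG
    have k2 := h.Q_set (X2 + τ • Z) hq4 (hpr _ _ hqA (hps X2 hX2 τ hτ4)) hGm hPG
    have k3 := h.Q_set (X + (0 : ℝ) • Z) hq4 (hpr _ _ hqX (hps X hXZ 0 h04)) hGm hPG
    have k4 := h.Q_set (X2 + (0 : ℝ) • Z) hq4 (hpr _ _ hqA (hps X2 hX2 0 h04)) hGm hPG
    have k5 := h.Q_set (τ • Z) hq4 (hpr _ _ hqX (psd_ray_z hXZ (by norm_num)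
      (hτ4.trans (by norm_num)))) hGm hPG
    have hcr : ∫ g in G, |F g| ∂(gau I) ≤ 216 * (q * √β) := by
      have i1 : Integrable (fun g : I → ℝ => qf Bm ((X + τ • Z) *ᵥ g) / 2 +
          qf Bm ((X2 + τ • Z) *ᵥ g) / 2) (gau I) := (hQi _).add (hQi _)
      have i2 : Integrable (fun g : I → ℝ => qf Bm ((X + τ • Z) *ᵥ g) / 2 +
          qf Bm ((X2 + τ • Z) *ᵥ g) / 2 + 3 * (qf Bm ((X + (0 : ℝ) • Z) *ᵥ g) / 2)) (gau I) :=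
        i1.add ((hQi _).const_mul 3)
      have i3 : Integrable (fun g : I → ℝ => qf Bm ((X + τ • Z) *ᵥ g) / 2 +
          qf Bm ((X2 + τ • Z) *ᵥ g) / 2 + 3 * (qf Bm ((X + (0 : ℝ) • Z) *ᵥ g) / 2) +
          3 * (qf Bm ((X2 + (0 : ℝ) • Z) *ᵥ g) / 2)) (gau I) := i2.add ((hQi _).const_mul 3)
      have i4 : Integrable (fun g : I → ℝ => qf Bm ((X + τ • Z) *ᵥ g) / 2 +
          qf Bm ((X2 + τ • Z) *ᵥ g) / 2 + 3 * (qf Bm ((X + (0 : ℝ) • Z) *ᵥ g) / 2) +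
          3 * (qf Bm ((X2 + (0 : ℝ) • Z) *ᵥ g) / 2) + qf Bm ((τ • Z) *ᵥ g) / 2) (gau I) :=
        i3.add (hQi _)
      refine (setIntegral_mono iF.integrableOn i4.integrableOn fun g =>
        mdz_crude h hLg X X2 Z τ g).trans ?_
      rw [integral_add i3.integrableOn (hQi _).integrableOn,
        integral_add i2.integrableOn ((hQi _).const_mul 3).integrableOn,
        integral_add i1.integrableOn ((hQi _).const_mul 3).integrableOn,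
        integral_add (hQi _).integrableOn (hQi _).integrableOn, integral_const_mul,
        integral_const_mul]
      linarith
    have hE0 : ∫ g in Gᶜ, |F g| ∂(gau I) ≤ E := by
      refine (setIntegral_mono_on iF.integrableOn hErI.integrableOn hGm.compl hon).trans ?_
      exact (setIntegral_le_integral hErI (Filter.Eventually.of_forall hEr0)).trans hErE
    have hsum := integral_add_compl hGm iF
    show ∫ g, |F g| ∂(gau I) ≤ _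
    rw [← hsum]
    linarith
  · ring

end

end Vale.Agent.P159.H612
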