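import Vale.Agent.P159.H612.Nearg1
import Vale.Agent.P159.H612.Pu4
import Vale.Agent.P159.H447.LawT

/-!
P159 / GLUE P_up, module NEARG (helper612), part 2: the torus.

* `PUH` : pointwise locality of the neutral posterior (number `κ e`, offset `8 ω²`); `puh_of` : from
  `pu4`;
* `Wsep` : window `w`, reference box `w₀`, test cells `S`;
* `mdz_cell` : mixed difference for cell fields cut to a window.
-/

set_option linter.unusedSectionVars false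

namespace Vale.Agent.P159.H612

open Finset Matrix MeasureTheory ProbabilityTheory
open Vale.Agent.P159.TM.H104 (EM Ex Cv K3 Lg li nh Gr)
open Vale.Agent.P159.H37
open Vale.Agent.P159.H159 (GT Ct egr_lin egr_coord egr_sum egr_qf)
open Vale.Agent.P159.H239 (mdz egr_mv int_mv_mul)
open Vale.Agent.P159.TM.Spec (V)
open Vale.Agent.P159.TM.SpecC (wT)
open Vale.Agent.P159.TM.H459 (sd)
open Vale.Agent.P159.H145 (OscZ cs)
open Vale.Agent.P159.H963 (Neu Pn nwt Gnc gw_wT mf_smul neu_Pn neu_cobV_tr em_nwt ev_nwt pk_nwt)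
open Vale.Agent.P159.H864 (cobV)
open Vale.Agent.P159.H859 (Sgn Lw Aw dB ravg Lw_mulVec Lw_of_supp)
open Vale.Agent.P159.H447

noncomputable section

/-! ### the input -/

/-- pointwise locality of the neutral posterior `nwt N b T 0`, sources far modulo constants -/
def PUH (N : ℕ) [NeZero N] (b T R κ ω : ℝ) : Prop :=
  ∀ (J u v : V N → ℝ) (κ₁ κ₂ A B : ℝ), 0 < A → 0 < B → Neu J → Neu u → Neu v →
    ∑ x, (u x - κ₁) ^ 2 ≤ A ^ 2 → ∑ x, (v x - κ₂) ^ 2 ≤ B ^ 2 →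
    (∀ x z, u x - κ₁ ≠ 0 → v z - κ₂ ≠ 0 → R ≤ sd x z) →
    Rs (nwt N b T 0) ((2 : ℝ) • J) ≤ 1 → Rs (nwt N b T 0) ((2 : ℝ) • (J + u)) ≤ 1 →
    Rs (nwt N b T 0) ((2 : ℝ) • (J + v)) ≤ 1 → Rs (nwt N b T 0) ((2 : ℝ) • (J + u + v)) ≤ 1 →
    |Lg (nwt N b T 0) (J + u + v) - Lg (nwt N b T 0) (J + u) - Lg (nwt N b T 0) (J + v) +
      Lg (nwt N b T 0) J - (∑ x, u x * v x) / T| ≤ κ * A * B + 8 * ω ^ 2

/-- the input holds by `pu4` -/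
theorem puh_of {b1 : ℝ} (hb1 : 0 < b1) (b2 a : ℝ) :
    ∃ W₀ : ℝ, ∃ c C ys : ℝ, ∃ X : ℕ, 0 < c ∧ 1 ≤ C ∧ 0 < ys ∧ 1 ≤ X ∧ ∀ W : ℝ, W₀ ≤ W →
    ∀ (N : ℕ) [NeZero N] (b : ℝ) (ξ : ℕ) (y : ℝ),
      TM.Spec.Rng b1 b2 a W ys X N b ξ y → (N : ℝ) * y ≤ c * ξ →
      ∀ T : ℝ, 1 / (ξ : ℝ) ^ 2 ≤ T → ∀ ω : ℝ, ω ≤ 1 / 2 →
      OscZ (wT b N) (T • (1 : Matrix (V N) (V N) ℝ)) ω → ∀ R : ℝ, 0 < R →
      PUH N b T R (Real.exp ((1 + 16 * ω) / 2) * (ξ : ℝ) ^ 2 * (C * Real.exp (-(c * (R / ξ)))))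
        ω := by
  obtain ⟨W₀, c, C, ys, X, hc, hC, hys, hX, h⟩ := pu4 hb1 b2 a
  refine ⟨W₀, c, C, ys, X, hc, hC, hys, hX, ?_⟩
  intro W hW N _ b ξ y hR hN T hT ω hω hO R hR0 J u v κ₁ κ₂ A B hA hB hJ hu hv h1 h2 hsup
    r1 r2 r3 r4
  have hξ : 0 < ξ := by
    have := hR.hX
    omega
  have hξR : (0 : ℝ) < ξ := by exact_mod_cast hξ
  have e1 : ∀ x : ℝ, (ξ * x) ^ 2 * (1 / (ξ : ℝ) ^ 2) = x ^ 2 := fun x => by field_simp
  have key := h W hW N b ξ y hR hN u v κ₁ κ₂ (ξ * A) (ξ * B) (R / ξ) (by positivity)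
    (by positivity) (by positivity) hu hv (by rw [e1]; exact h1) (by rw [e1]; exact h2)
    (fun x z hx hz => by
      rw [div_mul_cancel₀ _ hξR.ne']
      exact hsup x z hx hz) T hT ω hω hO 0 J 1 hJ r1 r2 r3 r4
  refine key.trans (le_of_eq ?_)
  ring

lemma PUH.symm_nonneg {N : ℕ} [NeZero N] {b T R κ ω : ℝ} (_ : PUH N b T R κ ω) : 0 ≤ 8 * ω ^ 2 := by
  positivity

/-! ### cells -/

variable {N l : ℕ} [NeZero N] [NeZero (N / l)] {b T : ℝ}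

/-- mean over the cells -/
def mnc (f : V (N / l) → ℝ) : ℝ := (∑ y, f y) / Fintype.card (V (N / l))

lemma CNt_eq (f : V (N / l) → ℝ) :
    (CN N l)ᵀ *ᵥ f = (cobV N l)ᵀ *ᵥ ((Pn : Matrix (V (N / l)) (V (N / l)) ℝ) *ᵥ f) := by
  unfold CN
  rw [Matrix.transpose_mul, H963.Pn_transpose, Matrix.mulVec_mulVec]

lemma CNt_apply (f : V (N / l) → ℝ) (x : V N) :
    ((CN N l)ᵀ *ᵥ f) x = (l : ℝ)⁻¹ * (f (H864.cl x) - mnc f) := by
  rw [CNt_eq, H864.cobV_tr_mulVec, H963.Pn_mulVec]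
  rfl

lemma neu_CNt (hl : l ∣ N) (f : V (N / l) → ℝ) : Neu ((CN N l)ᵀ *ᵥ f) := by
  rw [CNt_eq]
  exact neu_cobV_tr hl (neu_Pn f)

/-- spread of a cell function: norm -/
lemma sum_cell_sq (hl : l ∣ N) (φ : V (N / l) → ℝ) :
    ∑ x : V N, ((l : ℝ)⁻¹ * φ (H864.cl x)) ^ 2 = ∑ c, φ c ^ 2 := by
  rw [← H864.sq_cobV_tr hl φ]
  exact Finset.sum_congr rfl fun x _ => by rw [H864.cobV_tr_mulVec]

/-- a window `w`, the reference box `w₀ ⊆ w` and the test cells `S ⊆ w \ w₀`, at distance `≥ R`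
from the outside of `w` -/
structure Wsep (l : ℕ) (w w₀ S : Finset (V (N / l))) (R : ℝ) : Prop where
  sub : S ⊆ w
  ne : w₀.Nonempty
  dj : Disjoint S w₀
  sep : ∀ x z : V N, (H864.cl x : V (N / l)) ∉ w → (H864.cl z : V (N / l)) ∈ S → R ≤ sd x z

lemma bf_Bnwt (hT : 0 < T) (x₀ : V N) {u v : V N → ℝ} (hu : Neu u) (hv : Neu v) :
    bf (Bnwt N T x₀) u v = (∑ x, u x * v x) / T := by
  unfold Bnwt
  rw [bf_eq, ← Matrix.mulVec_mulVec, ← Matrix.mulVec_mulVec, E0_of_neu x₀ hv,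
    H447.inv_smul_one hT, smul_mulVec, one_mulVec, Matrix.dotProduct_mulVec,
    Matrix.vecMul_transpose, E0_of_neu x₀ hu, dotProduct_smul, smul_eq_mul]
  simp only [dotProduct]
  field_simp

variable {I : Type*} [Fintype I] {w w₀ S : Finset (V (N / l))} {R κ ω : ℝ}

/-- **the mixed difference for cell fields** -/
theorem mdz_cell (hl : l ∣ N) (hT : 0 < T) (hκ : 0 ≤ κ) (hPU : PUH N b T R κ ω)
    (hW : Wsep (N := N) l w w₀ S R) {X0 Z0 : Matrix (V (N / l)) I ℝ}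
    (hZ0 : ∀ c i, Z0 c i ≠ 0 → c ∈ S) (τ : ℝ) (g : I → ℝ)
    (r1 : Rs (nwt N b T 0) ((2 : ℝ) • (((CN N l)ᵀ * X0) *ᵥ g)) ≤ 1)
    (r2 : Rs (nwt N b T 0) ((2 : ℝ) • (((CN N l)ᵀ * X0) *ᵥ g + τ • (((CN N l)ᵀ * Z0) *ᵥ g))) ≤ 1)
    (r3 : Rs (nwt N b T 0) ((2 : ℝ) • (((CN N l)ᵀ * (Lw w w₀ * X0)) *ᵥ g)) ≤ 1)
    (r4 : Rs (nwt N b T 0) ((2 : ℝ) • (((CN N l)ᵀ * (Lw w w₀ * X0)) *ᵥ g +
      τ • (((CN N l)ᵀ * Z0) *ᵥ g))) ≤ 1) :
    |mdz (nwt N b T 0) ((CN N l)ᵀ * X0) ((CN N l)ᵀ * (Lw w w₀ * X0)) ((CN N l)ᵀ * Z0) τ g -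
      τ * bf (Bnwt N T 0) (((CN N l)ᵀ * X0 - (CN N l)ᵀ * (Lw w w₀ * X0)) *ᵥ g)
        (((CN N l)ᵀ * Z0) *ᵥ g)| ≤
      κ * ((∑ c, ((Lw wᶜ w₀ * X0) *ᵥ g) c ^ 2 + T) + (τ ^ 2 * ∑ c, (Z0 *ᵥ g) c ^ 2 + T)) / 2 +
        8 * ω ^ 2 := by
  classical
  set f : V (N / l) → ℝ := X0 *ᵥ g with hf
  set ζ : V (N / l) → ℝ := Z0 *ᵥ g with hζ
  set F : V N → ℝ := (CN N l)ᵀ *ᵥ f with hF
  set F2 : V N → ℝ := (CN N l)ᵀ *ᵥ (Lw w w₀ *ᵥ f) with hF2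
  set z : V N → ℝ := (CN N l)ᵀ *ᵥ ζ with hz
  have eF : ((CN N l)ᵀ * X0) *ᵥ g = F := by rw [← Matrix.mulVec_mulVec]
  have eF2 : ((CN N l)ᵀ * (Lw w w₀ * X0)) *ᵥ g = F2 := by
    rw [← Matrix.mulVec_mulVec, ← Matrix.mulVec_mulVec]
  have ez : ((CN N l)ᵀ * Z0) *ᵥ g = z := by rw [← Matrix.mulVec_mulVec]
  have eu : ((CN N l)ᵀ * X0 - (CN N l)ᵀ * (Lw w w₀ * X0)) *ᵥ g = F - F2 := by
    rw [Matrix.sub_mulVec, eF, eF2]
  have eL : (Lw wᶜ w₀ * X0) *ᵥ g = Lw wᶜ w₀ *ᵥ f := by rw [← Matrix.mulVec_mulVec]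
  rw [eF] at r1 r2
  rw [eF2] at r3 r4
  rw [ez] at r2 r4
  rw [eu, ez, eL]
  unfold H239.mdz
  rw [eF, eF2, ez]
  set av : ℝ := (w₀.card : ℝ)⁻¹ * ∑ y ∈ w₀, f y with hav
  set κ₁ : ℝ := (l : ℝ)⁻¹ * (av - mnc (f - Lw w w₀ *ᵥ f)) with hκ₁
  set κ₂ : ℝ := -(τ * ((l : ℝ)⁻¹ * mnc ζ)) with hκ₂
  have nF : Neu F := neu_CNt hl f
  have nF2 : Neu F2 := neu_CNt hl _
  have nz : Neu z := neu_CNt hl ζ
  have nu : Neu (F - F2) := nF.sub nF2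
  have nv : Neu (τ • z) := nz.smul τ
  -- the two sources modulo constants
  have hu : ∀ x, (F - F2) x - κ₁ = (l : ℝ)⁻¹ * (Lw wᶜ w₀ *ᵥ f) (H864.cl x) := by
    intro x
    have h1 : F - F2 = (CN N l)ᵀ *ᵥ (f - Lw w w₀ *ᵥ f) := by rw [hF, hF2, Matrix.mulVec_sub]
    rw [h1, CNt_apply, hκ₁, Lw_mulVec, Pi.sub_apply, Lw_mulVec]
    by_cases hx : (H864.cl x : V (N / l)) ∈ w
    · have hx' : (H864.cl x : V (N / l)) ∉ wᶜ := by simpa using hx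
      rw [if_pos hx, if_neg hx']
      ring
    · have hx' : (H864.cl x : V (N / l)) ∈ wᶜ := by simpa using hx
      rw [if_neg hx, if_pos hx']
      ring
  have hv : ∀ x, (τ • z) x - κ₂ = (l : ℝ)⁻¹ * (τ • ζ) (H864.cl x) := by
    intro x
    rw [Pi.smul_apply, hz, CNt_apply, hκ₂, Pi.smul_apply, smul_eq_mul, smul_eq_mul]
    ring
  set A2 : ℝ := ∑ c, (Lw wᶜ w₀ *ᵥ f) c ^ 2 + T with hA2
  set B2 : ℝ := τ ^ 2 * ∑ c, ζ c ^ 2 + T with hB2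
  have hA0 : 0 < A2 := by
    have : 0 ≤ ∑ c, (Lw wᶜ w₀ *ᵥ f) c ^ 2 := Finset.sum_nonneg fun _ _ => sq_nonneg _
    linarith
  have hB0 : 0 < B2 := by
    have : 0 ≤ ∑ c, ζ c ^ 2 := Finset.sum_nonneg fun _ _ => sq_nonneg _
    have := mul_nonneg (sq_nonneg τ) this
    linarith
  have s1 : ∑ x, ((F - F2) x - κ₁) ^ 2 ≤ √A2 ^ 2 := by
    rw [Real.sq_sqrt hA0.le]
    simp only [hu]
    rw [sum_cell_sq hl]
    linarith
  have s2 : ∑ x, ((τ • z) x - κ₂) ^ 2 ≤ √B2 ^ 2 := by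
    rw [Real.sq_sqrt hB0.le]
    simp only [hv]
    rw [sum_cell_sq hl]
    simp only [Pi.smul_apply, smul_eq_mul, mul_pow]
    rw [← Finset.mul_sum]
    linarith
  have hsup : ∀ x y, (F - F2) x - κ₁ ≠ 0 → (τ • z) y - κ₂ ≠ 0 → R ≤ sd x y := by
    intro x y hx hy
    refine hW.sep x y ?_ ?_
    · intro hc
      apply hx
      rw [hu, Lw_mulVec, if_neg (by simpa using hc), mul_zero]
    · by_contra hc
      apply hy
      have h0 : ζ (H864.cl y) = 0 := by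
        rw [hζ]
        simp only [Matrix.mulVec, dotProduct]
        refine Finset.sum_eq_zero fun i _ => ?_
        have : Z0 (H864.cl y) i = 0 := by
          by_contra hne
          exact hc (hZ0 _ _ hne)
        rw [this, zero_mul]
      rw [hv, Pi.smul_apply, h0, smul_zero, mul_zero]
  have c1 : F2 + (F - F2) = F := by abel
  have c2 : F2 + (F - F2) + τ • z = F + τ • z := by rw [c1]
  have key := hPU F2 (F - F2) (τ • z) κ₁ κ₂ (√A2) (√B2) (Real.sqrt_pos.2 hA0)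
    (Real.sqrt_pos.2 hB0) nF2 nu nv s1 s2 hsup r3 (by rw [c1]; exact r1) r4
    (by rw [c1]; exact r2)
  rw [c1] at key
  have hbf : τ * bf (Bnwt N T 0) (F - F2) z = (∑ x, (F - F2) x * (τ • z) x) / T := by
    rw [bf_Bnwt hT 0 nu nz]
    simp only [Pi.smul_apply, smul_eq_mul]
    rw [mul_div_assoc', Finset.mul_sum]
    congr 1
    exact Finset.sum_congr rfl fun x _ => by ring
  rw [hbf]
  have hAB : κ * √A2 * √B2 ≤ κ * (A2 + B2) / 2 := by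
    have h1 : √A2 * √B2 ≤ (A2 + B2) / 2 := by
      have h2 := sq_nonneg (√A2 - √B2)
      have h3 := Real.sq_sqrt hA0.le
      have h4 := Real.sq_sqrt hB0.le
      nlinarith
    rw [mul_assoc, mul_div_assoc]
    exact mul_le_mul_of_nonneg_left h1 hκ
  refine le_trans (le_of_eq ?_) (key.trans (by linarith))
  congr 1

end

end Vale.Agent.P159.H612
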