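import Vale.Agent.P159.H612.Nearg2

/-!
P159 / GLUE P_up, module NEARG (helper612), part 3: **localisation of the mean excess covariance on
the cell torus, trace form, one prior** (`loc_tor`): the law `CNᵀ A g` of the source (prior `s`,
posterior `T`) against the law `CNᵀ Lw A g` cut to a window, tested with `B Bᵀ`, `B` a contraction
with rows in the test cells.
-/

set_option linter.unusedSectionVars false

namespace Vale.Agent.P159.H612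

open Finset Matrix MeasureTheory ProbabilityTheory
open Vale.Agent.P159.TM.H104 (EM Ex Cv K3 Lg li nh Gr)
open Vale.Agent.P159.H37
open Vale.Agent.P159.H159 (GT Ct egr_lin egr_coord egr_sum egr_qf)
open Vale.Agent.P159.H239 (mdz egr_mv int_mv_mul exists_increment)
open Vale.Agent.P159.TM.Spec (V)
open Vale.Agent.P159.TM.SpecC (wT)
open Vale.Agent.P159.H963 (Neu Pn nwt Gnc gw_wT mf_smul neu_Pn neu_cobV_tr em_nwt ev_nwt pk_nwt)
open Vale.Agent.P159.H864 (cobV)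
open Vale.Agent.P159.H859 (Sgn Lw Aw dB ravg Lw_mulVec Lw_of_supp psd_of)
open Vale.Agent.P159.H447

noncomputable section

/-! ### second moments -/

section mom

variable {W : Type*} [Fintype W] {I : Type*} [Fintype I]

lemma egr_sq (Y : Matrix W I ℝ) : EGr fun g : I → ℝ => ∑ c, (Y *ᵥ g) c ^ 2 := by
  refine egr_sum _ fun c _ => ?_
  have h1 : EGr fun g : I → ℝ => (Y *ᵥ g) c := egr_mv (egr_coord c) Y
  have := h1.mul h1
  simpa only [pow_two] using this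

lemma int_sq (Y : Matrix W I ℝ) :
    ∫ g, ∑ c, (Y *ᵥ g) c ^ 2 ∂(gau I) = ∑ c, (Y * Yᵀ) c c := by
  have hi : ∀ c, Integrable (fun g : I → ℝ => (Y *ᵥ g) c ^ 2) (gau I) := by
    intro c
    have h1 : EGr fun g : I → ℝ => (Y *ᵥ g) c := egr_mv (egr_coord c) Y
    have := int_egr (h1.mul h1)
    simpa only [pow_two] using this
  rw [integral_finsetSum _ fun c _ => hi c]
  refine Finset.sum_congr rfl fun c _ => ?_
  rw [← int_mv_mul]
  simp only [pow_two]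

lemma sum_gram (Y : Matrix W I ℝ) : ∑ c, (Y * Yᵀ) c c = ∑ c, ∑ i, Y c i ^ 2 := by
  refine Finset.sum_congr rfl fun c _ => ?_
  rw [Matrix.mul_apply]
  exact Finset.sum_congr rfl fun i _ => by rw [Matrix.transpose_apply, pow_two]

/-- trace of a conjugated covariance -/
lemma tr_conj_le {U : Type*} [Fintype U] (L : Matrix W U ℝ) {M : Matrix U U ℝ} {κ ρ : ℝ}
    (hM : ∀ u, qf M u ≤ κ * ∑ x, u x ^ 2) (hκ : 0 ≤ κ) (hL : ∀ c, ∑ y, L c y ^ 2 ≤ ρ) :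
    ∑ c, (L * M * Lᵀ) c c ≤ κ * (Fintype.card W * ρ) := by
  have h1 : ∀ c, (L * M * Lᵀ) c c ≤ κ * ρ := by
    intro c
    rw [H730.QAQ_apply, bf_self]
    exact (hM _).trans (mul_le_mul_of_nonneg_left (hL c) hκ)
  refine (Finset.sum_le_sum fun c _ => h1 c).trans (le_of_eq ?_)
  rw [Finset.sum_const, Finset.card_univ, nsmul_eq_mul]
  ring

end mom

/-! ### the cut -/

section cut

variable {n : ℕ} [NeZero n]

lemma Lw_row (w w₀ : Finset (V n)) (c : V n) : ∑ y, Lw w w₀ c y ^ 2 ≤ 2 := by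
  classical
  simp only [H859.Lw_apply]
  by_cases hc : c ∈ w
  · simp only [if_pos hc]
    rcases w₀.eq_empty_or_nonempty with h0 | h0
    · subst h0
      have e : ∀ y, ravg c (Aw (∅ : Finset (V n)) c) y ^ 2 = if y = c then 1 else 0 := by
        intro y
        unfold H859.ravg H859.Aw
        simp only [Finset.notMem_empty, if_false, Matrix.of_apply, sub_zero, Pi.single_apply]
        split_ifs <;> norm_num
      simp only [e]
      rw [Finset.sum_ite_eq']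
      simp
    · have hpos : (0 : ℝ) < w₀.card := by exact_mod_cast h0.card_pos
      have hge : (1 : ℝ) ≤ w₀.card := by exact_mod_cast h0.card_pos
      have e : ∀ y, ravg c (Aw w₀ c) y ^ 2 ≤ (if y = c then 1 else 0) +
          (if y ∈ w₀ then ((w₀.card : ℝ)⁻¹) ^ 2 else 0) := by
        intro y
        unfold H859.ravg H859.Aw
        simp only [Matrix.of_apply, Pi.single_apply]
        have hi : 0 < (w₀.card : ℝ)⁻¹ := inv_pos.2 hpos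
        split_ifs <;> nlinarith
      refine (Finset.sum_le_sum fun y _ => e y).trans ?_
      rw [Finset.sum_add_distrib, Finset.sum_ite_eq', Finset.sum_ite_mem, Finset.univ_inter,
        Finset.sum_const, nsmul_eq_mul]
      simp only [Finset.mem_univ, if_true]
      have h2 : (w₀.card : ℝ) * ((w₀.card : ℝ)⁻¹) ^ 2 = (w₀.card : ℝ)⁻¹ := by field_simp
      rw [h2]
      have : (w₀.card : ℝ)⁻¹ ≤ 1 := inv_le_one_of_one_le₀ hge
      linarith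
  · simp only [if_neg hc]
    simp

/-- the cut does nothing to fields on the test cells -/
lemma Lw_mul_of {I : Type*} [Fintype I] {w w₀ S : Finset (V n)} (hS : S ⊆ w) (hd : Disjoint S w₀)
    {Z : Matrix (V n) I ℝ} (hZ : ∀ c i, Z c i ≠ 0 → c ∈ S) : Lw w w₀ * Z = Z := by
  ext c i
  have h1 : Lw w w₀ *ᵥ (fun y => Z y i) = fun y => Z y i := by
    refine Lw_of_supp (fun x hx => ?_) (Finset.sum_eq_zero fun y hy => ?_)
    · by_contra hne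
      exact hx (hS (hZ x i hne))
    · by_contra hne
      exact Finset.disjoint_left.1 hd (hZ y i hne) hy
  exact congrFun h1 c

end cut

/-! ### one prior -/

variable {N l : ℕ} [NeZero N] [NeZero (N / l)] {b T s : ℝ}

/-- the norm of the source -/
lemma sum_CNt_sq_le (hl : l ∣ N) (f : V (N / l) → ℝ) :
    ∑ x, ((CN N l)ᵀ *ᵥ f) x ^ 2 ≤ ∑ c, f c ^ 2 := by
  rw [CNt_eq, H864.sq_cobV_tr hl, H963.Pn_mulVec]
  have hc : (0 : ℝ) < Fintype.card (V (N / l)) := Nat.cast_pos.2 Fintype.card_pos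
  set m : ℝ := (∑ y, f y) / Fintype.card (V (N / l)) with hm
  have e : ∑ x, f x = m * Fintype.card (V (N / l)) := by
    rw [hm]
    field_simp
  have h1 : ∑ x, (f x - m) ^ 2 = ∑ x, f x ^ 2 - m ^ 2 * Fintype.card (V (N / l)) := by
    have h2 : ∀ x, (f x - m) ^ 2 = f x ^ 2 - 2 * m * f x + m ^ 2 := fun x => by ring
    simp only [h2, Finset.sum_add_distrib, Finset.sum_sub_distrib, ← Finset.mul_sum, e,
      Finset.sum_const, Finset.card_univ, nsmul_eq_mul]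
    ring
  rw [h1]
  have := mul_nonneg (sq_nonneg m) hc.le
  linarith

/-- trace of the majorant on cell fields -/
lemma pr_cell_le (hl : l ∣ N) (hT : 0 < T) {I : Type*} [Fintype I]
    (Y : Matrix (V (N / l)) I ℝ) :
    pr (Bnwt N T 0) (((CN N l)ᵀ * Y) * ((CN N l)ᵀ * Y)ᵀ) ≤ T⁻¹ * ∑ c, (Y * Yᵀ) c c := by
  have hneu : ∀ i, ∑ x, ((CN N l)ᵀ * Y) x i = 0 := fun i => neu_CNt hl fun c => Y c i
  rw [pr_Bnwt hT 0 hneu, sum_gram]
  refine mul_le_mul_of_nonneg_left ?_ (inv_pos.2 hT).le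
  rw [Finset.sum_comm, Finset.sum_comm (s := (Finset.univ : Finset (V (N / l))))]
  refine Finset.sum_le_sum fun i _ => ?_
  exact sum_CNt_sq_le hl _

lemma Lg_maj (hb : 0 ≤ b) (hT : 0 < T) (J : V N → ℝ) :
    Lg (nwt N b T 0) J - Lg (nwt N b T 0) 0 ≤ qf (Bnwt N T 0) J / 2 := by
  have h1 := (gw_wT (N := N) hb).Lg_nM_le_inv (mf_smul hT) (0 : V N) (E0_neu (0 : V N) J)
  rw [Lg_E0] at h1
  unfold Bnwt
  rw [← qf_conj]
  exact h1

variable {I : Type*} [Fintype I] {w w₀ S : Finset (V (N / l))} {R κ ω : ℝ}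

/-- the error function -/
def ErF (T κ ω : ℝ) (L Z' : Matrix (V (N / l)) I ℝ) (g : I → ℝ) : ℝ :=
  κ * ((∑ c, (L *ᵥ g) c ^ 2 + T) + (4 * ∑ c, (Z' *ᵥ g) c ^ 2 + T)) / 2 + 8 * ω ^ 2

lemma ErF_nonneg (hT : 0 < T) (hκ : 0 ≤ κ) (L Z' : Matrix (V (N / l)) I ℝ) (g : I → ℝ) :
    0 ≤ ErF T κ ω L Z' g := by
  have a1 : 0 ≤ ∑ c, (L *ᵥ g) c ^ 2 := Finset.sum_nonneg fun _ _ => sq_nonneg _
  have a2 : 0 ≤ ∑ c, (Z' *ᵥ g) c ^ 2 := Finset.sum_nonneg fun _ _ => sq_nonneg _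
  unfold ErF
  positivity

lemma ErF_int (L Z' : Matrix (V (N / l)) I ℝ) :
    Integrable (ErF T κ ω L Z') (gau I) := by
  have ie1 := int_egr (egr_sq L)
  have ie2 := int_egr (egr_sq Z')
  have ie3 : Integrable (fun g : I → ℝ => (∑ c, (L *ᵥ g) c ^ 2 + T) +
      (4 * ∑ c, (Z' *ᵥ g) c ^ 2 + T)) (gau I) :=
    (ie1.add (integrable_const _)).add ((ie2.const_mul 4).add (integrable_const _))
  exact ((ie3.const_mul κ).div_const 2).add (integrable_const _)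

lemma ErF_le (hT : 0 < T) (hs : 0 < s) (hsT : s < T) (hκ : 0 ≤ κ)
    (L Z' : Matrix (V (N / l)) I ℝ)
    (tr3 : ∑ c, (L * Lᵀ) c c ≤ T ^ 2 / s * (((N / l : ℕ) : ℝ) ^ 2 * 2))
    (tr4 : ∑ c, (Z' * Z'ᵀ) c c ≤ T * ((N / l : ℕ) : ℝ) ^ 2) :
    ∫ g, ErF T κ ω L Z' g ∂(gau I) ≤
      4 * κ * ((N / l : ℕ) : ℝ) ^ 2 * (T ^ 2 / s) + 8 * ω ^ 2 := by
  have hm1 : (1 : ℝ) ≤ ((N / l : ℕ) : ℝ) ^ 2 := by
    have : (1 : ℝ) ≤ ((N / l : ℕ) : ℝ) := by exact_mod_cast NeZero.pos (N / l)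
    nlinarith
  have hTs : T ≤ T ^ 2 / s := by
    rw [le_div_iff₀ hs]
    nlinarith
  have ie1 := int_egr (egr_sq L)
  have ie2 := int_egr (egr_sq Z')
  have j2 : Integrable (fun g : I → ℝ => ∑ c, (L *ᵥ g) c ^ 2 + T) (gau I) :=
    ie1.add (integrable_const _)
  have j3 : Integrable (fun g : I → ℝ => 4 * ∑ c, (Z' *ᵥ g) c ^ 2 + T) (gau I) :=
    (ie2.const_mul 4).add (integrable_const _)
  have j4 : Integrable (fun g : I → ℝ => (∑ c, (L *ᵥ g) c ^ 2 + T) +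
      (4 * ∑ c, (Z' *ᵥ g) c ^ 2 + T)) (gau I) := j2.add j3
  have j1 : Integrable (fun g : I → ℝ => κ * ((∑ c, (L *ᵥ g) c ^ 2 + T) +
      (4 * ∑ c, (Z' *ᵥ g) c ^ 2 + T)) / 2) (gau I) := (j4.const_mul κ).div_const 2
  unfold ErF
  rw [integral_add j1 (integrable_const _), integral_div, integral_const_mul,
    integral_add j2 j3, integral_add ie1 (integrable_const _),
    integral_add (ie2.const_mul 4) (integrable_const _), integral_const_mul, int_sq, int_sq,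
    integral_const, integral_const, probReal_univ, smul_eq_mul, smul_eq_mul, one_mul, one_mul]
  have f1 : ((N / l : ℕ) : ℝ) ^ 2 * T ≤ ((N / l : ℕ) : ℝ) ^ 2 * (T ^ 2 / s) :=
    mul_le_mul_of_nonneg_left hTs (by positivity)
  have f2 : T ≤ ((N / l : ℕ) : ℝ) ^ 2 * (T ^ 2 / s) := by nlinarith
  have f3 : ∑ c, (L * Lᵀ) c c + T + (4 * ∑ c, (Z' * Z'ᵀ) c c + T) ≤
      8 * (((N / l : ℕ) : ℝ) ^ 2 * (T ^ 2 / s)) := by linarith
  have f4 := mul_le_mul_of_nonneg_left f3 hκ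
  linarith

/-- traces -/
lemma tr_cut_le {Y : Matrix (V (N / l)) I ℝ} {ρ : ℝ} (hρ : 0 ≤ ρ)
    (hY : ∀ u, qf (Y * Yᵀ) u ≤ ρ * ∑ x, u x ^ 2) (w w₀ : Finset (V (N / l))) :
    ∑ c, ((Lw w w₀ * Y) * (Lw w w₀ * Y)ᵀ) c c ≤ ρ * (((N / l : ℕ) : ℝ) ^ 2 * 2) := by
  have hcard : (Fintype.card (V (N / l)) : ℝ) = ((N / l : ℕ) : ℝ) ^ 2 := TM.H764.card_V
  have h1 := tr_conj_le (Lw w w₀) hY hρ (Lw_row w w₀)
  rw [hcard] at h1
  have e : Lw w w₀ * (Y * Yᵀ) * (Lw w w₀)ᵀ = (Lw w w₀ * Y) * (Lw w w₀ * Y)ᵀ := by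
    rw [Matrix.transpose_mul]
    simp only [Matrix.mul_assoc]
  rwa [e] at h1

lemma tr_le {Y : Matrix (V (N / l)) I ℝ} {ρ : ℝ} (hρ : 0 ≤ ρ)
    (hY : ∀ u, qf (Y * Yᵀ) u ≤ ρ * ∑ x, u x ^ 2) :
    ∑ c, (Y * Yᵀ) c c ≤ ρ * ((N / l : ℕ) : ℝ) ^ 2 := by
  classical
  have hcard : (Fintype.card (V (N / l)) : ℝ) = ((N / l : ℕ) : ℝ) ^ 2 := TM.H764.card_V
  have h1 := tr_conj_le (1 : Matrix (V (N / l)) (V (N / l)) ℝ) hY hρ (ρ := 1) fun c => by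
    simp [Matrix.one_apply]
  rwa [Matrix.one_mul, Matrix.transpose_one, Matrix.mul_one, hcard, mul_one] at h1

/-- localisation for a splitting `X' + Z'` of the cell field -/
theorem loc_cell (hb : 0 < b) (hl : l ∣ N) (hs : 0 < s) (hsT : s < T)
    (hκ : 0 ≤ κ) (hPU : PUH N b T R κ ω) (hW : Wsep (N := N) l w w₀ S R)
    {X' Z' : Matrix (V (N / l)) I ℝ} (hXZ' : X' * Z'ᵀ = 0)
    (hY : ∀ u, qf ((X' + Z') * (X' + Z')ᵀ) u ≤ T ^ 2 / s * ∑ x, u x ^ 2)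
    (hX : ∀ u, qf (X' * X'ᵀ) u ≤ T ^ 2 / s * ∑ x, u x ^ 2)
    (hZ : ∀ u, qf (Z' * Z'ᵀ) u ≤ T * ∑ x, u x ^ 2)
    (hZs : ∀ c i, Z' c i ≠ 0 → c ∈ S)
    {n : ℕ} {D e lam p pX β : ℝ} (he0 : 0 < e) (he1 : e ≤ 1) (hD : 0 < D) (hlam : 0 ≤ lam)
    (hKD : K4S (nwt N b T 0)
      (((CN N l)ᵀ * (Lw w w₀ * (X' + Z'))) * ((CN N l)ᵀ * (Lw w w₀ * (X' + Z')))ᵀ)
      (((CN N l)ᵀ * (Lw w w₀ * (X' + Z'))) * ((CN N l)ᵀ * (Lw w w₀ * (X' + Z')))ᵀ) ≤ D)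
    (hra : 8 * (128 * (lam * D)) ^ (1 - (1 / 2 : ℝ) ^ n) ≤ 1)
    (hp : (gau I).real {g | 1 < Rs (nwt N b T 0) ((2 : ℝ) ^ (n + 2) •
      (((CN N l)ᵀ * (Lw w w₀ * (X' + Z'))) *ᵥ g))} ≤ p)
    (hpX : (gau I).real {g | 1 < Rs (nwt N b T 0) ((4 : ℝ) •
      (((CN N l)ᵀ * (X' + Z')) *ᵥ g))} ≤ pX)
    (hβ : 4 * pX + 4 * p + 12 * Real.exp (-(√lam / 10)) ≤ β) :
    |∫ g, pr (NR (nwt N b T 0) (((CN N l)ᵀ * (X' + Z')) *ᵥ g))
        (((CN N l)ᵀ * Z') * ((CN N l)ᵀ * Z')ᵀ) ∂(gau I) -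
      ∫ g, pr (NR (nwt N b T 0) (((CN N l)ᵀ * (Lw w w₀ * (X' + Z'))) *ᵥ g))
        (((CN N l)ᵀ * Z') * ((CN N l)ᵀ * Z')ᵀ) ∂(gau I)| ≤
      (2 * (4 * κ * ((N / l : ℕ) : ℝ) ^ 2 * (T ^ 2 / s) + 8 * ω ^ 2) +
        176 * (32 * (lam * D * e ^ 2)) ^ (1 - (1 / 2 : ℝ) ^ n) +
        576 * (2 * ((N / l : ℕ) : ℝ) ^ 2 * (T / s) * √β)) / e := by
  have hT : 0 < T := hs.trans hsT
  have hTs0 : 0 ≤ T ^ 2 / s := by positivity
  have hLZ : Lw w w₀ * Z' = Z' := Lw_mul_of hW.sub hW.dj hZs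
  set C : Matrix (V N) (V (N / l)) ℝ := (CN N l)ᵀ with hC
  set X : Matrix (V N) I ℝ := C * X' with hXd
  set X2 : Matrix (V N) I ℝ := C * (Lw w w₀ * X') with hX2d
  set Z : Matrix (V N) I ℝ := C * Z' with hZd
  have hXZ : X * Zᵀ = 0 := by
    rw [hXd, hZd, Matrix.transpose_mul, Matrix.mul_assoc, ← Matrix.mul_assoc X', hXZ',
      Matrix.zero_mul, Matrix.mul_zero]
  have hX2Z : X2 * Zᵀ = 0 := by
    rw [hX2d, hZd, Matrix.transpose_mul, Matrix.mul_assoc, Matrix.mul_assoc (Lw w w₀),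
      ← Matrix.mul_assoc X', hXZ', Matrix.zero_mul, Matrix.mul_zero, Matrix.mul_zero]
  have sXZ : C * (X' + Z') = X + Z := by rw [hXd, hZd, Matrix.mul_add]
  have sX2Z : C * (Lw w w₀ * (X' + Z')) = X2 + Z := by
    rw [hX2d, hZd, Matrix.mul_add, Matrix.mul_add, hLZ]
  have h := maj_nwt (N := N) hb.le hT 0
  set q : ℝ := 2 * ((N / l : ℕ) : ℝ) ^ 2 * (T / s) with hq
  have hN0 : (0 : ℝ) < ((N / l : ℕ) : ℝ) := by exact_mod_cast NeZero.pos (N / l)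
  have hq0 : 0 < q := by positivity
  have hTi : T⁻¹ * (T ^ 2 / s) = T / s := by field_simp
  have q2 : pr (Bnwt N T 0) ((X2 + Z) * (X2 + Z)ᵀ) ≤ q := by
    rw [← sX2Z]
    refine (pr_cell_le hl hT _).trans ((mul_le_mul_of_nonneg_left (tr_cut_le hTs0 hY w w₀)
      (inv_pos.2 hT).le).trans (le_of_eq ?_))
    rw [← mul_assoc, hTi, hq]
    ring
  have q1 : pr (Bnwt N T 0) ((X + Z) * (X + Z)ᵀ) ≤ q := by
    rw [← sXZ]
    refine (pr_cell_le hl hT _).trans ((mul_le_mul_of_nonneg_left (tr_le hTs0 hY)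
      (inv_pos.2 hT).le).trans ?_)
    rw [← mul_assoc, hTi, hq]
    have : 0 < T / s := by positivity
    nlinarith
  rw [sX2Z] at hKD hp
  rw [sXZ] at hpX
  rw [sXZ, sX2Z]
  refine loc_one h (Lg_maj hb.le hT) hXZ hX2Z (n := n) (D := D) (e := e) (lam := lam)
    (p := p) (pX := pX) (β := β) (q := q)
    (E := 4 * κ * ((N / l : ℕ) : ℝ) ^ 2 * (T ^ 2 / s) + 8 * ω ^ 2)
    (Er := ErF T κ ω (Lw wᶜ w₀ * X') Z') he0 he1 hD hlam hq0
    hKD hra hp hpX hβ q2 q1 (ErF_nonneg hT hκ _ _) (ErF_int _ _)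
    (ErF_le hT hs hsT hκ _ _ (tr_cut_le hTs0 hX wᶜ w₀) (tr_le hT.le hZ)) ?_
  intro τ h0 h2 g r1 r2 r3 r4
  have key := mdz_cell hl hT hκ hPU hW hZs τ g r1 r2 r3 r4
  refine key.trans ?_
  unfold ErF
  have a2 : 0 ≤ ∑ c, (Z' *ᵥ g) c ^ 2 := Finset.sum_nonneg fun _ _ => sq_nonneg _
  have a3 : τ ^ 2 * ∑ c, (Z' *ᵥ g) c ^ 2 ≤ 4 * ∑ c, (Z' *ᵥ g) c ^ 2 :=
    mul_le_mul_of_nonneg_right (by nlinarith) a2
  have a4 := mul_le_mul_of_nonneg_left a3 hκ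
  linarith

/-- the splitting of the source covariance -/
lemma exists_split (hb : 0 < b) (hl : l ∣ N) (hs : 0 < s) (hsT : s < T)
    {B : Matrix (V (N / l)) (V (N / l)) ℝ} (hB : Ct B) (hBs : ∀ x j, B x j ≠ 0 → x ∈ S)
    {A : Matrix (V (N / l)) I ℝ} (hA : A * Aᵀ = Sgn N l b T s) :
    ∃ X' Z' : Matrix (V (N / l)) (V (N / l) ⊕ V (N / l)) ℝ, X' * Z'ᵀ = 0 ∧
      (X' + Z') * (X' + Z')ᵀ = Sgn N l b T s ∧ Z' * Z'ᵀ = (T - s) • (B * Bᵀ) ∧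
      (∀ u, qf (X' * X'ᵀ) u ≤ qf (Sgn N l b T s) u) ∧
      (∀ u, qf (Z' * Z'ᵀ) u ≤ (T - s) * ∑ x, u x ^ 2) ∧ (∀ c i, Z' c i ≠ 0 → c ∈ S) := by
  classical
  have hT : 0 < T := hs.trans hsT
  have hσ : 0 < T - s := sub_pos.2 hsT
  have hlow : ∀ u, (T - s) * ∑ x, u x ^ 2 ≤ qf (Sgn N l b T s) u :=
    H859.Sgn_low hb hl hT hs hsT
  have hSs : (Sgn N l b T s)ᵀ = Sgn N l b T s := by
    rw [← hA, Matrix.transpose_mul, Matrix.transpose_transpose]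
  have hBBs : (B * Bᵀ)ᵀ = B * Bᵀ := by rw [Matrix.transpose_mul, Matrix.transpose_transpose]
  have hP : (Sgn N l b T s - (T - s) • (B * Bᵀ)).PosSemidef := by
    refine psd_of ?_ fun u => ?_
    · rw [Matrix.transpose_sub, Matrix.transpose_smul, hSs, hBBs]
    · rw [H859.qf_sub_m, qf_smul_mat]
      have h1 := mul_le_mul_of_nonneg_left (hB u) hσ.le
      linarith [hlow u]
  obtain ⟨X0, hX0⟩ := exists_increment hP
  set X' : Matrix (V (N / l)) (V (N / l) ⊕ V (N / l)) ℝ :=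
    fromCols X0 (0 : Matrix (V (N / l)) (V (N / l)) ℝ) with hX'
  set Z' : Matrix (V (N / l)) (V (N / l) ⊕ V (N / l)) ℝ :=
    fromCols (0 : Matrix (V (N / l)) (V (N / l)) ℝ) (√(T - s) • B) with hZ'
  have hXX : X' * X'ᵀ = Sgn N l b T s - (T - s) • (B * Bᵀ) := by
    rw [hX', Matrix.transpose_fromCols, Matrix.fromCols_mul_fromRows, Matrix.transpose_zero,
      Matrix.mul_zero, add_zero, hX0]
  have hZZ : Z' * Z'ᵀ = (T - s) • (B * Bᵀ) := by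
    rw [hZ', Matrix.transpose_fromCols, Matrix.fromCols_mul_fromRows, Matrix.transpose_zero,
      Matrix.mul_zero, zero_add, Matrix.transpose_smul, Matrix.smul_mul, Matrix.mul_smul,
      smul_smul, Real.mul_self_sqrt hσ.le]
  have hXZ' : X' * Z'ᵀ = 0 := by
    rw [hX', hZ', Matrix.transpose_fromCols, Matrix.fromCols_mul_fromRows, Matrix.transpose_zero,
      Matrix.mul_zero, Matrix.zero_mul, add_zero]
  refine ⟨X', Z', hXZ', ?_, hZZ, fun u => ?_, fun u => ?_, fun c i hci => ?_⟩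
  · have h1 := cov_ray hXZ' 1
    rw [one_smul, one_pow, one_smul, hXX, hZZ, sub_add_cancel] at h1
    exact h1
  · rw [hXX, H859.qf_sub_m, qf_smul_mat]
    have h1 : 0 ≤ qf (B * Bᵀ) u := by
      rw [H859.qf_gram_tr]
      exact Finset.sum_nonneg fun _ _ => sq_nonneg _
    have := mul_nonneg hσ.le h1
    linarith
  · rw [hZZ, qf_smul_mat]
    exact mul_le_mul_of_nonneg_left (hB u) hσ.le
  · rcases i with i | i
    · simp [hZ'] at hci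
    · have h1 : √(T - s) * B c i ≠ 0 := by simpa [hZ'] using hci
      exact hBs c i (right_ne_zero_of_mul h1)

/-- **localisation, trace form, one prior** -/
theorem loc_tor (hb : 0 < b) (hl : l ∣ N) (hs : 0 < s) (hsT : s < T)
    {A : Matrix (V (N / l)) I ℝ} (hA : A * Aᵀ = Sgn N l b T s)
    (hκ : 0 ≤ κ) (hPU : PUH N b T R κ ω) (hW : Wsep (N := N) l w w₀ S R)
    {B : Matrix (V (N / l)) (V (N / l)) ℝ} (hB : Ct B) (hBs : ∀ x j, B x j ≠ 0 → x ∈ S)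
    {n : ℕ} {D e lam p pX β : ℝ} (he0 : 0 < e) (he1 : e ≤ 1) (hD : 0 < D) (hlam : 0 ≤ lam)
    (hKD : K4S (nwt N b T 0) (((CN N l)ᵀ * Lw w w₀ * A) * ((CN N l)ᵀ * Lw w w₀ * A)ᵀ)
      (((CN N l)ᵀ * Lw w w₀ * A) * ((CN N l)ᵀ * Lw w w₀ * A)ᵀ) ≤ D)
    (hra : 8 * (128 * (lam * D)) ^ (1 - (1 / 2 : ℝ) ^ n) ≤ 1)
    (hp : (gau I).real {g | 1 < Rs (nwt N b T 0) ((2 : ℝ) ^ (n + 2) •
      (((CN N l)ᵀ * Lw w w₀ * A) *ᵥ g))} ≤ p)
    (hpX : (gau I).real {g | 1 < Rs (nwt N b T 0) ((4 : ℝ) • (((CN N l)ᵀ * A) *ᵥ g))} ≤ pX)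
    (hβ : 4 * pX + 4 * p + 12 * Real.exp (-(√lam / 10)) ≤ β) :
    |∫ g, Tst N l b T (B * Bᵀ) (((CN N l)ᵀ * A) *ᵥ g) ∂(gau I) -
      ∫ g, Tst N l b T (B * Bᵀ) (((CN N l)ᵀ * Lw w w₀ * A) *ᵥ g) ∂(gau I)| ≤
      (2 * (4 * κ * ((N / l : ℕ) : ℝ) ^ 2 * (T ^ 2 / s) + 8 * ω ^ 2) +
        176 * (32 * (lam * D * e ^ 2)) ^ (1 - (1 / 2 : ℝ) ^ n) +
        576 * (2 * ((N / l : ℕ) : ℝ) ^ 2 * (T / s) * √β)) / e / (T - s) := by
  have hT : 0 < T := hs.trans hsT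
  have hσ : 0 < T - s := sub_pos.2 hsT
  have hup : ∀ u, qf (Sgn N l b T s) u ≤ T ^ 2 / s * ∑ x, u x ^ 2 :=
    H859.Sgn_up_all hb hl hT hs hsT
  obtain ⟨X', Z', hXZ', hYY, hZZ, hXu, hZu, hZs⟩ := exists_split hb hl hs hsT hB hBs hA
  set C : Matrix (V N) (V (N / l)) ℝ := (CN N l)ᵀ with hC
  have g1 : (C * (X' + Z')) * (C * (X' + Z'))ᵀ = (C * A) * (C * A)ᵀ := by
    have e1 := H859.gram_eq C (1 : Matrix (V (N / l)) (V (N / l)) ℝ) hYY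
    have e2 := H859.gram_eq C (1 : Matrix (V (N / l)) (V (N / l)) ℝ) hA
    rw [Matrix.mul_one] at e1 e2
    rw [e1, e2]
  have g2 : (C * (Lw w w₀ * (X' + Z'))) * (C * (Lw w w₀ * (X' + Z')))ᵀ =
      (C * Lw w w₀ * A) * (C * Lw w w₀ * A)ᵀ := by
    rw [← Matrix.mul_assoc C (Lw w w₀), H859.gram_eq C (Lw w w₀) hYY,
      H859.gram_eq C (Lw w w₀) hA]
  have gZ : (C * Z') * (C * Z')ᵀ = (T - s) • (C * (B * Bᵀ) * Cᵀ) := by
    have h1 : (C * Z') * (C * Z')ᵀ = C * (Z' * Z'ᵀ) * Cᵀ := by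
      rw [Matrix.transpose_mul]
      simp only [Matrix.mul_assoc]
    rw [h1, hZZ, Matrix.mul_smul, Matrix.smul_mul]
  have h := maj_nwt (N := N) hb.le hT 0
  have hN := (egr_pr (C2.Rs h.em h.gt).e2 ((C * Z') * (C * Z')ᵀ)).meas.stronglyMeasurable
  have i1 : ∫ g, pr (NR (nwt N b T 0) ((C * (X' + Z')) *ᵥ g)) ((C * Z') * (C * Z')ᵀ)
      ∂(gau (V (N / l) ⊕ V (N / l))) =
      (T - s) * ∫ g, Tst N l b T (B * Bᵀ) ((C * A) *ᵥ g) ∂(gau I) := by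
    rw [H363.law_integral_eq (C * (X' + Z')) (C * A) g1
      (fun F => pr (NR (nwt N b T 0) F) ((C * Z') * (C * Z')ᵀ)) hN]
    simp only [gZ, pr_smul]
    rw [integral_const_mul]
    rfl
  have i2 : ∫ g, pr (NR (nwt N b T 0) ((C * (Lw w w₀ * (X' + Z'))) *ᵥ g))
      ((C * Z') * (C * Z')ᵀ) ∂(gau (V (N / l) ⊕ V (N / l))) =
      (T - s) * ∫ g, Tst N l b T (B * Bᵀ) ((C * Lw w w₀ * A) *ᵥ g) ∂(gau I) := by
    rw [H363.law_integral_eq (C * (Lw w w₀ * (X' + Z'))) (C * Lw w w₀ * A) g2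
      (fun F => pr (NR (nwt N b T 0) F) ((C * Z') * (C * Z')ᵀ)) hN]
    simp only [gZ, pr_smul]
    rw [integral_const_mul]
    rfl
  have key := loc_cell hb hl hs hsT hκ hPU hW hXZ' (by rw [hYY]; exact hup)
    (fun u => (hXu u).trans (hup u)) (fun u => (hZu u).trans (mul_le_mul_of_nonneg_right
      (by linarith) (Finset.sum_nonneg fun _ _ => sq_nonneg _))) hZs
    (n := n) (D := D) (e := e) (lam := lam) (p := p) (pX := pX) (β := β) he0 he1 hD hlam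
    (by rw [g2]; exact hKD) hra ((le_of_eq (law_real g2 (h.U_meas _))).trans hp)
    ((le_of_eq (law_real g1 (h.U_meas _))).trans hpX) hβ
  rw [i1, i2, ← mul_sub, abs_mul, abs_of_pos hσ] at key
  rw [le_div_iff₀ hσ, mul_comm]
  exact key

end

end Vale.Agent.P159.H612
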