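import Vale.Agent.P159.H612.Nearg3
import Vale.Agent.P159.H447.Cg8

/-!
P159 / GLUE P_up, module NEARG (helper612), part 4: geometry.  `N / l = nb m` cells per side, boxes
`cx nb m x = β` of `m` cells per side; window of a near pair of boxes `β₁, β₂` (distance `≤ K`):
`w = bx (crn β₁) (m Kw)`, reference box `β₁ + (K + 1, 0)`.
-/

set_option linter.unusedSectionVars false

namespace Vale.Agent.P159.H612

open Finset Matrix
open Vale.Agent.P159.TM.Spec (V)
open Vale.Agent.P159.TM.H459 (sd sn)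
open Vale.Agent.P159.TM.H764 (nrm bx)
open Vale.Agent.P159.TM.H859 (tn)
open Vale.Agent.P159.H864 (cl1 l_pos)
open Vale.Agent.P159.H692 (cx)

/-! ### cells and distances -/

section one

variable {N l : ℕ} [NeZero N] [NeZero (N / l)]

lemma cl1_int (hl : l ∣ N) (j : ℤ) :
    (cl1 ((j : ℤ) : ZMod N) : ZMod (N / l)) = ((j / (l : ℤ) : ℤ) : ZMod (N / l)) := by
  have hl0 : 0 < l := l_pos hl
  have hlz : (l : ℤ) ≠ 0 := by exact_mod_cast hl0.ne'
  have hv : (((j : ZMod N)).val : ℤ) = j % (N : ℤ) := ZMod.val_intCast j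
  have hN : (N : ℤ) = (l : ℤ) * ((N / l : ℕ) : ℤ) := by
    exact_mod_cast (Nat.mul_div_cancel' hl).symm
  have hj : j = j % (N : ℤ) + (l : ℤ) * (((N / l : ℕ) : ℤ) * (j / (N : ℤ))) := by
    have h1 := Int.emod_add_mul_ediv j (N : ℤ)
    rw [← mul_assoc, ← hN]
    exact h1.symm
  have h2 : j / (l : ℤ) = (j % (N : ℤ)) / (l : ℤ) + ((N / l : ℕ) : ℤ) * (j / (N : ℤ)) := by
    conv_lhs => rw [hj]
    rw [Int.add_mul_ediv_left _ _ hlz]
  have h3 : (((N / l : ℕ) : ℤ) : ZMod (N / l)) = 0 := by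
    rw [Int.cast_natCast, ZMod.natCast_self]
  have h4 : ((((j : ZMod N)).val / l : ℕ) : ZMod (N / l)) =
      (((j % (N : ℤ)) / (l : ℤ) : ℤ) : ZMod (N / l)) := by
    rw [← hv]
    norm_cast
  unfold H864.cl1
  rw [h2, Int.cast_add, Int.cast_mul, h3, zero_mul, add_zero, h4]

/-- distance of the cells -/
lemma cl1_dist_le (hl : l ∣ N) (a b : ZMod N) :
    l * ((cl1 b : ZMod (N / l)) - cl1 a).valMinAbs.natAbs ≤ (b - a).valMinAbs.natAbs + l := by
  have hl0 : 0 < l := l_pos hl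
  set k : ℤ := (b - a).valMinAbs with hk
  have hb : b = (((a.val : ℤ) + k : ℤ) : ZMod N) := by
    push_cast
    rw [hk, ZMod.natCast_zmod_val, ZMod.coe_valMinAbs]
    ring
  have ha : a = ((a.val : ℤ) : ZMod N) := by
    rw [Int.cast_natCast, ZMod.natCast_zmod_val]
  have e1 : (cl1 b : ZMod (N / l)) - cl1 a =
      (((((a.val : ℤ) + k) / (l : ℤ) - (a.val : ℤ) / (l : ℤ) : ℤ)) : ZMod (N / l)) := by
    conv_lhs => rw [hb]
    rw [cl1_int hl]
    conv_lhs => rw [ha]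
    rw [cl1_int hl]
    push_cast
    simp
  rw [e1]
  refine (Nat.mul_le_mul_left l (H859.natAbs_valMinAbs_cast_le _)).trans ?_
  have hlz : (0 : ℤ) < l := by exact_mod_cast hl0
  have d1 := Int.emod_add_mul_ediv ((a.val : ℤ) + k) (l : ℤ)
  have d2 := Int.emod_add_mul_ediv (a.val : ℤ) (l : ℤ)
  have m1 := Int.emod_nonneg ((a.val : ℤ) + k) hlz.ne'
  have m2 := Int.emod_lt_of_pos ((a.val : ℤ) + k) hlz
  have m3 := Int.emod_nonneg (a.val : ℤ) hlz.ne'
  have m4 := Int.emod_lt_of_pos (a.val : ℤ) hlz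
  have e2 : ((l * (((a.val : ℤ) + k) / (l : ℤ) - (a.val : ℤ) / (l : ℤ)).natAbs : ℕ) : ℤ) =
      |(l : ℤ) * (((a.val : ℤ) + k) / (l : ℤ)) - (l : ℤ) * ((a.val : ℤ) / (l : ℤ))| := by
    push_cast
    rw [← mul_sub, abs_mul, abs_of_pos hlz]
  have e3 : ((k.natAbs : ℕ) : ℤ) = |k| := Int.natCast_natAbs k
  zify
  zify at e2 e3
  rw [e2]
  set q1 := (l : ℤ) * (((a.val : ℤ) + k) / (l : ℤ)) with hq1
  set q2 := (l : ℤ) * ((a.val : ℤ) / (l : ℤ)) with hq2
  rw [abs_le]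
  have k1 := abs_le.1 (le_refl |k|)
  constructor <;> linarith [k1.1, k1.2]

lemma cl_dist_le (hl : l ∣ N) (x z : V N) :
    l * nrm ((H864.cl z : V (N / l)) - H864.cl x) ≤ sd x z + l := by
  have h1 := cl1_dist_le hl x.1 z.1
  have h2 := cl1_dist_le hl x.2 z.2
  unfold TM.H764.nrm TM.H459.sd TM.H459.sn
  have e1 : ((H864.cl z : V (N / l)) - H864.cl x).1 = (cl1 z.1 : ZMod (N / l)) - cl1 x.1 := rfl
  have e2 : ((H864.cl z : V (N / l)) - H864.cl x).2 = (cl1 z.2 : ZMod (N / l)) - cl1 x.2 := rfl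
  have e3 : (z - x).1 = z.1 - x.1 := rfl
  have e4 : (z - x).2 = z.2 - x.2 := rfl
  rw [e1, e2, e3, e4, ← Nat.mul_max_mul_left]
  omega

end one

/-! ### boxes -/

section box

variable {n nb m : ℕ} [NeZero n] [NeZero nb] [NeZero m]

/-- the corner of a box -/
def crn (n m : ℕ) {nb : ℕ} (β : V nb) : V n :=
  (((β.1.val * m : ℕ) : ZMod n), ((β.2.val * m : ℕ) : ZMod n))

/-- the cells of a box -/
def bxb (n m : ℕ) [NeZero n] {nb : ℕ} (β : V nb) : Finset (V n) :=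
  univ.filter fun x => cx nb m x = β

/-- the cells of two boxes -/
def bxp (n m : ℕ) [NeZero n] {nb : ℕ} (β₁ β₂ : V nb) : Finset (V n) :=
  univ.filter fun x => cx nb m x = β₁ ∨ cx nb m x = β₂

lemma c1_near (hn : n = nb * m) {x : ZMod n} {β₁ β₂ : ZMod nb}
    (h : ((x.val / m : ℕ) : ZMod nb) = β₂) :
    (x - ((β₁.val * m : ℕ) : ZMod n)).valMinAbs.natAbs ≤
      m * ((β₂ - β₁).valMinAbs.natAbs + 1) := by
  have hm : 0 < m := NeZero.pos m
  set k : ℤ := (β₂ - β₁).valMinAbs with hk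
  have h1 : x.val / m < nb := by
    apply Nat.div_lt_of_lt_mul
    have h1 : x.val < nb * m := lt_of_lt_of_eq (ZMod.val_lt x) hn
    rwa [mul_comm]
  have h2 : x.val / m = β₂.val := by
    rw [← h, ZMod.val_natCast, Nat.mod_eq_of_lt h1]
  have h3 := Nat.div_add_mod x.val m
  have h4 := Nat.mod_lt x.val hm
  rw [h2] at h3
  -- β₂.val = β₁.val + k mod nb
  have h5 : (nb : ℤ) ∣ ((β₁.val : ℤ) + k) - (β₂.val : ℤ) := by
    rw [← ZMod.intCast_eq_intCast_iff_dvd_sub]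
    push_cast
    rw [ZMod.natCast_zmod_val, ZMod.natCast_zmod_val, hk, ZMod.coe_valMinAbs]
    ring
  obtain ⟨t, ht⟩ := h5
  have hx : x = ((x.val : ℤ) : ZMod n) := by rw [Int.cast_natCast, ZMod.natCast_zmod_val]
  have h6 : x - ((β₁.val * m : ℕ) : ZMod n) = ((m * k + (x.val % m : ℕ) : ℤ) : ZMod n) := by
    conv_lhs => rw [hx]
    have e1 : ((β₁.val * m : ℕ) : ZMod n) = (((β₁.val : ℤ) * m : ℤ) : ZMod n) := by push_cast; rfl
    rw [e1, ← Int.cast_sub, ZMod.intCast_eq_intCast_iff_dvd_sub]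
    refine ⟨t, ?_⟩
    have e2 : (x.val : ℤ) = m * β₂.val + (x.val % m : ℕ) := by exact_mod_cast h3.symm
    have e3 : (n : ℤ) = nb * m := by exact_mod_cast hn
    rw [e3, e2]
    linear_combination (m : ℤ) * ht
  rw [h6]
  refine (H859.natAbs_valMinAbs_cast_le _).trans ?_
  have h7 : ((m * k + (x.val % m : ℕ) : ℤ)).natAbs ≤ m * k.natAbs + x.val % m := by
    refine (Int.natAbs_add_le _ _).trans ?_
    rw [Int.natAbs_mul, Int.natAbs_natCast, Int.natAbs_natCast]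
  refine h7.trans ?_
  rw [Nat.mul_add]
  omega

lemma cx_near (hn : n = nb * m) {x : V n} {β₁ β₂ : V nb} (h : cx nb m x = β₂) :
    nrm (x - crn n m β₁) ≤ m * (nrm (β₂ - β₁) + 1) := by
  have h1 := c1_near hn (β₁ := β₁.1) (congrArg Prod.fst h)
  have h2 := c1_near hn (β₁ := β₁.2) (congrArg Prod.snd h)
  unfold TM.H764.nrm
  have e1 : (x - crn n m β₁).1 = x.1 - ((β₁.1.val * m : ℕ) : ZMod n) := rfl
  have e2 : (x - crn n m β₁).2 = x.2 - ((β₁.2.val * m : ℕ) : ZMod n) := rfl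
  have e3 : (β₂ - β₁).1 = β₂.1 - β₁.1 := rfl
  have e4 : (β₂ - β₁).2 = β₂.2 - β₁.2 := rfl
  rw [e1, e2, e3, e4]
  refine max_le (h1.trans (Nat.mul_le_mul_left m ?_)) (h2.trans (Nat.mul_le_mul_left m ?_))
  · have := le_max_left (β₂.1 - β₁.1).valMinAbs.natAbs (β₂.2 - β₁.2).valMinAbs.natAbs
    omega
  · have := le_max_right (β₂.1 - β₁.1).valMinAbs.natAbs (β₂.2 - β₁.2).valMinAbs.natAbs
    omega

lemma nrm_le_of_tn {β : V nb} {K : ℕ} (h : tn β ≤ K) : nrm β ≤ K := by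
  unfold TM.H859.tn TM.H859.nz TM.H859.rep at h
  have hK : (0 : ℝ) ≤ K := Nat.cast_nonneg K
  have h1 := (Real.sqrt_le_left hK).1 h
  simp only at h1
  have key : ∀ a : ℤ, (a : ℝ) ^ 2 ≤ (K : ℝ) ^ 2 → a.natAbs ≤ K := by
    intro a ha
    have h2 : |(a : ℝ)| ≤ K := abs_le_of_sq_le_sq ha hK
    have h3 : ((a.natAbs : ℕ) : ℝ) = |(a : ℝ)| := by
      rw [← Int.cast_abs, ← Int.natCast_natAbs, Int.cast_natCast]
    rw [← h3] at h2
    exact_mod_cast h2
  unfold TM.H764.nrm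
  refine max_le (key _ ?_) (key _ ?_)
  · linarith [sq_nonneg ((β.2.valMinAbs : ℤ) : ℝ)]
  · linarith [sq_nonneg ((β.1.valMinAbs : ℤ) : ℝ)]

lemma nrm_shift {K : ℕ} (hK : 2 * (K + 1) ≤ nb) :
    nrm ((((K + 1 : ℕ) : ZMod nb), (0 : ZMod nb)) : V nb) = K + 1 := by
  unfold TM.H764.nrm
  have h1 : (((K + 1 : ℕ) : ZMod nb)).valMinAbs = ((K + 1 : ℕ) : ℤ) :=
    ZMod.valMinAbs_natCast_of_le_half (by omega)
  simp only
  rw [h1]
  simp only [Int.natAbs_natCast, ZMod.valMinAbs_zero, Int.natAbs_zero]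
  omega

/-- the reference box of a near pair -/
def rfb (K : ℕ) {nb : ℕ} (β₁ : V nb) : V nb := β₁ + (((K + 1 : ℕ) : ZMod nb), (0 : ZMod nb))

lemma cx_crn (hn : n = nb * m) (β : V nb) : cx nb m (crn n m β) = β := by
  have hm : 0 < m := NeZero.pos m
  have h1 : ∀ a : ZMod nb, ((((a.val * m : ℕ) : ZMod n).val / m : ℕ) : ZMod nb) = a := by
    intro a
    have h2 : (((a.val * m : ℕ) : ZMod n)).val = a.val * m := by
      rw [ZMod.val_natCast, Nat.mod_eq_of_lt]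
      rw [hn]
      exact Nat.mul_lt_mul_of_pos_right (ZMod.val_lt a) hm
    rw [h2, Nat.mul_div_cancel _ hm, ZMod.natCast_zmod_val]
  unfold H692.cx crn
  exact Prod.ext (h1 β.1) (h1 β.2)

end box

/-! ### the window of a near pair -/

section near

variable {N l nb m K Kw : ℕ} [NeZero N] [NeZero (N / l)] [NeZero nb] [NeZero m]

/-- the window -/
def wnd (N l m Kw : ℕ) [NeZero N] [NeZero (N / l)] {nb : ℕ} (β₁ : V nb) : Finset (V (N / l)) :=
  bx (crn (N / l) m β₁) (m * Kw)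

lemma mem_bx' {n : ℕ} [NeZero n] {c x : V n} {r : ℕ} : x ∈ bx c r ↔ nrm (x - c) ≤ r := by
  simp [TM.H764.bx]

lemma bxb_sub (hn : N / l = nb * m) (hKw : K + 2 ≤ Kw) (hK : 2 * (K + 1) ≤ nb) (β₁ : V nb) :
    bxb (N / l) m (rfb K β₁) ⊆ wnd N l m Kw β₁ := by
  intro x hx
  unfold bxb at hx
  rw [Finset.mem_filter] at hx
  unfold wnd
  rw [mem_bx']
  have h1 := cx_near hn (β₁ := β₁) hx.2
  have h2 : rfb K β₁ - β₁ = ((((K + 1 : ℕ) : ZMod nb), (0 : ZMod nb)) : V nb) := by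
    unfold rfb
    abel
  rw [h2, nrm_shift hK] at h1
  exact h1.trans (Nat.mul_le_mul_left m (by omega))

/-- **the separated window of a near pair of boxes** -/
theorem wsep_near (hl : l ∣ N) (hn : N / l = nb * m) (hKw : K + 2 ≤ Kw) (hK : 2 * (K + 1) ≤ nb)
    {β₁ β₂ : V nb} (hβ : tn (β₂ - β₁) ≤ K) :
    Wsep (N := N) l (wnd N l m Kw β₁) (bxb (N / l) m (rfb K β₁)) (bxp (N / l) m β₁ β₂)
      ((l * m * (Kw - K - 1) : ℕ) : ℝ) := by
  have hβ' : nrm (β₂ - β₁) ≤ K := nrm_le_of_tn hβ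
  have hS : ∀ x : V (N / l), x ∈ bxp (N / l) m β₁ β₂ → nrm (x - crn (N / l) m β₁) ≤ m * (K + 1) := by
    intro x hx
    unfold bxp at hx
    rw [Finset.mem_filter] at hx
    rcases hx.2 with h | h
    · have h1 := cx_near hn (β₁ := β₁) h
      have h2 : nrm (β₁ - β₁) = 0 := by
        rw [sub_self]
        simp [TM.H764.nrm]
      rw [h2] at h1
      exact h1.trans (Nat.mul_le_mul_left m (by omega))
    · exact (cx_near hn (β₁ := β₁) h).trans (Nat.mul_le_mul_left m (by omega))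
  refine ⟨fun x hx => ?_, ⟨crn (N / l) m (rfb K β₁), ?_⟩, ?_, fun x z hx hz => ?_⟩
  · unfold wnd
    rw [mem_bx']
    exact (hS x hx).trans (Nat.mul_le_mul_left m (by omega))
  · unfold bxb
    rw [Finset.mem_filter]
    exact ⟨Finset.mem_univ _, cx_crn hn _⟩
  · rw [Finset.disjoint_left]
    intro x hx hx'
    unfold bxp at hx
    unfold bxb at hx'
    rw [Finset.mem_filter] at hx hx'
    have h1 : rfb K β₁ - β₁ = ((((K + 1 : ℕ) : ZMod nb), (0 : ZMod nb)) : V nb) := by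
      unfold rfb
      abel
    have h2 := nrm_shift (nb := nb) hK
    rw [← h1] at h2
    rcases hx.2 with h | h
    · rw [← hx'.2, h, sub_self] at h2
      simp [TM.H764.nrm] at h2
    · rw [← hx'.2, h] at h2
      omega
  · unfold wnd at hx
    rw [mem_bx', not_le] at hx
    have h1 := hS _ hz
    have h2 := cl_dist_le hl x z
    have h3 : nrm ((H864.cl x : V (N / l)) - crn (N / l) m β₁) ≤
        nrm ((H864.cl z : V (N / l)) - H864.cl x) +
          nrm ((H864.cl z : V (N / l)) - crn (N / l) m β₁) := by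
      have e : (H864.cl x : V (N / l)) - crn (N / l) m β₁ =
          -((H864.cl z : V (N / l)) - H864.cl x) +
            ((H864.cl z : V (N / l)) - crn (N / l) m β₁) := by abel
      rw [e]
      refine (TM.H459.sn_add_le _ _).trans ?_
      rw [TM.H459.sn_neg]
      exact le_rfl
    have h4 : m * Kw + 1 ≤ nrm ((H864.cl z : V (N / l)) - H864.cl x) + m * (K + 1) := by omega
    have h5 : m * (Kw - K - 1) + 1 ≤ nrm ((H864.cl z : V (N / l)) - H864.cl x) := by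
      have e : Kw = (Kw - K - 1) + (K + 1) := by omega
      have e' : m * Kw = m * (Kw - K - 1) + m * (K + 1) := by
        conv_lhs => rw [e]
        rw [Nat.mul_add]
      omega
    have h6 := Nat.mul_le_mul_left l h5
    have h7 : l * m * (Kw - K - 1) ≤ sd x z := by
      have e : l * (m * (Kw - K - 1) + 1) = l * m * (Kw - K - 1) + l := by ring
      omega
    exact_mod_cast h7

/-- geometry in 447's letters -/
theorem wg_near {b T : ℝ} (hb : 0 < b) (hl : l ∣ N) (hT : 0 < T) (hn : N / l = nb * m)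
    (hKw : K + 2 ≤ Kw) (hK : 2 * (K + 1) ≤ nb) (β₁ : V nb) :
    H447.Wg N l b T (wnd N l m Kw β₁) (bxb (N / l) m (rfb K β₁)) (crn (N / l) m β₁) (m * Kw) where
  b0 := hb
  dl := hl
  T0 := hT
  ne := ⟨crn (N / l) m (rfb K β₁), by
    unfold bxb
    rw [Finset.mem_filter]
    exact ⟨Finset.mem_univ _, cx_crn hn _⟩⟩
  hw := Finset.Subset.rfl
  hw₀ := bxb_sub hn hKw hK β₁

end near

end Vale.Agent.P159.H612
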