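import Vale.Agent.P159.H612.Nearg4
import Vale.Agent.P159.H43.Far6

/-!
P159 / GLUE P_up, module NEARG (helper612), part 5: **`Blk.nt` and `Blk.nu`** of `H239/Glu1` for the
difference `dNm` of the mean posterior covariances: one structure `NearH` of hypotheses.

* `law_win` : one prior, exact law of the torus against the law cut to a window;
* `NearH.nt`, `NearH.nu`.
-/

set_option linter.unusedSectionVars false

namespace Vale.Agent.P159.H612

open Finset Matrix MeasureTheory ProbabilityTheory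
open Vale.Agent.P159.TM.H104 (EM Ex Cv K3 Lg li nh Gr)
open Vale.Agent.P159.H37
open Vale.Agent.P159.H159 (Ct)
open Vale.Agent.P159.TM.Spec (V)
open Vale.Agent.P159.TM.SpecC (wT)
open Vale.Agent.P159.TM.H459 (sd)
open Vale.Agent.P159.TM.H859 (tn)
open Vale.Agent.P159.H963 (Neu nwt Pn obsN Gnc)
open Vale.Agent.P159.H447 (Maj NR CN SN Bnwt maj_nwt Tst K4S cl cl_nonneg psd_gram psd_conj_sub
  law_tor WA WinH ct_dB)
open Vale.Agent.P159.H692 (cx)
open Vale.Agent.P159.H730 (wN)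
open Vale.Agent.P159.H239 (cbM dNm)
open Vale.Agent.P159.H859 (Sgn wc dB Lw)

noncomputable section

/-- size of the excess covariance of the window, trace form -/
def szW (n : ℕ) (T D lam q β : ℝ) : ℝ := 2 / T * (cl n (128 * (lam * D)) + 24 * (q * √β))

/-- the error of the localisation -/
def LcN (n nn : ℕ) (T a D e lam β κ ω : ℝ) : ℝ :=
  2 / T * ((2 * (4 * κ * (nn : ℝ) ^ 2 * (T ^ 2 / a) + 8 * ω ^ 2) +
    176 * (32 * (lam * D * e ^ 2)) ^ (1 - (1 / 2 : ℝ) ^ n) +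
    576 * (2 * (nn : ℝ) ^ 2 * (T / a) * √β)) / e)

/-- the error of the law -/
def LwN (n nn : ℕ) (T a D e lam q β κ ω ρ pe : ℝ) : ℝ :=
  (Real.exp ρ - 1 + pe) * (szW n T D lam q β + LcN n nn T a D e lam β κ ω) +
    39 * ((nn : ℝ) * ((nn : ℝ) ^ 2 / a) * √pe)

/-- difference of the priors on the window -/
def CtN (N l ρw n : ℕ) (b T a c D lam q β : ℝ) : ℝ :=
  2 / T * ((336 * (32 * (lam * D * (8 * (c / T) * wc N l ρw b T a))) ^ (1 - (1 / 2 : ℝ) ^ n) +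
    264 * (q * √β)) / √(8 * (c / T) * wc N l ρw b T a))

section one

variable {N l : ℕ} [NeZero N] [NeZero (N / l)] {b T s a : ℝ}
variable {I : Type*} [Fintype I] {A : Matrix (V (N / l)) I ℝ}

lemma LcN_nonneg {n nn : ℕ} {D e lam β κ ω : ℝ} (hT : 0 < T) (ha : 0 < a) (hD : 0 ≤ D)
    (he : 0 < e) (hlam : 0 ≤ lam) (hκ : 0 ≤ κ) : 0 ≤ LcN n nn T a D e lam β κ ω := by
  unfold LcN
  positivity

lemma szW_nonneg {n : ℕ} {D lam q β : ℝ} (hT : 0 < T) (hq : 0 ≤ q) : 0 ≤ szW n T D lam q β := by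
  unfold szW
  have := cl_nonneg n (128 * (lam * D))
  positivity

/-- **one prior: the exact law of the torus against the law cut to the window** -/
theorem law_win {w w₀ S : Finset (V (N / l))} {ce : V (N / l)} {ρw n : ℕ}
    {D lam p β q R e pX κ ω ρ pe : ℝ} (hW : WinH N l b T s w w₀ ce ρw n A D lam p β q)
    (hS : Wsep (N := N) l w w₀ S R) (ha : 0 < a) (has : a ≤ s)
    (hκ : 0 ≤ κ) (hPU : PUH N b T R κ ω) (he0 : 0 < e) (he1 : e ≤ 1)
    (hpX : (gau I).real {g | 1 < Rs (nwt N b T 0) ((4 : ℝ) • (((CN N l)ᵀ * A) *ᵥ g))} ≤ pX)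
    (hβX : 8 * pX ≤ β) {Gd : Set (V N → ℝ)} (hG : MeasurableSet Gd)
    (hR : ∀ J ∈ Gd, Rs (nwt N b T 0) J ≤ ρ) (hρ : 0 ≤ ρ) (hp0 : 0 ≤ pe) (hp1 : pe ≤ 1)
    (hp : Ech (wN N l b T s) 0 (obsN N l (T - s)) (Gdᶜ.indicator fun _ => (1 : ℝ)) ≤ pe)
    {B : Matrix (V (N / l)) (V (N / l)) ℝ} (hB : Ct B) (hBs : ∀ x j, B x j ≠ 0 → x ∈ S) :
    |H159.pr (B * Bᵀ) (cbM N l b T s - Gnc N l b T T) -
      ∫ g, Tst N l b T (B * Bᵀ) (WA N l w w₀ A *ᵥ g) ∂(gau I)| ≤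
      LwN n (N / l) T a D e lam q β κ ω ρ pe + LcN n (N / l) T a D e lam β κ ω := by
  have T0 := hW.T0
  have s0 := hW.s0
  have sT := hW.sT'
  have sT2 := hW.sT
  have hm := hW.maj
  have hσ : T / 2 ≤ T - s := by linarith
  -- localisation
  have h1 : |∫ g, Tst N l b T (B * Bᵀ) (((CN N l)ᵀ * A) *ᵥ g) ∂(gau I) -
      ∫ g, Tst N l b T (B * Bᵀ) (WA N l w w₀ A *ᵥ g) ∂(gau I)| ≤
      LcN n (N / l) T a D e lam β κ ω := by
    have k1 := loc_tor hW.b0 hW.dl s0 sT hW.cov hκ hPU hS hB hBs he0 he1 hW.D0 hW.lam0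
      (by have := hW.K'; unfold H447.WA at this; exact this) hW.ra
      (by have := hW.ap; unfold H447.WA at this; exact this) hpX (β := β) (by
        have := hW.be
        linarith)
    refine k1.trans ?_
    have e1 : 0 ≤ (2 * (4 * κ * ((N / l : ℕ) : ℝ) ^ 2 * (T ^ 2 / s) + 8 * ω ^ 2) +
        176 * (32 * (lam * D * e ^ 2)) ^ (1 - (1 / 2 : ℝ) ^ n) +
        576 * (2 * ((N / l : ℕ) : ℝ) ^ 2 * (T / s) * √β)) / e := by
      have := hW.lam0
      have := hW.D0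
      positivity
    have e2 : (2 * (4 * κ * ((N / l : ℕ) : ℝ) ^ 2 * (T ^ 2 / s) + 8 * ω ^ 2) +
        176 * (32 * (lam * D * e ^ 2)) ^ (1 - (1 / 2 : ℝ) ^ n) +
        576 * (2 * ((N / l : ℕ) : ℝ) ^ 2 * (T / s) * √β)) / e ≤
        (2 * (4 * κ * ((N / l : ℕ) : ℝ) ^ 2 * (T ^ 2 / a) + 8 * ω ^ 2) +
        176 * (32 * (lam * D * e ^ 2)) ^ (1 - (1 / 2 : ℝ) ^ n) +
        576 * (2 * ((N / l : ℕ) : ℝ) ^ 2 * (T / a) * √β)) / e := by
      have f1 : T ^ 2 / s ≤ T ^ 2 / a := div_le_div_of_nonneg_left (by positivity) ha has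
      have f2 : T / s ≤ T / a := div_le_div_of_nonneg_left T0.le ha has
      gcongr
    unfold LcN
    calc _ ≤ _ / (T / 2) := div_le_div_of_nonneg_left e1 (by positivity) hσ
      _ ≤ _ / (T / 2) := div_le_div_of_nonneg_right e2 (by positivity)
      _ = _ := by field_simp
  -- size
  have hE : S ⊆ w := hS.sub
  have h2 := (hW.trace_size hE hS.dj (psd_gram B) (ct_dB hB hBs)).2
  -- law
  have h3 := law_tor hW.b0.le hW.dl s0 sT hW.cov hG hR hρ hp0 hp1 hp (B * Bᵀ)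
  have hC := H447.psd_conj (psd_gram B) (CN N l)ᵀ
  rw [Matrix.transpose_transpose] at hC
  have h4 : ∫ g, |Tst N l b T (B * Bᵀ) (((CN N l)ᵀ * A) *ᵥ g)| ∂(gau I) =
      ∫ g, Tst N l b T (B * Bᵀ) (((CN N l)ᵀ * A) *ᵥ g) ∂(gau I) := by
    refine integral_congr_ae (Filter.Eventually.of_forall fun g => ?_)
    exact abs_of_nonneg (hm.pr_NR_nonneg _ hC)
  rw [h4] at h3
  have h5 : √(∑ i, ∑ j, (B * Bᵀ) i j ^ 2) ≤ ((N / l : ℕ) : ℝ) := by
    have hc : (Fintype.card (V (N / l)) : ℝ) = ((N / l : ℕ) : ℝ) ^ 2 := TM.H764.card_V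
    have h6 := H43.ct_hs hB
    rw [hc] at h6
    rw [Real.sqrt_le_left (by positivity)]
    exact h6
  have h6 : ((N / l : ℕ) : ℝ) ^ 2 / s ≤ ((N / l : ℕ) : ℝ) ^ 2 / a :=
    div_le_div_of_nonneg_left (by positivity) ha has
  have h7 : √(∑ i, ∑ j, (B * Bᵀ) i j ^ 2) * (((N / l : ℕ) : ℝ) ^ 2 / s) * √pe ≤
      ((N / l : ℕ) : ℝ) * (((N / l : ℕ) : ℝ) ^ 2 / a) * √pe :=
    mul_le_mul_of_nonneg_right (mul_le_mul h5 h6 (by positivity) (by positivity))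
      (Real.sqrt_nonneg _)
  have hks : 0 ≤ Real.exp ρ - 1 + pe := by
    have := Real.one_le_exp hρ
    linarith
  have h8 : ∫ g, Tst N l b T (B * Bᵀ) (((CN N l)ᵀ * A) *ᵥ g) ∂(gau I) ≤
      szW n T D lam q β + LcN n (N / l) T a D e lam β κ ω := by
    have := (abs_le.1 h1).2
    unfold szW
    linarith
  have h9 := mul_le_mul_of_nonneg_left h8 hks
  have h10 : |H159.pr (B * Bᵀ) (cbM N l b T s - Gnc N l b T T) -
      ∫ g, Tst N l b T (B * Bᵀ) (((CN N l)ᵀ * A) *ᵥ g) ∂(gau I)| ≤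
      LwN n (N / l) T a D e lam q β κ ω ρ pe := by
    refine le_trans h3 ?_
    unfold LwN
    linarith
  have h11 := abs_le.1 h10
  have h12 := abs_le.1 h1
  rw [abs_le]
  constructor <;> linarith [h11.1, h11.2, h12.1, h12.2]

end one

/-! ### the hypotheses -/

section near5

variable {N l nb m : ℕ} [NeZero N] [NeZero (N / l)] [NeZero nb] [NeZero m]
variable {I J : Type*} [Fintype I] [Fintype J]

/-- **hypotheses of the near part**: `N / l = nb m` cells per side, boxes `cx nb m`, near pairs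
`tn (w' - w) ≤ K`; base mass `T`, priors `a ≤ c ≤ T / 2` with factors `Aa`, `Ac`; for every near pair
a window with the data `WinH` at both priors and separation `R`; amplitude `e`; locality `κ, ω`;
exact good sets `Gd s`, `ρ`, `pe` -/
structure NearH (N l nb m K : ℕ) [NeZero N] [NeZero (N / l)] [NeZero nb] [NeZero m]
    (b T a c : ℝ) (Aa : Matrix (V (N / l)) I ℝ) (Ac : Matrix (V (N / l)) J ℝ) (ρw n : ℕ)
    (R D e lam p β q pX κ ω ρ pe : ℝ) (Gd : ℝ → Set (V N → ℝ)) : Prop where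
  dl : l ∣ N
  b0 : 0 < b
  a0 : 0 < a
  ac : a ≤ c
  cT : c ≤ T / 2
  ca : Aa * Aaᵀ = Sgn N l b T a
  D0 : 0 < D
  lam0 : 0 ≤ lam
  q0 : 0 < q
  win : ∀ w w' : V nb, tn (w' - w) ≤ K → ∃ (ww w₀ : Finset (V (N / l))) (ce : V (N / l)),
    WinH N l b T a ww w₀ ce ρw n Aa D lam p β q ∧ WinH N l b T c ww w₀ ce ρw n Ac D lam p β q ∧
      Wsep (N := N) l ww w₀ (bxp (N / l) m w w') R
  inc : 8 * (c / T) * wc N l ρw b T a ≤ 1
  e0 : 0 < e
  e1 : e ≤ 1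
  k0 : 0 ≤ κ
  pu : PUH N b T R κ ω
  xa : (gau I).real {g | 1 < Rs (nwt N b T 0) ((4 : ℝ) • (((CN N l)ᵀ * Aa) *ᵥ g))} ≤ pX
  xc : (gau J).real {g | 1 < Rs (nwt N b T 0) ((4 : ℝ) • (((CN N l)ᵀ * Ac) *ᵥ g))} ≤ pX
  bX : 8 * pX ≤ β
  rho0 : 0 ≤ ρ
  pe0 : 0 ≤ pe
  pe1 : pe ≤ 1
  gm : ∀ s, s = a ∨ s = c → MeasurableSet (Gd s)
  gr : ∀ s, s = a ∨ s = c → ∀ J ∈ Gd s, Rs (nwt N b T 0) J ≤ ρ
  gp : ∀ s, s = a ∨ s = c → Ech (wN N l b T s) 0 (obsN N l (T - s))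
    ((Gd s)ᶜ.indicator fun _ => (1 : ℝ)) ≤ pe

/-- `δt` (and `δ₀`) of `Blk` -/
def dtN (N l ρw n : ℕ) (b T a c D e lam q β κ ω ρ pe : ℝ) : ℝ :=
  2 * (LwN n (N / l) T a D e lam q β κ ω ρ pe + LcN n (N / l) T a D e lam β κ ω) +
    CtN N l ρw n b T a c D lam q β

namespace NearH

variable {K : ℕ} {b T a c : ℝ} {Aa : Matrix (V (N / l)) I ℝ} {Ac : Matrix (V (N / l)) J ℝ}
variable {ρw n : ℕ} {R D e lam p β q pX κ ω ρ pe : ℝ} {Gd : ℝ → Set (V N → ℝ)}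
variable (h : NearH N l nb m K b T a c Aa Ac ρw n R D e lam p β q pX κ ω ρ pe Gd)
include h

lemma T0 : 0 < T := by linarith [h.a0, h.ac, h.cT]

lemma dt_nonneg : 0 ≤ dtN N l ρw n b T a c D e lam q β κ ω ρ pe := by
  have T0 := h.T0
  have a0 := h.a0
  have h1 : 0 ≤ LcN n (N / l) T a D e lam β κ ω :=
    LcN_nonneg T0 a0 h.D0.le h.e0 h.lam0 h.k0
  have h2 : 0 ≤ szW n T D lam q β := szW_nonneg T0 h.q0.le
  have h3 : 0 ≤ Real.exp ρ - 1 + pe := by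
    have := Real.one_le_exp h.rho0
    have := h.pe0
    linarith
  have h4 : 0 ≤ LwN n (N / l) T a D e lam q β κ ω ρ pe := by
    unfold LwN
    have := h.pe0
    positivity
  have h5 : 0 ≤ CtN N l ρw n b T a c D lam q β := by
    unfold CtN
    have hw := H447.wc_ge1 (N := N) (T := T) h.b0 h.dl a0 ρw
    have c0 : 0 < c := a0.trans_le h.ac
    have := h.D0
    have := h.lam0
    have := h.q0
    positivity
  unfold dtN
  positivity

/-- **`Blk.nt`** -/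
theorem nt {w w' : V nb} (hw : tn (w' - w) ≤ K) {B : Matrix (V (N / l)) (V (N / l)) ℝ}
    (hB : Ct B) (hsB : ∀ x j, B x j ≠ 0 → cx nb m x = w ∨ cx nb m x = w') :
    |H159.pr (B * Bᵀ) (dNm N l b T a c)| ≤ dtN N l ρw n b T a c D e lam q β κ ω ρ pe := by
  have T0 := h.T0
  obtain ⟨ww, w₀, ce, Wa, Wc, Ws⟩ := h.win w w' hw
  have hBs : ∀ x j, B x j ≠ 0 → x ∈ bxp (N / l) m w w' := by
    intro x j hx
    unfold bxp
    rw [Finset.mem_filter]
    exact ⟨Finset.mem_univ _, hsB x j hx⟩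
  have r1 := law_win Wa Ws h.a0 le_rfl h.k0 h.pu h.e0 h.e1 h.xa h.bX (h.gm a (Or.inl rfl))
    (h.gr a (Or.inl rfl)) h.rho0 h.pe0 h.pe1 (h.gp a (Or.inl rfl)) hB hBs
  have r2 := law_win Wc Ws h.a0 h.ac h.k0 h.pu h.e0 h.e1 h.xc h.bX (h.gm c (Or.inr rfl))
    (h.gr c (Or.inr rfl)) h.rho0 h.pe0 h.pe1 (h.gp c (Or.inr rfl)) hB hBs
  have r3 := Wc.near_trace h.a0 h.ac h.ca h.inc Ws.sub Ws.dj (psd_gram B) (ct_dB hB hBs)
  have eD : H159.pr (B * Bᵀ) (dNm N l b T a c) =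
      H159.pr (B * Bᵀ) (cbM N l b T a - Gnc N l b T T) -
        H159.pr (B * Bᵀ) (cbM N l b T c - Gnc N l b T T) := by
    unfold H159.pr H239.dNm
    rw [← Finset.sum_sub_distrib]
    refine Finset.sum_congr rfl fun x _ => ?_
    rw [← Finset.sum_sub_distrib]
    refine Finset.sum_congr rfl fun y _ => ?_
    simp only [Matrix.sub_apply]
    ring
  rw [eD]
  unfold dtN
  have r3' : |∫ g, Tst N l b T (B * Bᵀ) (WA N l ww w₀ Aa *ᵥ g) ∂(gau I) -
      ∫ g, Tst N l b T (B * Bᵀ) (WA N l ww w₀ Ac *ᵥ g) ∂(gau J)| ≤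
      CtN N l ρw n b T a c D lam q β := r3
  have a1 := abs_le.1 r1
  have a2 := abs_le.1 r2
  have a3 := abs_le.1 r3'
  rw [abs_le]
  constructor <;> linarith [a1.1, a1.2, a2.1, a2.2, a3.1, a3.2]

/-- **`Blk.nu`** with the same number -/
theorem nu {w w' : V nb} (hw : tn (w' - w) ≤ K) {g : V (N / l) → ℝ}
    (hg : ∀ x, cx nb m x ≠ w → cx nb m x ≠ w' → g x = 0) :
    |qf (dNm N l b T a c) g| ≤
      dtN N l ρw n b T a c D e lam q β κ ω ρ pe * ∑ x, g x ^ 2 := by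
  classical
  have hn : 0 ≤ ∑ x, g x ^ 2 := Finset.sum_nonneg fun _ _ => sq_nonneg _
  rcases hn.eq_or_lt with h0 | h0
  · have h1 : g = 0 := H43.eq_zero_of_sum_sq h0.symm
    rw [← h0, h1, mul_zero]
    unfold qf
    simp
  set r := √(∑ x, g x ^ 2) with hr
  have hr0 : 0 < r := Real.sqrt_pos.2 h0
  have hrr : r * r = ∑ x, g x ^ 2 := Real.mul_self_sqrt hn
  set B : Matrix (V (N / l)) (V (N / l)) ℝ :=
    Matrix.of fun x j => if j = 0 then r⁻¹ * g x else 0 with hB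
  have e1 : B * Bᵀ = (∑ x, g x ^ 2)⁻¹ • vecMulVec g g := by
    ext x y
    rw [Matrix.mul_apply, Finset.sum_eq_single (0 : V (N / l))]
    · simp only [hB, Matrix.of_apply, Matrix.transpose_apply, if_true, Matrix.smul_apply,
        vecMulVec_apply, smul_eq_mul]
      rw [← hrr]
      field_simp
    · intro j _ hj
      simp [hB, hj]
    · intro h
      exact absurd (Finset.mem_univ _) h
  have hBc : Ct B := by
    intro u
    rw [e1, H864.qf_smul_mat, H447.qf_vv]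
    have h3 := Finset.sum_mul_sq_le_sq_mul_sq Finset.univ g u
    rw [inv_mul_le_iff₀ h0]
    exact h3
  have hBs : ∀ x j, B x j ≠ 0 → cx nb m x = w ∨ cx nb m x = w' := by
    intro x j hx
    by_contra hc
    rw [not_or] at hc
    apply hx
    simp only [hB, Matrix.of_apply]
    rw [hg x hc.1 hc.2, mul_zero]
    split_ifs <;> rfl
  have h5 := h.nt hw hBc hBs
  have h6 : H159.pr (B * Bᵀ) (dNm N l b T a c) =
      (∑ x, g x ^ 2)⁻¹ * qf (dNm N l b T a c) g := by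
    rw [e1]
    unfold H159.pr qf
    rw [Finset.mul_sum]
    refine Finset.sum_congr rfl fun x _ => ?_
    rw [Finset.mul_sum]
    refine Finset.sum_congr rfl fun y _ => ?_
    rw [Matrix.smul_apply, vecMulVec_apply, smul_eq_mul]
    ring
  rw [h6, abs_mul, abs_of_pos (inv_pos.2 h0), inv_mul_le_iff₀ h0] at h5
  linarith

end NearH

lemma dff_nonneg {K : ℕ} {b T a c : ℝ} {I' : Type*} [Fintype I'] {A' : Matrix (V (N / l)) I' ℝ}
    {n' : ℕ} {D' e' lam' p' β' Λ ε ρ' pe' : ℝ} {Gd' : ℝ → Set (V N → ℝ)}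
    (f : H43.FarH N l nb m K b T a c A' n' D' e' lam' p' β' Λ ε ρ' pe' Gd') :
    0 ≤ H43.FarH.dff n' N l T a D' e' lam' β' ε ρ' pe' := by
  have T0 := f.T0
  have a0 := f.a0
  have q0 := f.q_pos
  have e0 := f.e0
  have ep0 := f.ep0
  have h3 := f.ks
  have h4 := f.R1_nonneg
  have h5 := f.pe0
  have c1 := cl_nonneg n' (8 * (lam' * (e' ^ 4 * D')))
  have h6 : 0 ≤ H43.s2 n' D' e' lam' (T / a * ((N / l : ℕ) : ℝ) ^ 2) β' := by
    unfold H43.s2
    positivity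
  unfold H43.FarH.dff
  positivity

/-- **`Blk` from the near and the far part** -/
theorem blk_of {K : ℕ} {b T a c : ℝ} {Aa : Matrix (V (N / l)) I ℝ} {Ac : Matrix (V (N / l)) J ℝ}
    {ρw n : ℕ} {R D e lam p β q pX κ ω ρ pe : ℝ} {Gd : ℝ → Set (V N → ℝ)}
    (h : NearH N l nb m K b T a c Aa Ac ρw n R D e lam p β q pX κ ω ρ pe Gd)
    {I' : Type*} [Fintype I'] {A' : Matrix (V (N / l)) I' ℝ} {n' : ℕ}
    {D' e' lam' p' β' Λ ε ρ' pe' : ℝ} {Gd' : ℝ → Set (V N → ℝ)}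
    (f : H43.FarH N l nb m K b T a c A' n' D' e' lam' p' β' Λ ε ρ' pe' Gd') :
    H239.Blk nb m K (dNm N l b T a c) (dtN N l ρw n b T a c D e lam q β κ ω ρ pe)
      (H43.FarH.dlf n' N l T a D' lam' β' ε ρ' pe')
      (dtN N l ρw n b T a c D e lam q β κ ω ρ pe)
      (H43.FarH.dff n' N l T a D' e' lam' β' ε ρ' pe') where
  d0 := h.dt_nonneg
  d1 := f.dlf_nonneg
  dt := h.dt_nonneg
  df := dff_nonneg f
  nu _ _ _ hw hg := h.nu hw hg
  fu _ _ _ _ hw hg hg' := f.fu hw hg hg'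
  nt _ _ hw _ hB hBs := h.nt hw hB hBs
  ft _ _ hw _ hB hBs := f.ft hw hB hBs

end near5

end

end Vale.Agent.P159.H612
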