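import Vale.Agent.P159.H963.NeuI
import Vale.Agent.P159.H612.Local5

/-!
P159 / second order flow, module NKER (helper612), part 1: the neutral covariance as an average of
the covariances in the constant backgrounds (general gradient weight, general mass form).
-/

namespace Vale.Agent.P159.H612

open Real Finset Filter Topology MeasureTheory Matrix
open Vale.Agent.P159.TM.H104
open Vale.Agent.P159.H37
open Vale.Agent.P159.H963 (GW MF nM Zc GrI Neu pin ntr)

set_option linter.unusedSectionVars false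

noncomputable section

section gen

variable {V : Type} [Fintype V] [DecidableEq V] [Nonempty V] {w : (V → ℤ) → ℝ}
  {M : Matrix V V ℝ} {m : ℝ}

/-- the numerator of `Zc` with an observable -/
def Tc (w : (V → ℤ) → ℝ) (M : Matrix V V ℝ) (m : ℝ) (Fo : (V → ℤ) → ℝ) (c : ℝ) : ℝ :=
  Real.exp (-(m * Fintype.card V / 2 * c ^ 2)) * TM.H104.T (wM w M) (fun _ => m * c) Fo

lemma Tc_one (c : ℝ) : Tc w M m (fun _ => 1) c = Zc w M m 0 c := by
  unfold Tc Zc Zs
  rw [zero_add]

lemma Tc_eq (Fo : (V → ℤ) → ℝ) (c : ℝ) :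
    Tc w M m Fo c = ∑' h : V → ℤ, (Fo h * (w h * Real.exp (-(qf (ntr M m) (re h) / 2)))) *
      Real.exp (-(m * Fintype.card V / 2) *
        ((∑ x, (h x : ℝ)) / Fintype.card V - c) ^ 2) := by
  unfold Tc TM.H104.T
  rw [← tsum_mul_left]
  refine tsum_congr fun h => ?_
  unfold wM
  rw [H963.li_const]
  have h1 : Real.exp (-(m * (Fintype.card V : ℝ) / 2 * c ^ 2)) *
      (Fo h * (w h * Real.exp (-(qf M (re h) / 2))) * Real.exp (m * c * ∑ x, (h x : ℝ))) =
      Fo h * w h * (Real.exp (-(qf M (re h) / 2)) *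
        Real.exp (m * c * ∑ x, (h x : ℝ)) *
        Real.exp (-(m * (Fintype.card V : ℝ) / 2 * c ^ 2))) := by ring
  have h2 : Fo h * (w h * Real.exp (-(qf (ntr M m) (re h) / 2))) *
      Real.exp (-(m * Fintype.card V / 2) * ((∑ x, (h x : ℝ)) / Fintype.card V - c) ^ 2) =
      Fo h * w h * (Real.exp (-(qf (ntr M m) (re h) / 2)) *
      Real.exp (-(m * Fintype.card V / 2) *
        ((∑ x, (h x : ℝ)) / Fintype.card V - c) ^ 2)) := by ring
  rw [h1, h2, ← Real.exp_add, ← Real.exp_add, ← Real.exp_add]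
  congr 2
  have := H963.qf_M_eq M m h c
  linarith

/-- **periodisation with an observable** -/
theorem int_Tc (hw : GW w) (hM : MF M m) (x₀ : V) {Fo : (V → ℤ) → ℝ} (hG : Gr Fo)
    (hI : GrI Fo) (h0 : ∀ h, 0 ≤ Fo h) :
    ∫ c in (0 : ℝ)..1, Tc w M m Fo c =
      Real.sqrt (2 * Real.pi / (m * Fintype.card V)) * TM.H104.T (nM w M m x₀) 0 Fo := by
  have hm := hM.pos
  have hN : (0 : ℝ) < Fintype.card V := Nat.cast_pos.2 Fintype.card_pos
  have hM0t := H963.ntr_transpose hM.symm m
  have hM01 := H963.ntr_row (V := V) hM.row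
  have hE := hw.em_nM hM x₀
  have ha : ∀ (h : V → ℤ) (n : ℤ), (∑ x, (((fun x => h x + n) x : ℤ) : ℝ)) /
      (Fintype.card V : ℝ) = (∑ x, (h x : ℝ)) / (Fintype.card V : ℝ) + n := by
    intro h n
    have : ∑ x, (((fun x => h x + n) x : ℤ) : ℝ) = ∑ x, (h x : ℝ) + Fintype.card V * n := by
      push_cast
      rw [Finset.sum_add_distrib, Finset.sum_const, Finset.card_univ, nsmul_eq_mul]
    rw [this]
    field_simp
  have hpt : ∀ h : V → ℤ, (if h x₀ = 0 then
      Fo h * (w h * Real.exp (-(qf (ntr M m) (re h) / 2))) else 0) =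
      Fo h * nM w M m x₀ h * Real.exp (li (0 : V → ℝ) h) := by
    intro h
    rw [li_zero, Real.exp_zero, mul_one]
    unfold nM pin
    by_cases h0 : h x₀ = 0
    · rw [if_pos h0, if_pos h0]
      rfl
    · rw [if_neg h0, if_neg h0]
      ring
  have hsum : Summable fun h : V → ℤ => if h x₀ = 0 then
      Fo h * (w h * Real.exp (-(qf (ntr M m) (re h) / 2))) else 0 :=
    (hE.summ hG 0).congr fun h => (hpt h).symm
  have hc : 0 < m * (Fintype.card V : ℝ) / 2 := by positivity
  have hcore := H963.grI_core hw.grd hM0t hM01 (J := (0 : V → ℝ)) (by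
    unfold Neu
    simp)
  have hB : GrI fun h : V → ℤ => Fo h * (w h * Real.exp (-(qf (ntr M m) (re h) / 2))) := by
    refine hI.mul ?_
    intro h n
    have h1 := hcore h n
    simp only [li_zero, Real.exp_zero, mul_one] at h1
    exact h1
  have h1 := H963.per_sum (x₀ := x₀) (B := fun h : V → ℤ =>
      Fo h * (w h * Real.exp (-(qf (ntr M m) (re h) / 2))))
    (a := fun h : V → ℤ => (∑ x, (h x : ℝ)) / (Fintype.card V : ℝ))
    (fun h => mul_nonneg (h0 h) (mul_nonneg (hw.nn h) (Real.exp_pos _).le))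
    hB ha hsum hc
  have h2 : (fun c : ℝ => Tc w M m Fo c) = fun c : ℝ => ∑' h : V → ℤ,
      (Fo h * (w h * Real.exp (-(qf (ntr M m) (re h) / 2)))) *
        Real.exp (-(m * Fintype.card V / 2) *
          ((∑ x, (h x : ℝ)) / Fintype.card V - c) ^ 2) := by
    funext c
    exact Tc_eq Fo c
  rw [h2, h1]
  have h3 : Real.pi / (m * (Fintype.card V : ℝ) / 2) = 2 * Real.pi / (m * Fintype.card V) := by
    field_simp
  rw [h3]
  congr 1
  unfold TM.H104.T
  exact tsum_congr hpt

/-- the average over the constant backgrounds -/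
def pav (w : (V → ℤ) → ℝ) (M : Matrix V V ℝ) (m : ℝ) (f : ℝ → ℝ) : ℝ :=
  (∫ c in (0 : ℝ)..1, Zc w M m 0 c * f c) / ∫ c in (0 : ℝ)..1, Zc w M m 0 c

lemma Zc_pos (hw : GW w) (hM : MF M m) (c : ℝ) : 0 < Zc w M m 0 c := by
  unfold Zc
  exact mul_pos (Real.exp_pos _) (T_one_pos (hw.em_wM hM) _)

lemma Zc_cont (hw : GW w) (hM : MF M m) : Continuous (Zc w M m 0) :=
  H963.continuous_Zc (hw.em_wM hM) m 0

lemma int_Zc_pos (hw : GW w) (hM : MF M m) : 0 < ∫ c in (0 : ℝ)..1, Zc w M m 0 c :=
  intervalIntegral.intervalIntegral_pos_of_pos ((Zc_cont hw hM).intervalIntegrable 0 1)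
    (fun c => Zc_pos hw hM c) one_pos

lemma pav_const (hw : GW w) (hM : MF M m) (a : ℝ) : pav w M m (fun _ => a) = a := by
  unfold pav
  rw [intervalIntegral.integral_mul_const]
  exact mul_div_cancel_left₀ a (int_Zc_pos hw hM).ne'

lemma pav_mono (hw : GW w) (hM : MF M m) {f g : ℝ → ℝ} (hf : Continuous f) (hg : Continuous g)
    (h : ∀ c, f c ≤ g c) : pav w M m f ≤ pav w M m g := by
  unfold pav
  have hc := Zc_cont hw hM
  refine div_le_div_of_nonneg_right ?_ (int_Zc_pos hw hM).le
  exact intervalIntegral.integral_mono_on zero_le_one ((hc.mul hf).intervalIntegrable 0 1)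
    ((hc.mul hg).intervalIntegrable 0 1)
    fun c _ => mul_le_mul_of_nonneg_left (h c) (Zc_pos hw hM c).le

lemma pav_add (hw : GW w) (hM : MF M m) {f g : ℝ → ℝ} (hf : Continuous f) (hg : Continuous g) :
    pav w M m (fun c => f c + g c) = pav w M m f + pav w M m g := by
  unfold pav
  have hc := Zc_cont hw hM
  have h1 := intervalIntegral.integral_add (μ := volume) (a := 0) (b := 1)
    (f := fun c => Zc w M m 0 c * f c) (g := fun c => Zc w M m 0 c * g c)
    ((hc.mul hf).intervalIntegrable 0 1) ((hc.mul hg).intervalIntegrable 0 1)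
  rw [← add_div, ← h1]
  congr 1
  refine intervalIntegral.integral_congr fun c _ => ?_
  ring

lemma pav_cmul (a : ℝ) (f : ℝ → ℝ) : pav w M m (fun c => a * f c) = a * pav w M m f := by
  unfold pav
  rw [← mul_div_assoc, ← intervalIntegral.integral_const_mul]
  congr 1
  refine intervalIntegral.integral_congr fun c _ => ?_
  ring

lemma pav_sum (hw : GW w) (hM : MF M m) {ι : Type*} (s : Finset ι) {f : ι → ℝ → ℝ}
    (hf : ∀ i ∈ s, Continuous (f i)) :
    pav w M m (fun c => ∑ i ∈ s, f i c) = ∑ i ∈ s, pav w M m (f i) := by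
  classical
  induction s using Finset.induction_on with
  | empty =>
    simp only [Finset.sum_empty]
    exact pav_const hw hM 0
  | insert a s ha ih =>
    simp only [Finset.sum_insert ha]
    rw [pav_add hw hM (hf a (Finset.mem_insert_self a s))
      (continuous_finsetSum _ fun i hi => hf i (Finset.mem_insert_of_mem hi)),
      ih fun i hi => hf i (Finset.mem_insert_of_mem hi)]

/-- continuity in the constant -/
lemma cont_Cvc (hw : GW w) (hM : MF M m) {F G : (V → ℤ) → ℝ} (hF : Gr F) (hG : Gr G) :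
    Continuous fun c : ℝ => Cv (wM w M) (fun _ => m * c) F G :=
  (continuous_Cv (hw.em_wM hM) hF hG).comp (by fun_prop)

lemma cont_Exc (hw : GW w) (hM : MF M m) {F : (V → ℤ) → ℝ} (hF : Gr F) :
    Continuous fun c : ℝ => Ex (wM w M) (fun _ => m * c) F :=
  (continuous_Ex (hw.em_wM hM) hF).comp (by fun_prop)

/-- **the neutral expectation is the average of the expectations in the constant backgrounds** -/
theorem Ex_nM (hw : GW w) (hM : MF M m) (x₀ : V) {Fo : (V → ℤ) → ℝ} (hG : Gr Fo)
    (hI : GrI Fo) (h0 : ∀ h, 0 ≤ Fo h) :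
    Ex (nM w M m x₀) 0 Fo = pav w M m fun c => Ex (wM w M) (fun _ => m * c) Fo := by
  have hm := hM.pos
  have hN : (0 : ℝ) < Fintype.card V := Nat.cast_pos.2 Fintype.card_pos
  have h1 := int_Tc hw hM x₀ hG hI h0
  have h2 := int_Tc hw hM x₀ (Gr.const (V := V) 1) (fun _ _ => rfl) fun _ => zero_le_one
  have hs : 0 < Real.sqrt (2 * Real.pi / (m * Fintype.card V)) :=
    Real.sqrt_pos.2 (by positivity)
  have h3 : ∀ c, Zc w M m 0 c * Ex (wM w M) (fun _ => m * c) Fo = Tc w M m Fo c := by
    intro c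
    have hp := T_one_pos (hw.em_wM hM) (fun _ => m * c)
    unfold Zc Tc Ex Zs
    rw [zero_add]
    field_simp
  unfold pav
  simp only [h3]
  simp only [Tc_one] at h2
  rw [h1, h2]
  unfold Ex
  rw [mul_div_mul_left _ _ hs.ne']

/-- the averaged covariance matrix -/
def Gav (w : (V → ℤ) → ℝ) (M : Matrix V V ℝ) (m : ℝ) : Matrix V V ℝ :=
  Matrix.of fun x y => pav w M m fun c => Cm (wM w M) (fun _ => m * c) x y

/-- evaluation at a site -/
lemma gr_site (x : V) : Gr fun h : V → ℤ => (h x : ℝ) := by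
  have e : (fun h : V → ℤ => (h x : ℝ)) = li (Pi.single x 1) := by
    funext h
    unfold li
    simp [Pi.single_apply]
  rw [e]
  exact Gr.li _

lemma cont_Cmc (hw : GW w) (hM : MF M m) (x y : V) :
    Continuous fun c : ℝ => Cm (wM w M) (fun _ => m * c) x y :=
  cont_Cvc hw hM (gr_site x) (gr_site y)

lemma qf_Gav (hw : GW w) (hM : MF M m) (u : V → ℝ) :
    qf (Gav w M m) u = pav w M m fun c => qf (Cm (wM w M) fun _ => m * c) u := by
  have hc : ∀ x y : V, Continuous fun c : ℝ => u x * Cm (wM w M) (fun _ => m * c) x y * u y :=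
    fun x y => ((cont_Cmc hw hM x y).const_mul (u x)).mul_const (u y)
  have h1 : ∀ x, pav w M m (fun c => ∑ y, u x * Cm (wM w M) (fun _ => m * c) x y * u y) =
      ∑ y, u x * Gav w M m x y * u y := by
    intro x
    have h2 := pav_sum hw hM Finset.univ
      (f := fun y (c : ℝ) => u x * Cm (wM w M) (fun _ => m * c) x y * u y) fun y _ => hc x y
    refine h2.trans (Finset.sum_congr rfl fun y _ => ?_)
    have e : (fun c : ℝ => u x * Cm (wM w M) (fun _ => m * c) x y * u y) =
        fun c => (u x * u y) * Cm (wM w M) (fun _ => m * c) x y := by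
      funext c
      ring
    rw [e, pav_cmul]
    unfold Gav
    rw [Matrix.of_apply]
    ring
  have h3 := pav_sum hw hM Finset.univ
    (f := fun x (c : ℝ) => ∑ y, u x * Cm (wM w M) (fun _ => m * c) x y * u y)
    fun x _ => continuous_finsetSum _ fun y _ => hc x y
  unfold qf
  rw [h3]
  exact Finset.sum_congr rfl fun x _ => (h1 x).symm

/-- **(NK1)** the neutral covariance form is the average of the covariance forms in the constant
backgrounds, if the means of neutral functions vanish there -/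
theorem qf_nM_eq (hw : GW w) (hM : MF M m) (x₀ : V) {u : V → ℝ} (hu : Neu u)
    (h0 : ∀ c : ℝ, Ex (wM w M) (fun _ => m * c) (li u) = 0) :
    qf (Gm (nM w M m x₀)) u = qf (Gav w M m) u := by
  have hE := hw.em_nM hM x₀
  rw [qf_Gav hw hM]
  have h1 : qf (Gm (nM w M m x₀)) u = Ex (nM w M m x₀) 0 fun h => li u h * li u h := by
    rw [H789.qf_Gm hE]
    unfold Cv
    rw [H789.Ex_zero_li (hw.ev_nM M m x₀)]
    ring
  rw [h1, Ex_nM hw hM x₀ ((Gr.li u).mul (Gr.li u))
    ((H963.grI_li hu).mul (H963.grI_li hu)) fun h => mul_self_nonneg _]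
  congr 1
  funext c
  rw [H789.qf_Cm (hw.em_wM hM)]
  unfold Cv
  rw [h0 c]
  ring

end gen

end

end Vale.Agent.P159.H612
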