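import Vale.Agent.P159.H612.LocD
import Vale.Agent.P159.H145.Loc2

/-!
P159 / second order flow, module LOC^D (helper612), part (D6), (D7): oscillation of the partition
function under constants in every dislocated background.

`osc_pp` : for continuous `1`-periodic `Y`, `Z`, `Z` even, with `Y (a + c) Z (a - c)` positive
semidefinite, `|Y c - ∫ Y| * ∫ Z ≤ ∫ Y * (Z 0 - ∫ Z)`.
-/

namespace Vale.Agent.P159.H612

open Real Finset Filter Topology MeasureTheory
open Vale.Agent.P159.H770 (PP kp PSDF)

/-! ### periodic functions -/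

section per

variable {f g : ℝ → ℝ}

lemma int_per (hp : Function.Periodic g 1) (t : ℝ) :
    ∫ v in t..(t + 1), g v = ∫ v in (0 : ℝ)..1, g v := by
  have := hp.intervalIntegral_add_eq t 0
  simpa using this

lemma int_refl (hp : Function.Periodic g 1) (c : ℝ) :
    ∫ v in (0 : ℝ)..1, g (c - v) = ∫ v in (0 : ℝ)..1, g v := by
  rw [intervalIntegral.integral_comp_sub_left (fun v => g v) c]
  have := int_per hp (c - 1)
  rw [show c - 1 + 1 = c by ring] at this
  rw [sub_zero, this]

lemma int_dbl (hg : Continuous g) (hp : Function.Periodic g 1) (β : ℝ) :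
    ∫ v in (0 : ℝ)..1, g (β + 2 * v) = ∫ v in (0 : ℝ)..1, g v := by
  have h1 : ∫ v in (0 : ℝ)..1, g (β + 2 * v) = (2 : ℝ)⁻¹ • ∫ v in (β + 2 * 0)..(β + 2 * 1), g v :=
    intervalIntegral.integral_comp_add_mul g (by norm_num : (2 : ℝ) ≠ 0) β
  rw [h1]
  have h2 : ∫ v in (β + 2 * 0)..(β + 2 * 1), g v =
      (∫ v in β..(β + 1), g v) + ∫ v in (β + 1)..(β + 1 + 1), g v := by
    rw [intervalIntegral.integral_add_adjacent_intervals (hg.intervalIntegrable _ _)
      (hg.intervalIntegrable _ _)]
    congr 1 <;> ring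
  rw [h2, int_per hp, int_per hp, ← two_smul ℝ, smul_smul]
  norm_num

/-- the kernel integrated in one variable -/
noncomputable def kin (Y Z : ℝ → ℝ) (γ : ℝ) : ℝ := ∫ a in (0 : ℝ)..1, kp Y Z a γ

lemma kp_cont {Y Z : ℝ → ℝ} (hY : Continuous Y) (hZ : Continuous Z) :
    Continuous (Function.uncurry (kp Y Z)) := by
  unfold Function.uncurry kp
  fun_prop

lemma kin_cont {Y Z : ℝ → ℝ} (hY : Continuous Y) (hZ : Continuous Z) : Continuous (kin Y Z) := by
  unfold kin
  have h : Continuous (Function.uncurry fun γ a : ℝ => kp Y Z a γ) := by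
    unfold Function.uncurry kp
    fun_prop
  exact intervalIntegral.continuous_parametric_intervalIntegral_of_continuous' h 0 1

lemma kp_per_left {Y Z : ℝ → ℝ} (pY : Function.Periodic Y 1) (pZ : Function.Periodic Z 1)
    (γ : ℝ) : Function.Periodic (fun a => kp Y Z a γ) 1 := by
  intro a
  show Y (a + 1 + γ) * Z (a + 1 - γ) = Y (a + γ) * Z (a - γ)
  rw [show a + 1 + γ = a + γ + 1 by ring, show a + 1 - γ = a - γ + 1 by ring, pY, pZ]

lemma kp_per_right {Y Z : ℝ → ℝ} (pY : Function.Periodic Y 1) (pZ : Function.Periodic Z 1)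
    (a : ℝ) : Function.Periodic (fun γ => kp Y Z a γ) 1 := by
  intro γ
  show Y (a + (γ + 1)) * Z (a - (γ + 1)) = Y (a + γ) * Z (a - γ)
  rw [show a + (γ + 1) = a + γ + 1 by ring, show a - (γ + 1) = a - γ - 1 by ring, pY, pZ.sub_eq]

lemma kin_per {Y Z : ℝ → ℝ} (pY : Function.Periodic Y 1) (pZ : Function.Periodic Z 1) :
    Function.Periodic (kin Y Z) 1 := by
  intro γ
  unfold kin
  refine intervalIntegral.integral_congr fun a _ => ?_
  exact kp_per_right pY pZ a γ

lemma kin_int {Y Z : ℝ → ℝ} (hY : Continuous Y) (hZ : Continuous Z)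
    (pY : Function.Periodic Y 1) (pZ : Function.Periodic Z 1) :
    ∫ γ in (0 : ℝ)..1, kin Y Z γ = (∫ a in (0 : ℝ)..1, Y a) * ∫ a in (0 : ℝ)..1, Z a := by
  have e1 : ∀ v : ℝ, kin Y Z v = ∫ u in (0 : ℝ)..1, Y (u + 2 * v) * Z u := by
    intro v
    unfold kin kp
    have hper : Function.Periodic (fun u => Y (u + 2 * v) * Z u) 1 := by
      intro u
      have a1 : Y (u + 1 + 2 * v) = Y (u + 2 * v) := by
        rw [show u + 1 + 2 * v = (u + 2 * v) + 1 by ring]
        exact pY _
      show Y (u + 1 + 2 * v) * Z (u + 1) = _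
      rw [a1, pZ u]
    have h3 : ∫ u in (0 : ℝ)..1, Y (u + v) * Z (u - v) =
        ∫ u in (0 - v)..(1 - v), Y (u + 2 * v) * Z u := by
      rw [← intervalIntegral.integral_comp_sub_right (fun u => Y (u + 2 * v) * Z u) v]
      refine intervalIntegral.integral_congr fun u _ => ?_
      show _ = Y (u - v + 2 * v) * Z (u - v)
      rw [show u - v + 2 * v = u + v by ring]
    rw [h3]
    have := hper.intervalIntegral_add_eq (0 - v) 0
    rw [show (1 : ℝ) - v = 0 - v + 1 by ring, this, zero_add]
  simp only [e1]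
  have hc : Continuous (Function.uncurry fun v u : ℝ => Y (u + 2 * v) * Z u) := by
    unfold Function.uncurry
    fun_prop
  rw [intervalIntegral_intervalIntegral_swap
    ((hc.continuousOn.integrableOn_compact
      (isCompact_Icc (a := ((0 : ℝ), (0 : ℝ))) (b := ((1 : ℝ), (1 : ℝ))))).mono_set ?_)]
  · have e2 : ∀ u : ℝ, ∫ v in (0 : ℝ)..1, Y (u + 2 * v) * Z u =
        (∫ v in (0 : ℝ)..1, Y v) * Z u := by
      intro u
      rw [intervalIntegral.integral_mul_const, int_dbl hY pY]
    simp only [e2]
    rw [intervalIntegral.integral_const_mul]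
  · rintro ⟨x, y⟩ ⟨hx, hy⟩
    rw [Set.uIoc_of_le zero_le_one] at hx hy
    exact ⟨⟨hx.1.le, hy.1.le⟩, ⟨hx.2, hy.2⟩⟩

end per

/-! ### the oscillation lemma -/

section osc

variable {Y Z : ℝ → ℝ}

lemma psd_two (hK : PP Y Z) (he : ∀ a, Z (-a) = Z a) (a b : ℝ) :
    0 ≤ kp Y Z a a + kp Y Z b b - 2 * kp Y Z a b := by
  have h := hK 2 ![a, b] ![1, -1]
  simp only [Fin.sum_univ_two, Matrix.cons_val_zero, Matrix.cons_val_one] at h
  rw [H770.kp_symm he b a] at h
  linarith

lemma psd_four (hK : PP Y Z) (he : ∀ a, Z (-a) = Z a) (a b c d : ℝ) :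
    0 ≤ kp Y Z a a + kp Y Z b b + kp Y Z c c + kp Y Z d d + 2 * kp Y Z a b + 2 * kp Y Z c d -
      2 * kp Y Z a c - 2 * kp Y Z a d - 2 * kp Y Z b c - 2 * kp Y Z b d := by
  have h := hK 4 ![a, b, c, d] ![1, 1, -1, -1]
  simp only [Fin.sum_univ_four, Matrix.cons_val_zero, Matrix.cons_val_one, Matrix.cons_val] at h
  rw [H770.kp_symm he b a, H770.kp_symm he c a, H770.kp_symm he d a, H770.kp_symm he c b,
    H770.kp_symm he d b, H770.kp_symm he d c] at h
  linarith

lemma diag_per (pY : Function.Periodic Y 1) : Function.Periodic (fun a => kp Y Z a a) 1 := by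
  intro a
  show Y (a + 1 + (a + 1)) * Z (a + 1 - (a + 1)) = Y (a + a) * Z (a - a)
  rw [sub_self, sub_self, show a + 1 + (a + 1) = a + a + 1 + 1 by ring, pY, pY]

lemma diag_cont (hY : Continuous Y) (hZ : Continuous Z) : Continuous fun a => kp Y Z a a := by
  unfold kp
  fun_prop

lemma diag_int (hY : Continuous Y) (pY : Function.Periodic Y 1) :
    ∫ a in (0 : ℝ)..1, kp Y Z a a = (∫ a in (0 : ℝ)..1, Y a) * Z 0 := by
  have e : ∀ a, kp Y Z a a = Y (0 + 2 * a) * Z 0 := by
    intro a
    unfold kp
    rw [sub_self, zero_add, two_mul]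
  simp only [e]
  rw [intervalIntegral.integral_mul_const, int_dbl hY pY]

lemma anti_int (hZ : Continuous Z) (pZ : Function.Periodic Z 1) (c : ℝ) :
    ∫ a in (0 : ℝ)..1, kp Y Z a (c - a) = Y c * ∫ a in (0 : ℝ)..1, Z a := by
  have e : ∀ a, kp Y Z a (c - a) = Y c * Z (-c + 2 * a) := by
    intro a
    unfold kp
    rw [show a + (c - a) = c by ring, show a - (c - a) = -c + 2 * a by ring]
  simp only [e]
  rw [intervalIntegral.integral_const_mul, int_dbl hZ pZ]

lemma anti_cont (hZ : Continuous Z) (c : ℝ) : Continuous fun a => kp Y Z a (c - a) := by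
  have e : (fun a => kp Y Z a (c - a)) = fun a => Y c * Z (-c + 2 * a) := by
    funext a
    unfold kp
    rw [show a + (c - a) = c by ring, show a - (c - a) = -c + 2 * a by ring]
  rw [e]
  fun_prop

/-- upper bound -/
theorem osc_up (hY : Continuous Y) (hZ : Continuous Z) (pY : Function.Periodic Y 1)
    (pZ : Function.Periodic Z 1) (hK : PP Y Z) (he : ∀ a, Z (-a) = Z a) (c : ℝ) :
    Y c * ∫ a in (0 : ℝ)..1, Z a ≤ (∫ a in (0 : ℝ)..1, Y a) * Z 0 := by
  have i1 : IntervalIntegrable (fun a => kp Y Z a a) volume 0 1 :=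
    (diag_cont hY hZ).intervalIntegrable _ _
  have i2 : IntervalIntegrable (fun a => kp Y Z (c - a) (c - a)) volume 0 1 := by
    have : Continuous fun a : ℝ => kp Y Z (c - a) (c - a) := by
      unfold kp
      fun_prop
    exact this.intervalIntegrable _ _
  have i3 : IntervalIntegrable (fun a => kp Y Z a (c - a)) volume 0 1 :=
    (anti_cont hZ c).intervalIntegrable _ _
  have h : 0 ≤ ∫ a in (0 : ℝ)..1, (kp Y Z a a + kp Y Z (c - a) (c - a) -
      2 * kp Y Z a (c - a)) :=
    intervalIntegral.integral_nonneg zero_le_one fun a _ => psd_two hK he a (c - a)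
  rw [intervalIntegral.integral_sub (i1.add i2) (i3.const_mul 2),
    intervalIntegral.integral_add i1 i2, intervalIntegral.integral_const_mul,
    int_refl (g := fun a => kp Y Z a a) (diag_per pY) c, diag_int hY pY, anti_int hZ pZ c] at h
  linarith

/-- lower bound -/
theorem osc_low (hY : Continuous Y) (hZ : Continuous Z) (pY : Function.Periodic Y 1)
    (pZ : Function.Periodic Z 1) (hK : PP Y Z) (he : ∀ a, Z (-a) = Z a) (c : ℝ) :
    2 * ((∫ a in (0 : ℝ)..1, Y a) * ∫ a in (0 : ℝ)..1, Z a) ≤
      (∫ a in (0 : ℝ)..1, Y a) * Z 0 + Y c * ∫ a in (0 : ℝ)..1, Z a := by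
  set Y0 := ∫ a in (0 : ℝ)..1, Y a with hY0
  set Z0 := ∫ a in (0 : ℝ)..1, Z a with hZ0
  -- inner integral
  have inner : ∀ β : ℝ, 0 ≤ 2 * (Y0 * Z 0) + kp Y Z β β + kp Y Z (c - β) (c - β) +
      2 * (Y c * Z0) + 2 * kp Y Z β (c - β) - 4 * kin Y Z β - 4 * kin Y Z (c - β) := by
    intro β
    have h : 0 ≤ ∫ a in (0 : ℝ)..1, (kp Y Z a a + kp Y Z (c - a) (c - a) + kp Y Z β β +
        kp Y Z (c - β) (c - β) + 2 * kp Y Z a (c - a) + 2 * kp Y Z β (c - β) -
        2 * kp Y Z a β - 2 * kp Y Z a (c - β) - 2 * kp Y Z (c - a) β -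
        2 * kp Y Z (c - a) (c - β)) :=
      intervalIntegral.integral_nonneg zero_le_one fun a _ => psd_four hK he a (c - a) β (c - β)
    have j1 : IntervalIntegrable (fun a => kp Y Z a a) volume 0 1 :=
      (diag_cont hY hZ).intervalIntegrable _ _
    have j2 : IntervalIntegrable (fun a => kp Y Z (c - a) (c - a)) volume 0 1 := by
      have : Continuous fun a : ℝ => kp Y Z (c - a) (c - a) := by
        unfold kp
        fun_prop
      exact this.intervalIntegrable _ _
    have j3 : IntervalIntegrable (fun _ : ℝ => kp Y Z β β) volume 0 1 :=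
      intervalIntegrable_const
    have j4 : IntervalIntegrable (fun _ : ℝ => kp Y Z (c - β) (c - β)) volume 0 1 :=
      intervalIntegrable_const
    have j5 : IntervalIntegrable (fun a => kp Y Z a (c - a)) volume 0 1 :=
      (anti_cont hZ c).intervalIntegrable _ _
    have j6 : IntervalIntegrable (fun _ : ℝ => 2 * kp Y Z β (c - β)) volume 0 1 :=
      intervalIntegrable_const
    have jk : ∀ γ : ℝ, IntervalIntegrable (fun a => kp Y Z a γ) volume 0 1 := by
      intro γ
      have : Continuous fun a : ℝ => kp Y Z a γ := by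
        unfold kp
        fun_prop
      exact this.intervalIntegrable _ _
    have jk' : ∀ γ : ℝ, IntervalIntegrable (fun a => kp Y Z (c - a) γ) volume 0 1 := by
      intro γ
      have : Continuous fun a : ℝ => kp Y Z (c - a) γ := by
        unfold kp
        fun_prop
      exact this.intervalIntegrable _ _
    rw [intervalIntegral.integral_sub, intervalIntegral.integral_sub,
      intervalIntegral.integral_sub, intervalIntegral.integral_sub,
      intervalIntegral.integral_add, intervalIntegral.integral_add,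
      intervalIntegral.integral_add, intervalIntegral.integral_add,
      intervalIntegral.integral_add] at h
    rotate_left
    · exact j1
    · exact j2
    · exact j1.add j2
    · exact j3
    · exact (j1.add j2).add j3
    · exact j4
    · exact ((j1.add j2).add j3).add j4
    · exact j5.const_mul 2
    · exact (((j1.add j2).add j3).add j4).add (j5.const_mul 2)
    · exact j6
    · exact ((((j1.add j2).add j3).add j4).add (j5.const_mul 2)).add j6
    · exact (jk β).const_mul 2
    · exact (((((j1.add j2).add j3).add j4).add (j5.const_mul 2)).add j6).sub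
        ((jk β).const_mul 2)
    · exact (jk (c - β)).const_mul 2
    · exact ((((((j1.add j2).add j3).add j4).add (j5.const_mul 2)).add j6).sub
        ((jk β).const_mul 2)).sub ((jk (c - β)).const_mul 2)
    · exact (jk' β).const_mul 2
    · exact (((((((j1.add j2).add j3).add j4).add (j5.const_mul 2)).add j6).sub
        ((jk β).const_mul 2)).sub ((jk (c - β)).const_mul 2)).sub ((jk' β).const_mul 2)
    · exact (jk' (c - β)).const_mul 2
    simp only [intervalIntegral.integral_const_mul, intervalIntegral.integral_const, sub_zero,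
      one_smul] at h
    rw [int_refl (g := fun a => kp Y Z a a) (diag_per pY) c, diag_int hY pY, anti_int hZ pZ c,
      int_refl (g := fun a => kp Y Z a β) (kp_per_left pY pZ β) c,
      int_refl (g := fun a => kp Y Z a (c - β)) (kp_per_left pY pZ (c - β)) c] at h
    unfold kin
    linarith
  -- outer integral
  have hkc := kin_cont hY hZ
  have l1 : IntervalIntegrable (fun b => kp Y Z b b) volume 0 1 :=
    (diag_cont hY hZ).intervalIntegrable _ _
  have l2 : IntervalIntegrable (fun b => kp Y Z (c - b) (c - b)) volume 0 1 := by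
    have : Continuous fun a : ℝ => kp Y Z (c - a) (c - a) := by
      unfold kp
      fun_prop
    exact this.intervalIntegrable _ _
  have l3 : IntervalIntegrable (fun b => kp Y Z b (c - b)) volume 0 1 :=
    (anti_cont hZ c).intervalIntegrable _ _
  have l4 : IntervalIntegrable (kin Y Z) volume 0 1 := hkc.intervalIntegrable _ _
  have l5 : IntervalIntegrable (fun b => kin Y Z (c - b)) volume 0 1 := by
    have : Continuous fun b : ℝ => kin Y Z (c - b) := by fun_prop
    exact this.intervalIntegrable _ _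
  have lc : ∀ r : ℝ, IntervalIntegrable (fun _ : ℝ => r) volume 0 1 := fun r =>
    intervalIntegrable_const
  have h : 0 ≤ ∫ β in (0 : ℝ)..1, (2 * (Y0 * Z 0) + kp Y Z β β + kp Y Z (c - β) (c - β) +
      2 * (Y c * Z0) + 2 * kp Y Z β (c - β) - 4 * kin Y Z β - 4 * kin Y Z (c - β)) :=
    intervalIntegral.integral_nonneg zero_le_one fun β _ => inner β
  rw [intervalIntegral.integral_sub (((((((lc _).add l1).add l2).add (lc _)).add
      (l3.const_mul 2)).sub (l4.const_mul 4))) (l5.const_mul 4),
    intervalIntegral.integral_sub ((((((lc _).add l1).add l2).add (lc _)).add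
      (l3.const_mul 2))) (l4.const_mul 4),
    intervalIntegral.integral_add (((((lc _).add l1).add l2).add (lc _))) (l3.const_mul 2),
    intervalIntegral.integral_add ((((lc _).add l1).add l2)) (lc _),
    intervalIntegral.integral_add (((lc _).add l1)) l2,
    intervalIntegral.integral_add (lc _) l1] at h
  simp only [intervalIntegral.integral_const_mul, intervalIntegral.integral_const, sub_zero,
    one_smul] at h
  rw [int_refl (g := fun a => kp Y Z a a) (diag_per pY) c, diag_int hY pY, anti_int hZ pZ c,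
    int_refl (g := kin Y Z) (kin_per pY pZ) c, kin_int hY hZ pY pZ] at h
  linarith

/-- **(D6)** oscillation lemma for a pair -/
theorem osc_pp (hY : Continuous Y) (hZ : Continuous Z) (pY : Function.Periodic Y 1)
    (pZ : Function.Periodic Z 1) (hK : PP Y Z) (he : ∀ a, Z (-a) = Z a)
    (hZ0 : 0 ≤ ∫ a in (0 : ℝ)..1, Z a) (c : ℝ) :
    |Y c - ∫ a in (0 : ℝ)..1, Y a| * ∫ a in (0 : ℝ)..1, Z a ≤
      (∫ a in (0 : ℝ)..1, Y a) * (Z 0 - ∫ a in (0 : ℝ)..1, Z a) := by
  have h1 := osc_up hY hZ pY pZ hK he c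
  have h2 := osc_low hY hZ pY pZ hK he c
  rw [← abs_of_nonneg hZ0, ← abs_mul, abs_of_nonneg hZ0, abs_le]
  constructor <;> linarith

end osc

end Vale.Agent.P159.H612
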