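import Vale.Agent.P159.H612.Nearg6
import Vale.Agent.P159.H640.Dt13
import Vale.Agent.P159.H159.D0G

/-!
P159 / GLUE P_up, module NEARG (helper612): the field `pu` of `NearH` in the letters of `Good`.

* `pu_rng` : from `RNG P b n r e` and `2 ^ (r - n) e ^ (1 / 4) ≤ c`;
* `pu_SI` : for the base torus `r = m + kE ε + 1` of one step.
-/

set_option linter.unusedSectionVars false

namespace Vale.Agent.P159.H612

open Finset Matrix MeasureTheory ProbabilityTheory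
open Vale.Agent.P159.TM.Spec (V)
open Vale.Agent.P159.TM.SpecC (wT)
open Vale.Agent.P159.H145 (OscZ)
open Vale.Agent.P159.H972 (Par lg tn RNG SI TT_mid)

noncomputable section

/-- **locality input** at level `n`, torus `2 ^ r`, distance `d 2 ^ n` -/
theorem pu_rng {b1 : ℝ} (hb1 : 0 < b1) (b2 : ℝ) :
    ∃ W₀ c C ys : ℝ, ∃ X : ℕ, 0 < c ∧ 1 ≤ C ∧ 0 < ys ∧ 1 ≤ X ∧
    ∀ P : Par, P.b1 = b1 → P.b2 = b2 → W₀ ≤ P.W → P.ys ≤ ys → X ≤ P.X0 →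
    ∀ (b : ℝ) (n r : ℕ) (e : ℝ), n ≤ r → RNG P b n r e → 2 ^ (r - n) * e ^ (1 / 4 : ℝ) ≤ c →
    ∀ T : ℝ, tn n ≤ T → ∀ ω : ℝ, ω ≤ 1 / 2 →
      OscZ (wT b (2 ^ r)) (T • (1 : Matrix (V (2 ^ r)) (V (2 ^ r)) ℝ)) ω → ∀ d : ℝ, 0 < d →
      PUH (2 ^ r) b T (d * 2 ^ n) (Real.exp ((1 + 16 * ω) / 2) * 4 ^ n * (C * Real.exp (-(c * d))))
        ω := by
  obtain ⟨W₀, c, C, ys, X, hc, hC, hys, hX, h⟩ := puh_of hb1 b2 (5 / 2)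
  refine ⟨W₀, c, C, ys, X, hc, hC, hys, hX, ?_⟩
  intro P hP1 hP2 hW hy hX0 b n r e hnr hR hs T hT ω hω hO d hd
  have h2 : (0 : ℝ) < 2 ^ n := by positivity
  unfold H972.RNG at hR
  rw [hP1, hP2] at hR
  have hR' := H640.rng_thr hR hy hX0
  have e1 : (((2 ^ n : ℕ)) : ℝ) = 2 ^ n := by push_cast; rfl
  have e2 : (((2 ^ r : ℕ)) : ℝ) = 2 ^ (r - n) * 2 ^ n := by
    push_cast
    rw [← pow_add, Nat.sub_add_cancel hnr]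
  have hN : ((2 ^ r : ℕ) : ℝ) * e ^ (1 / 4 : ℝ) ≤ c * ((2 ^ n : ℕ) : ℝ) := by
    rw [e1, e2]
    calc (2 : ℝ) ^ (r - n) * 2 ^ n * e ^ (1 / 4 : ℝ)
        = 2 ^ (r - n) * e ^ (1 / 4 : ℝ) * 2 ^ n := by ring
      _ ≤ c * 2 ^ n := mul_le_mul_of_nonneg_right hs h2.le
  have hT' : 1 / ((2 ^ n : ℕ) : ℝ) ^ 2 ≤ T := by
    refine le_trans (le_of_eq ?_) hT
    rw [e1, H159.tn_eq', inv_pow, one_div]
  have h3 := h P.W hW (2 ^ r) b (2 ^ n) _ hR' hN T hT' ω hω hO (d * 2 ^ n) (by positivity)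
  have e3 : ((2 ^ n : ℕ) : ℝ) ^ 2 = 4 ^ n := by
    push_cast
    rw [← pow_mul, mul_comm, pow_mul]
    norm_num
  have e4 : d * 2 ^ n / ((2 ^ n : ℕ) : ℝ) = d := by
    rw [e1]
    field_simp
  rw [e3, e4] at h3
  exact h3

/-- size of the base torus -/
lemma base_num {c : ℝ} (hc : 0 < c) : ∃ E0 : ℝ, 0 < E0 ∧ ∀ (P : Par) (ε : ℝ), 0 < ε → ε ≤ P.es →
    P.es ≤ E0 → 4 * P.thp + P.th ≤ 1 / 8 → ∀ n m : ℕ, n ≤ m → m ≤ n + 4 * P.w ε →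
    2 ^ (m + P.kE ε + 1 - n) * ε ^ (1 / 4 : ℝ) ≤ c := by
  refine ⟨(c / 64) ^ (8 : ℕ), by positivity, ?_⟩
  intro P ε hε hes hE hth n m hnm hm
  have hε1 : ε ≤ 1 := hes.trans (P.es1.trans (by norm_num))
  have h1 : (2 : ℝ) ^ P.w ε ≤ 2 * ε ^ (-P.thp) := H159.two_lg_le P.thp0.le hε hε1
  have h2 : (2 : ℝ) ^ P.kE ε ≤ 2 * ε ^ (-P.th) := H159.two_lg_le P.th0.le hε hε1
  have h3 : (2 : ℝ) ^ (m + P.kE ε + 1 - n) ≤ (2 ^ P.w ε) ^ 4 * 2 ^ P.kE ε * 2 := by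
    rw [← pow_mul, ← pow_add, ← pow_succ]
    exact pow_le_pow_right₀ one_le_two (by omega)
  have h4 : (2 ^ P.w ε) ^ 4 * (2 : ℝ) ^ P.kE ε * 2 ≤ (2 * ε ^ (-P.thp)) ^ 4 * (2 * ε ^ (-P.th)) * 2 := by
    gcongr
  have h5 : (2 * ε ^ (-P.thp)) ^ 4 * (2 * ε ^ (-P.th)) * 2 = 64 * ε ^ (-(4 * P.thp + P.th)) := by
    have e1 : (ε ^ (-P.thp)) ^ 4 = ε ^ (-(4 * P.thp)) := by
      rw [← Real.rpow_natCast, ← Real.rpow_mul hε.le]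
      congr 1
      push_cast
      ring
    have e2 : ε ^ (-(4 * P.thp + P.th)) = ε ^ (-(4 * P.thp)) * ε ^ (-P.th) := by
      rw [← Real.rpow_add hε]
      congr 1
      ring
    rw [mul_pow, e1, e2]
    ring
  have h6 : ε ^ (-(4 * P.thp + P.th)) ≤ ε ^ (-(1 / 8) : ℝ) :=
    Real.rpow_le_rpow_of_exponent_ge hε hε1 (by linarith)
  have h7 : ε ^ (1 / 8 : ℝ) ≤ c / 64 := by
    have h8 : ε ≤ (c / 64) ^ (8 : ℕ) := hes.trans hE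
    calc ε ^ (1 / 8 : ℝ) ≤ ((c / 64) ^ (8 : ℕ)) ^ (1 / 8 : ℝ) :=
          Real.rpow_le_rpow hε.le h8 (by norm_num)
      _ = c / 64 := by
        rw [← Real.rpow_natCast, ← Real.rpow_mul (by positivity)]
        norm_num
  have h9 : 0 ≤ ε ^ (1 / 4 : ℝ) := by positivity
  calc (2 : ℝ) ^ (m + P.kE ε + 1 - n) * ε ^ (1 / 4 : ℝ)
      ≤ 64 * ε ^ (-(1 / 8) : ℝ) * ε ^ (1 / 4 : ℝ) := by
        refine mul_le_mul_of_nonneg_right ((h3.trans h4).trans ?_) h9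
        rw [h5]
        linarith
    _ = 64 * ε ^ (1 / 8 : ℝ) := by
        rw [mul_assoc, ← Real.rpow_add hε]
        norm_num
    _ ≤ 64 * (c / 64) := by linarith
    _ = c := by ring

/-- **locality input of one step**: base torus `r = m + kE ε + 1`, level `n` -/
theorem pu_SI {b1 : ℝ} (hb1 : 0 < b1) (b2 : ℝ) :
    ∃ W₀ c C ys E0 : ℝ, ∃ X : ℕ, 0 < c ∧ 1 ≤ C ∧ 0 < ys ∧ 0 < E0 ∧ 1 ≤ X ∧
    ∀ P : Par, P.b1 = b1 → P.b2 = b2 → W₀ ≤ P.W → P.ys ≤ ys → X ≤ P.X0 → P.th ≤ P.thp →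
      2 ≤ P.q0 → 4 * P.thp + P.th ≤ 1 / 8 → P.es ≤ E0 →
    ∀ (b : ℝ) (N0 n m : ℕ) (ε Y : ℝ), SI P b N0 n m ε Y →
    ∀ T : ℝ, tn n ≤ T → ∀ ω : ℝ, ω ≤ 1 / 2 →
      OscZ (wT b (2 ^ (m + P.kE ε + 1)))
        (T • (1 : Matrix (V (2 ^ (m + P.kE ε + 1))) (V (2 ^ (m + P.kE ε + 1))) ℝ)) ω →
      ∀ d : ℝ, 0 < d → PUH (2 ^ (m + P.kE ε + 1)) b T (d * 2 ^ n)
        (Real.exp ((1 + 16 * ω) / 2) * 4 ^ n * (C * Real.exp (-(c * d)))) ω := by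
  obtain ⟨W₀, c, C, ys, X, hc, hC, hys, hX, h⟩ := pu_rng hb1 b2
  obtain ⟨E0, hE0, hE⟩ := base_num hc
  refine ⟨W₀, c, C, ys, E0, X, hc, hC, hys, hE0, hX, ?_⟩
  intro P hP1 hP2 hW hy hX0 hth hq hthp hes b N0 n m ε Y hS T hT ω hω hO d hd
  have hn : n ≤ m := hS.lt.le
  have hTT : P.TT n ε (m + P.kE ε + 1) := by
    have h5 := H972.kE_le_w hth hS.εpos hS.ε1
    have h6 : 1 ≤ P.w ε := H972.w1 hS.εpos hS.εes
    have h8 : 1 * (4 * P.w ε) ≤ (P.q0 - 1) * (4 * P.w ε) := Nat.mul_le_mul_right _ (by omega)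
    exact TT_mid hth (by omega) hS.εpos hS.εes hS.lo hS.up (by omega) (by omega)
  obtain ⟨τ, a, _, _, hG⟩ := hS.good
  have hR := ((hG ε le_rfl hS.εes).rng _ (Or.inl hTT)).1
  exact h P hP1 hP2 hW hy hX0 b n _ ε (by omega) hR
    (hE P ε hS.εpos hS.εes hes hthp n m hn hS.up) T hT ω hω hO d hd

end

end Vale.Agent.P159.H612
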