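import Vale.Agent.P159.H963.Chess1

/-!
P159 / S (helper612): ONE reflection for two copies on two different graphs, with a functional of
the right halves (row 6230).

`Rf V` : an involution `θ` of the sites with a left part `lf`; the fixed sites are the mirror.
`refl_cs` : Cauchy–Schwarz over the configurations on the two mirrors.
-/

namespace Vale.Agent.P159.H612.Rfl

open scoped ENNReal
open Vale.Agent.P159.H963.Chess (cs_tsum half_sq)

noncomputable section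

/-- a reflection of a set of sites: involution, left part, mirror = fixed points -/
structure Rf (V : Type*) where
  /-- the involution -/
  θ : V → V
  /-- the left part -/
  lf : V → Prop
  dec : DecidablePred lf
  inv : ∀ x, θ (θ x) = x
  dis : ∀ x, lf x → ¬ lf (θ x)
  fix : ∀ x, ¬ lf x → ¬ lf (θ x) → θ x = x

attribute [instance] Rf.dec

variable {V A : Type*}

namespace Rf

variable (R : Rf V)

/-- the sites of the mirror -/
abbrev Bs : Type _ := {x : V // ¬ R.lf x ∧ ¬ R.lf (R.θ x)}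

/-- the sites of the left part -/
abbrev Ls : Type _ := {x : V // R.lf x}

/-- gluing -/
def glue (p : (R.Bs → A) × (R.Ls → A) × (R.Ls → A)) (x : V) : A :=
  if hx : R.lf x then p.2.1 ⟨x, hx⟩
  else if hx' : R.lf (R.θ x) then p.2.2 ⟨R.θ x, hx'⟩ else p.1 ⟨x, hx, hx'⟩

/-- restriction to the mirror, the left part and the reflected right part -/
def split : (V → A) ≃ (R.Bs → A) × (R.Ls → A) × (R.Ls → A) where
  toFun h := (fun x => h x, fun x => h x, fun x => h (R.θ x))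
  invFun p := R.glue p
  left_inv h := by
    funext x
    show (if hx : R.lf x then h x else if hx' : R.lf (R.θ x) then h (R.θ (R.θ x)) else h x) = h x
    split_ifs with h1 h2
    · rfl
    · rw [R.inv]
    · rfl
  right_inv p := by
    obtain ⟨b, l, r⟩ := p
    refine Prod.ext ?_ (Prod.ext ?_ ?_)
    · funext x
      show R.glue (b, l, r) x = b x
      unfold glue
      rw [dif_neg x.2.1, dif_neg x.2.2]
    · funext x
      show R.glue (b, l, r) x = l x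
      unfold glue
      rw [dif_pos x.2]
    · funext x
      show R.glue (b, l, r) (R.θ x) = r x
      unfold glue
      have h2 : R.lf (R.θ (R.θ (x : V))) := by
        rw [R.inv]
        exact x.2
      rw [dif_neg (R.dis _ x.2), dif_pos h2]
      exact congrArg r (Subtype.ext (R.inv (x : V)))

lemma split_symm (p : (R.Bs → A) × (R.Ls → A) × (R.Ls → A)) : R.split.symm p = R.glue p := rfl

lemma glue_θ (b : R.Bs → A) (l r : R.Ls → A) :
    (fun x => R.glue (b, l, r) (R.θ x)) = R.glue (b, r, l) := by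
  have h := (R.split (A := A)).injective
  refine h ?_
  have e1 : R.split (R.glue (b, r, l)) = (b, r, l) := R.split.apply_symm_apply (b, r, l)
  have e2 : R.split (R.glue (b, l, r)) = (b, l, r) := R.split.apply_symm_apply (b, l, r)
  rw [e1]
  have q1 : (fun x : R.Bs => R.glue (b, l, r) x) = b := congrArg Prod.fst e2
  have q2 : (fun x : R.Ls => R.glue (b, l, r) x) = l := congrArg (fun p => p.2.1) e2
  have q3 : (fun x : R.Ls => R.glue (b, l, r) (R.θ x)) = r := congrArg (fun p => p.2.2) e2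
  refine Prod.ext ?_ (Prod.ext ?_ ?_)
  · funext x
    show R.glue (b, l, r) (R.θ x) = b x
    rw [R.fix _ x.2.1 x.2.2]
    exact congrFun q1 x
  · exact q3
  · funext x
    show R.glue (b, l, r) (R.θ (R.θ x)) = l x
    rw [R.inv]
    exact congrFun q2 x

/-- sums over all configurations -/
lemma tsum_split (g : (V → A) → ℝ≥0∞) :
    ∑' h, g h = ∑' b : R.Bs → A, ∑' l : R.Ls → A, ∑' r : R.Ls → A, g (R.glue (b, l, r)) := by
  rw [← (R.split (A := A)).symm.tsum_eq, ENNReal.tsum_prod']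
  refine tsum_congr fun b => ?_
  rw [ENNReal.tsum_prod']
  rfl

/-- `h` on the mirror and the left part -/
def LDep (R : Rf V) (u : (V → A) → ℝ≥0∞) : Prop :=
  ∀ h h' : V → A, (∀ x, ¬ R.lf (R.θ x) → h x = h' x) → u h = u h'

/-- `h` on the mirror -/
def BDep (R : Rf V) (u : (V → A) → ℝ≥0∞) : Prop :=
  ∀ h h' : V → A, (∀ x, ¬ R.lf x → ¬ R.lf (R.θ x) → h x = h' x) → u h = u h'

lemma glue_left (b : R.Bs → A) (l r r' : R.Ls → A) (x : V) (hx : ¬ R.lf (R.θ x)) :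
    R.glue (b, l, r) x = R.glue (b, l, r') x := by
  unfold glue
  split_ifs <;> rfl

lemma glue_right (b : R.Bs → A) (l l' r : R.Ls → A) (x : V) (hx : ¬ R.lf x) :
    R.glue (b, l, r) x = R.glue (b, l', r) x := by
  unfold glue
  rw [dif_neg hx, dif_neg hx]

end Rf

/-- Cauchy–Schwarz with weights on the mirrors -/
lemma cs3 {B1 B2 : Type*} (f1 u1 : B1 → ℝ≥0∞) (f2 u2 : B2 → ℝ≥0∞) (v : B1 → B2 → ℝ≥0∞) :
    ∑' b1, ∑' b2, f1 b1 * u1 b1 * (f2 b2 * u2 b2) * v b1 b2 ≤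
      (∑' b1, f1 b1 * (u1 b1 * u1 b1)) ^ (1 / 2 : ℝ) *
        (∑' b2, f2 b2 * (u2 b2 * u2 b2)) ^ (1 / 2 : ℝ) *
        (∑' b1, ∑' b2, f1 b1 * f2 b2 * (v b1 b2 * v b1 b2)) ^ (1 / 2 : ℝ) := by
  have h := cs_tsum (fun p : B1 × B2 => (f1 p.1 ^ (1 / 2 : ℝ) * u1 p.1) *
      (f2 p.2 ^ (1 / 2 : ℝ) * u2 p.2))
    fun p : B1 × B2 => (f1 p.1 ^ (1 / 2 : ℝ) * f2 p.2 ^ (1 / 2 : ℝ)) * v p.1 p.2
  have e1 : ∑' p : B1 × B2, (f1 p.1 ^ (1 / 2 : ℝ) * u1 p.1) * (f2 p.2 ^ (1 / 2 : ℝ) * u2 p.2) *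
      ((f1 p.1 ^ (1 / 2 : ℝ) * f2 p.2 ^ (1 / 2 : ℝ)) * v p.1 p.2) =
      ∑' b1, ∑' b2, f1 b1 * u1 b1 * (f2 b2 * u2 b2) * v b1 b2 := by
    rw [ENNReal.tsum_prod']
    refine tsum_congr fun b1 => tsum_congr fun b2 => ?_
    have q1 := half_sq (f1 b1)
    have q2 := half_sq (f2 b2)
    calc _ = (f1 b1 ^ (1 / 2 : ℝ)) ^ 2 * u1 b1 * ((f2 b2 ^ (1 / 2 : ℝ)) ^ 2 * u2 b2) *
          v b1 b2 := by ring
      _ = _ := by rw [q1, q2]
  have e2 : ∑' p : B1 × B2, ((f1 p.1 ^ (1 / 2 : ℝ) * u1 p.1) *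
      (f2 p.2 ^ (1 / 2 : ℝ) * u2 p.2)) ^ 2 =
      (∑' b1, f1 b1 * (u1 b1 * u1 b1)) * ∑' b2, f2 b2 * (u2 b2 * u2 b2) := by
    rw [ENNReal.tsum_prod', ← ENNReal.tsum_mul_right]
    refine tsum_congr fun b1 => ?_
    rw [← ENNReal.tsum_mul_left]
    refine tsum_congr fun b2 => ?_
    have q1 := half_sq (f1 b1)
    have q2 := half_sq (f2 b2)
    calc _ = (f1 b1 ^ (1 / 2 : ℝ)) ^ 2 * (u1 b1 * u1 b1) *
          ((f2 b2 ^ (1 / 2 : ℝ)) ^ 2 * (u2 b2 * u2 b2)) := by ring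
      _ = _ := by rw [q1, q2]
  have e3 : ∑' p : B1 × B2, ((f1 p.1 ^ (1 / 2 : ℝ) * f2 p.2 ^ (1 / 2 : ℝ)) * v p.1 p.2) ^ 2 =
      ∑' b1, ∑' b2, f1 b1 * f2 b2 * (v b1 b2 * v b1 b2) := by
    rw [ENNReal.tsum_prod']
    refine tsum_congr fun b1 => tsum_congr fun b2 => ?_
    have q1 := half_sq (f1 b1)
    have q2 := half_sq (f2 b2)
    calc _ = (f1 b1 ^ (1 / 2 : ℝ)) ^ 2 * (f2 b2 ^ (1 / 2 : ℝ)) ^ 2 *
          (v b1 b2 * v b1 b2) := by ring
      _ = _ := by rw [q1, q2]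
  rw [e1, e2, e3, ENNReal.mul_rpow_of_nonneg _ _ (by norm_num : (0 : ℝ) ≤ 1 / 2)] at h
  exact h

variable {V1 V2 A1 A2 : Type*}

open Rf in
/-- **one reflection**: `f` weight of the mirror, `u` weight of the (closed) left part, `v` a
functional of the closed right parts of both copies -/
theorem refl_cs (R1 : Rf V1) (R2 : Rf V2) {f1 u1 : (V1 → A1) → ℝ≥0∞} {f2 u2 : (V2 → A2) → ℝ≥0∞}
    {v : (V1 → A1) → (V2 → A2) → ℝ≥0∞} (hf1 : BDep R1 f1) (hf2 : BDep R2 f2) (hu1 : LDep R1 u1)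
    (hu2 : LDep R2 u2)
    (hv : ∀ h1 h1' h2 h2', (∀ x, ¬ R1.lf x → h1 x = h1' x) → (∀ x, ¬ R2.lf x → h2 x = h2' x) →
      v h1 h2 = v h1' h2') :
    ∑' h1, ∑' h2, f1 h1 * u1 h1 * (f2 h2 * u2 h2) * v h1 h2 ≤
      (∑' h1, f1 h1 * (u1 h1 * u1 fun x => h1 (R1.θ x))) ^ (1 / 2 : ℝ) *
        (∑' h2, f2 h2 * (u2 h2 * u2 fun x => h2 (R2.θ x))) ^ (1 / 2 : ℝ) *
        (∑' h1, ∑' h2, f1 h1 * f2 h2 *
          (v h1 h2 * v (fun x => h1 (R1.θ x)) fun x => h2 (R2.θ x))) ^ (1 / 2 : ℝ) := by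
  classical
  -- the case of empty configuration spaces
  by_cases hne1 : Nonempty (R1.Ls → A1)
  swap
  · have h0 : IsEmpty (R1.Ls → A1) := not_nonempty_iff.1 hne1
    rw [R1.tsum_split]
    simp
  by_cases hne2 : Nonempty (R2.Ls → A2)
  swap
  · have h0 : IsEmpty (R2.Ls → A2) := not_nonempty_iff.1 hne2
    simp only [R2.tsum_split]
    simp
  obtain ⟨k1⟩ := hne1
  obtain ⟨k2⟩ := hne2
  -- the functions of the coordinates
  set F1 : (R1.Bs → A1) → ℝ≥0∞ := fun b => f1 (R1.glue (b, k1, k1)) with hF1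
  set F2 : (R2.Bs → A2) → ℝ≥0∞ := fun b => f2 (R2.glue (b, k2, k2)) with hF2
  set U1 : (R1.Bs → A1) → (R1.Ls → A1) → ℝ≥0∞ := fun b l => u1 (R1.glue (b, l, k1)) with hU1
  set U2 : (R2.Bs → A2) → (R2.Ls → A2) → ℝ≥0∞ := fun b l => u2 (R2.glue (b, l, k2)) with hU2
  set W : (R1.Bs → A1) → (R1.Ls → A1) → (R2.Bs → A2) → (R2.Ls → A2) → ℝ≥0∞ :=
    fun b1 r1 b2 r2 => v (R1.glue (b1, k1, r1)) (R2.glue (b2, k2, r2)) with hW
  have eF1 : ∀ b l r, f1 (R1.glue (b, l, r)) = F1 b := fun b l r => hf1 _ _ fun x hx hx' => by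
    rw [R1.glue_left b l r k1 x hx', R1.glue_right b l k1 k1 x hx]
  have eF2 : ∀ b l r, f2 (R2.glue (b, l, r)) = F2 b := fun b l r => hf2 _ _ fun x hx hx' => by
    rw [R2.glue_left b l r k2 x hx', R2.glue_right b l k2 k2 x hx]
  have eU1 : ∀ b l r, u1 (R1.glue (b, l, r)) = U1 b l := fun b l r => hu1 _ _ fun x hx =>
    R1.glue_left b l r k1 x hx
  have eU2 : ∀ b l r, u2 (R2.glue (b, l, r)) = U2 b l := fun b l r => hu2 _ _ fun x hx =>
    R2.glue_left b l r k2 x hx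
  have eW : ∀ b1 l1 r1 b2 l2 r2, v (R1.glue (b1, l1, r1)) (R2.glue (b2, l2, r2)) = W b1 r1 b2 r2 :=
    fun b1 l1 r1 b2 l2 r2 => hv _ _ _ _ (fun x hx => R1.glue_right b1 l1 k1 r1 x hx)
      fun x hx => R2.glue_right b2 l2 k2 r2 x hx
  -- the left side
  have L : ∑' h1, ∑' h2, f1 h1 * u1 h1 * (f2 h2 * u2 h2) * v h1 h2 =
      ∑' b1, ∑' b2, F1 b1 * (∑' l1, U1 b1 l1) * (F2 b2 * ∑' l2, U2 b2 l2) *
        ∑' r1, ∑' r2, W b1 r1 b2 r2 := by
    rw [R1.tsum_split]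
    refine tsum_congr fun b1 => ?_
    have s1 : ∀ l1 r1, ∑' h2, f1 (R1.glue (b1, l1, r1)) * u1 (R1.glue (b1, l1, r1)) *
        (f2 h2 * u2 h2) * v (R1.glue (b1, l1, r1)) h2 =
        ∑' b2, F1 b1 * U1 b1 l1 * (F2 b2 * ∑' l2, U2 b2 l2) * ∑' r2, W b1 r1 b2 r2 := by
      intro l1 r1
      rw [R2.tsum_split]
      refine tsum_congr fun b2 => ?_
      have s2 : ∀ l2 r2, f1 (R1.glue (b1, l1, r1)) * u1 (R1.glue (b1, l1, r1)) *
          (f2 (R2.glue (b2, l2, r2)) * u2 (R2.glue (b2, l2, r2))) *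
          v (R1.glue (b1, l1, r1)) (R2.glue (b2, l2, r2)) =
          F1 b1 * U1 b1 l1 * F2 b2 * (U2 b2 l2 * W b1 r1 b2 r2) := by
        intro l2 r2
        rw [eF1, eU1, eF2, eU2, eW]
        ring
      simp only [s2, ENNReal.tsum_mul_left, ENNReal.tsum_mul_right]
      ring
    simp only [s1]
    have s3 : ∀ l1, ∑' r1, ∑' b2, F1 b1 * U1 b1 l1 * (F2 b2 * ∑' l2, U2 b2 l2) *
        ∑' r2, W b1 r1 b2 r2 =
        ∑' b2, F1 b1 * U1 b1 l1 * (F2 b2 * ∑' l2, U2 b2 l2) * ∑' r1, ∑' r2, W b1 r1 b2 r2 := by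
      intro l1
      rw [ENNReal.tsum_comm]
      refine tsum_congr fun b2 => ?_
      rw [ENNReal.tsum_mul_left]
    simp only [s3]
    rw [ENNReal.tsum_comm]
    refine tsum_congr fun b2 => ?_
    simp only [ENNReal.tsum_mul_left, ENNReal.tsum_mul_right]
  -- the three factors
  have K1 : ∑' h1, f1 h1 * (u1 h1 * u1 fun x => h1 (R1.θ x)) =
      ∑' b1, F1 b1 * ((∑' l1, U1 b1 l1) * ∑' l1, U1 b1 l1) := by
    rw [R1.tsum_split]
    refine tsum_congr fun b1 => ?_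
    have s1 : ∀ l r, f1 (R1.glue (b1, l, r)) * (u1 (R1.glue (b1, l, r)) *
        u1 fun x => R1.glue (b1, l, r) (R1.θ x)) = F1 b1 * (U1 b1 l * U1 b1 r) := by
      intro l r
      rw [R1.glue_θ, eF1, eU1, eU1]
    simp only [s1, ENNReal.tsum_mul_left, ENNReal.tsum_mul_right]
  have K2 : ∑' h2, f2 h2 * (u2 h2 * u2 fun x => h2 (R2.θ x)) =
      ∑' b2, F2 b2 * ((∑' l2, U2 b2 l2) * ∑' l2, U2 b2 l2) := by
    rw [R2.tsum_split]
    refine tsum_congr fun b2 => ?_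
    have s1 : ∀ l r, f2 (R2.glue (b2, l, r)) * (u2 (R2.glue (b2, l, r)) *
        u2 fun x => R2.glue (b2, l, r) (R2.θ x)) = F2 b2 * (U2 b2 l * U2 b2 r) := by
      intro l r
      rw [R2.glue_θ, eF2, eU2, eU2]
    simp only [s1, ENNReal.tsum_mul_left, ENNReal.tsum_mul_right]
  have K3 : ∑' h1, ∑' h2, f1 h1 * f2 h2 *
      (v h1 h2 * v (fun x => h1 (R1.θ x)) fun x => h2 (R2.θ x)) =
      ∑' b1, ∑' b2, F1 b1 * F2 b2 * ((∑' r1, ∑' r2, W b1 r1 b2 r2) *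
        ∑' r1, ∑' r2, W b1 r1 b2 r2) := by
    rw [R1.tsum_split]
    refine tsum_congr fun b1 => ?_
    have s1 : ∀ l1 r1, ∑' h2, f1 (R1.glue (b1, l1, r1)) * f2 h2 *
        (v (R1.glue (b1, l1, r1)) h2 * v (fun x => R1.glue (b1, l1, r1) (R1.θ x))
          fun x => h2 (R2.θ x)) =
        ∑' b2, F1 b1 * F2 b2 * ((∑' r2, W b1 r1 b2 r2) * ∑' r2, W b1 l1 b2 r2) := by
      intro l1 r1
      rw [R2.tsum_split]
      refine tsum_congr fun b2 => ?_
      have s2 : ∀ l2 r2, f1 (R1.glue (b1, l1, r1)) * f2 (R2.glue (b2, l2, r2)) *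
          (v (R1.glue (b1, l1, r1)) (R2.glue (b2, l2, r2)) *
            v (fun x => R1.glue (b1, l1, r1) (R1.θ x)) fun x => R2.glue (b2, l2, r2) (R2.θ x)) =
          F1 b1 * F2 b2 * (W b1 r1 b2 r2 * W b1 l1 b2 l2) := by
        intro l2 r2
        rw [R1.glue_θ, R2.glue_θ, eF1, eF2, eW, eW]
      simp only [s2, ENNReal.tsum_mul_left, ENNReal.tsum_mul_right]
    simp only [s1]
    have s3 : ∀ l1, ∑' r1, ∑' b2, F1 b1 * F2 b2 * ((∑' r2, W b1 r1 b2 r2) * ∑' r2, W b1 l1 b2 r2) =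
        ∑' b2, F1 b1 * F2 b2 * ((∑' r1, ∑' r2, W b1 r1 b2 r2) * ∑' r2, W b1 l1 b2 r2) := by
      intro l1
      rw [ENNReal.tsum_comm]
      refine tsum_congr fun b2 => ?_
      simp only [ENNReal.tsum_mul_left, ENNReal.tsum_mul_right]
    simp only [s3]
    rw [ENNReal.tsum_comm]
    refine tsum_congr fun b2 => ?_
    simp only [ENNReal.tsum_mul_left, ENNReal.tsum_mul_right]
  rw [L, K1, K2, K3]
  exact cs3 F1 (fun b => ∑' l, U1 b l) F2 (fun b => ∑' l, U2 b l)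
    fun b1 b2 => ∑' r1, ∑' r2, W b1 r1 b2 r2

end

end Vale.Agent.P159.H612.Rfl
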