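import Vale.Agent.P159.H612.Rfl1
import Vale.Agent.P159.H770.DisT

/-!
P159 / S (helper612): ONE reflection, part 2: integer models on graphs with a reflection.

`RfG s t R` : the reflection of the edges.  `cmb κ X Y` : background `κ` + `X` on the left + the
reflected `Y` on the right.  `eWF_cmb` : factorisation; `rfl_le` : for data `X1`, `X2` on the left
and a functional `G` of the closed right parts of the two copies,
`∑ w(X1) w(X2) G ≤ Z(X1 + θX1)^(1/2) Z(X2 + θX2)^(1/2) (∑ w(0) w(0) G Gθ)^(1/2)`.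
-/

set_option linter.unusedSectionVars false

namespace Vale.Agent.P159.H612.Rfl

open scoped ENNReal
open Finset
open Vale.Agent.P159.H37 (qf re qf_smul_one ZM wM)
open Vale.Agent.P159.H770 (eW eWF EdW)

noncomputable section

/-- the sign of an orientation -/
def sgn (b : Bool) : ℤ := if b then 1 else -1

/-- a reflection of a graph -/
structure RfG {V E : Type} (s t : E → V) (R : Rf V) where
  /-- the reflection of the edges -/
  θE : E → E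
  /-- is the orientation kept? -/
  sg : E → Bool
  inv : ∀ e, θE (θE e) = e
  or1 : ∀ e, sg e = true → s (θE e) = R.θ (s e) ∧ t (θE e) = R.θ (t e)
  or2 : ∀ e, sg e = false → s (θE e) = R.θ (t e) ∧ t (θE e) = R.θ (s e)
  sgE : ∀ e, sg (θE e) = sg e
  cut : ∀ e, R.lf (s e) → ¬ R.lf (R.θ (t e))
  cut' : ∀ e, R.lf (t e) → ¬ R.lf (R.θ (s e))

variable {V E : Type} [Fintype V] [Fintype E] {s t : E → V} {R : Rf V}

namespace RfG

variable (Q : RfG s t R)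

/-- edges of the left part -/
def lE (_ : RfG s t R) (e : E) : Prop := R.lf (s e) ∨ R.lf (t e)

instance (e : E) : Decidable (Q.lE e) := by
  unfold lE
  infer_instance

lemma lE_θ (e : E) : Q.lE (Q.θE e) ↔ R.lf (R.θ (s e)) ∨ R.lf (R.θ (t e)) := by
  unfold lE
  cases h : Q.sg e
  · rw [(Q.or2 e h).1, (Q.or2 e h).2]
    exact or_comm
  · rw [(Q.or1 e h).1, (Q.or1 e h).2]

lemma disE (e : E) (h : Q.lE e) : ¬ Q.lE (Q.θE e) := by
  rw [Q.lE_θ]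
  rintro (h1 | h1)
  · rcases h with h | h
    · exact R.dis _ h h1
    · exact Q.cut' e h h1
  · rcases h with h | h
    · exact Q.cut e h h1
    · exact R.dis _ h h1

end RfG

/-- three parts of a product, sites -/
lemma prod_three (R : Rf V) (g : V → ℝ) :
    ∏ x, g x = (∏ x, if ¬ R.lf x ∧ ¬ R.lf (R.θ x) then g x else 1) *
      (∏ x, if R.lf x then g x else 1) * ∏ x, if R.lf x then g (R.θ x) else 1 := by
  have h1 : ∏ x, (if R.lf x then g (R.θ x) else 1) = ∏ x, if R.lf (R.θ x) then g x else 1 := by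
    rw [← Equiv.prod_comp (Function.Involutive.toPerm R.θ R.inv)
      fun x => if R.lf (R.θ x) then g x else 1]
    refine Finset.prod_congr rfl fun x _ => ?_
    show _ = if R.lf (R.θ (R.θ x)) then g (R.θ x) else 1
    rw [R.inv]
  rw [h1, ← Finset.prod_mul_distrib, ← Finset.prod_mul_distrib]
  refine Finset.prod_congr rfl fun x _ => ?_
  by_cases h2 : R.lf x
  · have h3 := R.dis x h2
    simp [h2, h3]
  · by_cases h3 : R.lf (R.θ x)
    · simp [h2, h3]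
    · simp [h2, h3]

/-- three parts of a product, edges -/
lemma prod_threeE (Q : RfG s t R) (g : E → ℝ) :
    ∏ e, g e = (∏ e, if ¬ Q.lE e ∧ ¬ Q.lE (Q.θE e) then g e else 1) *
      (∏ e, if Q.lE e then g e else 1) * ∏ e, if Q.lE e then g (Q.θE e) else 1 := by
  have h1 : ∏ e, (if Q.lE e then g (Q.θE e) else 1) = ∏ e, if Q.lE (Q.θE e) then g e else 1 := by
    rw [← Equiv.prod_comp (Function.Involutive.toPerm Q.θE Q.inv)
      fun e => if Q.lE (Q.θE e) then g e else 1]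
    refine Finset.prod_congr rfl fun x _ => ?_
    show _ = if Q.lE (Q.θE (Q.θE x)) then g (Q.θE x) else 1
    rw [Q.inv]
  rw [h1, ← Finset.prod_mul_distrib, ← Finset.prod_mul_distrib]
  refine Finset.prod_congr rfl fun e _ => ?_
  by_cases h2 : Q.lE e
  · have h3 := Q.disE e h2
    simp [h2, h3]
  · by_cases h3 : Q.lE (Q.θE e)
    · simp [h2, h3]
    · simp [h2, h3]

/-- weight of a site -/
def sW (τ : ℝ) (F : V → ℝ) (h : V → ℤ) (x : V) : ℝ := Real.exp (-(τ * ((h x : ℝ) - F x) ^ 2 / 2))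

lemma sW_nonneg (τ : ℝ) (F : V → ℝ) (h : V → ℤ) (x : V) : 0 ≤ sW τ F h x := (Real.exp_pos _).le

lemma eWF_prod (I : E → ℤ → ℝ) (τ : ℝ) [DecidableEq V] (X : (E → ℤ) × (V → ℝ)) (h : V → ℤ) :
    eWF s t I (τ • (1 : Matrix V V ℝ)) X h =
      (∏ x, sW τ X.2 h x) * ∏ e, I e (h (t e) - h (s e) + X.1 e) := by
  unfold eWF eW
  rw [mul_comm]
  congr 1
  rw [qf_smul_one]
  unfold sW
  rw [← Real.exp_sum]
  congr 1
  simp only [Pi.sub_apply, re, Finset.sum_neg_distrib, ← Finset.sum_div, ← Finset.mul_sum]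

/-- weight of the mirror -/
def wB (Q : RfG s t R) (I : E → ℤ → ℝ) (τ : ℝ) (κ : V → ℝ) (h : V → ℤ) : ℝ :=
  (∏ x, if ¬ R.lf x ∧ ¬ R.lf (R.θ x) then sW τ κ h x else 1) *
    ∏ e, if ¬ Q.lE e ∧ ¬ Q.lE (Q.θE e) then I e (h (t e) - h (s e)) else 1

/-- weight of the left part -/
def wL (Q : RfG s t R) (I : E → ℤ → ℝ) (τ : ℝ) (κ : V → ℝ) (X : (E → ℤ) × (V → ℝ)) (h : V → ℤ) :
    ℝ :=
  (∏ x, if R.lf x then sW τ (κ + X.2) h x else 1) *
    ∏ e, if Q.lE e then I e (h (t e) - h (s e) + X.1 e) else 1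

/-- background `κ`, `X` on the left, the reflected `Y` on the right -/
def cmb (Q : RfG s t R) (κ : V → ℝ) (X Y : (E → ℤ) × (V → ℝ)) : (E → ℤ) × (V → ℝ) :=
  (fun e => X.1 e + sgn (Q.sg e) * Y.1 (Q.θE e), fun x => κ x + X.2 x + Y.2 (R.θ x))

/-- `X` lives on the left -/
structure OnL (Q : RfG s t R) (X : (E → ℤ) × (V → ℝ)) : Prop where
  site : ∀ x, ¬ R.lf x → X.2 x = 0
  edge : ∀ e, ¬ Q.lE e → X.1 e = 0

lemma OnL.zero (Q : RfG s t R) : OnL Q 0 := ⟨fun _ _ => rfl, fun _ _ => rfl⟩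

lemma cmb_zero (Q : RfG s t R) (κ : V → ℝ) (X : (E → ℤ) × (V → ℝ)) :
    cmb Q κ X 0 = X + (0, κ) := by
  refine Prod.ext ?_ ?_
  · funext e
    show X.1 e + sgn (Q.sg e) * 0 = X.1 e + 0
    ring
  · funext x
    show κ x + X.2 x + 0 = X.2 x + κ x
    ring

/-- even weights which are invariant under the reflection -/
structure Inv (Q : RfG s t R) (I : E → ℤ → ℝ) : Prop where
  nn : ∀ e n, 0 ≤ I e n
  ev : ∀ e n, I e (-n) = I e n
  rf : ∀ e n, I (Q.θE e) n = I e n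

section main

variable {Q : RfG s t R} {I : E → ℤ → ℝ} {τ : ℝ} {κ : V → ℝ}

lemma wB_nonneg (hI : Inv Q I) (h : V → ℤ) : 0 ≤ wB Q I τ κ h := by
  unfold wB
  refine mul_nonneg (Finset.prod_nonneg fun x _ => ?_) (Finset.prod_nonneg fun e _ => ?_)
  · split_ifs
    · exact sW_nonneg _ _ _ _
    · exact zero_le_one
  · split_ifs
    · exact hI.nn _ _
    · exact zero_le_one

lemma wL_nonneg (hI : Inv Q I) (X : (E → ℤ) × (V → ℝ)) (h : V → ℤ) : 0 ≤ wL Q I τ κ X h := by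
  unfold wL
  refine mul_nonneg (Finset.prod_nonneg fun x _ => ?_) (Finset.prod_nonneg fun e _ => ?_)
  · split_ifs
    · exact sW_nonneg _ _ _ _
    · exact zero_le_one
  · split_ifs
    · exact hI.nn _ _
    · exact zero_le_one

/-- **factorisation** -/
theorem eWF_cmb [DecidableEq V] (hI : Inv Q I) (hκ : ∀ x, κ (R.θ x) = κ x)
    {X Y : (E → ℤ) × (V → ℝ)} (hX : OnL Q X) (hY : OnL Q Y) (h : V → ℤ) :
    eWF s t I (τ • (1 : Matrix V V ℝ)) (cmb Q κ X Y) h =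
      wB Q I τ κ h * wL Q I τ κ X h * wL Q I τ κ Y fun x => h (R.θ x) := by
  rw [eWF_prod, prod_three R, prod_threeE Q]
  have e1 : ∀ x, (if ¬ R.lf x ∧ ¬ R.lf (R.θ x) then sW τ (cmb Q κ X Y).2 h x else 1) =
      if ¬ R.lf x ∧ ¬ R.lf (R.θ x) then sW τ κ h x else 1 := by
    intro x
    split_ifs with hx
    · unfold sW cmb
      simp only
      rw [hX.site x hx.1, hY.site _ hx.2, add_zero, add_zero]
    · rfl
  have e2 : ∀ x, (if R.lf x then sW τ (cmb Q κ X Y).2 h x else 1) =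
      if R.lf x then sW τ (κ + X.2) h x else 1 := by
    intro x
    split_ifs with hx
    · unfold sW cmb
      simp only
      rw [hY.site _ (R.dis x hx), add_zero]
      rfl
    · rfl
  have e3 : ∀ x, (if R.lf x then sW τ (cmb Q κ X Y).2 h (R.θ x) else 1) =
      if R.lf x then sW τ (κ + Y.2) (fun x => h (R.θ x)) x else 1 := by
    intro x
    split_ifs with hx
    · unfold sW cmb
      simp only
      rw [hX.site _ (R.dis x hx), add_zero, R.inv, hκ]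
      rfl
    · rfl
  have f1 : ∀ e, (if ¬ Q.lE e ∧ ¬ Q.lE (Q.θE e) then
      I e (h (t e) - h (s e) + (cmb Q κ X Y).1 e) else 1) =
      if ¬ Q.lE e ∧ ¬ Q.lE (Q.θE e) then I e (h (t e) - h (s e)) else 1 := by
    intro e
    split_ifs with he
    · unfold cmb
      simp only
      rw [hX.edge e he.1, hY.edge _ he.2, mul_zero, add_zero, add_zero]
    · rfl
  have f2 : ∀ e, (if Q.lE e then I e (h (t e) - h (s e) + (cmb Q κ X Y).1 e) else 1) =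
      if Q.lE e then I e (h (t e) - h (s e) + X.1 e) else 1 := by
    intro e
    split_ifs with he
    · unfold cmb
      simp only
      rw [hY.edge _ (Q.disE e he), mul_zero, add_zero]
    · rfl
  have f3 : ∀ e, (if Q.lE e then I (Q.θE e) (h (t (Q.θE e)) - h (s (Q.θE e)) +
      (cmb Q κ X Y).1 (Q.θE e)) else 1) =
      if Q.lE e then I e (h (R.θ (t e)) - h (R.θ (s e)) + Y.1 e) else 1 := by
    intro e
    split_ifs with he
    · unfold cmb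
      simp only
      rw [hX.edge _ (Q.disE e he), zero_add, Q.inv, Q.sgE, hI.rf]
      cases hs : Q.sg e
      · rw [(Q.or2 e hs).1, (Q.or2 e hs).2, ← hI.ev]
        congr 1
        unfold sgn
        simp only [Bool.false_eq_true, if_false]
        ring
      · rw [(Q.or1 e hs).1, (Q.or1 e hs).2]
        congr 1
        unfold sgn
        simp only [if_true]
        ring
    · rfl
  simp only [e1, e2, e3, f1, f2, f3]
  unfold wB wL
  ring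

end main

variable {V1 E1 V2 E2 : Type} [Fintype V1] [Fintype E1] [Fintype V2] [Fintype E2]
  [DecidableEq V1] [DecidableEq V2] {s1 t1 : E1 → V1} {s2 t2 : E2 → V2} {R1 : Rf V1} {R2 : Rf V2}
  {Q1 : RfG s1 t1 R1} {Q2 : RfG s2 t2 R2} {I1 : E1 → ℤ → ℝ} {I2 : E2 → ℤ → ℝ}
  {τ1 τ2 : ℝ} {κ1 : V1 → ℝ} {κ2 : V2 → ℝ}

/-- the weight of the mirror depends on the mirror -/
lemma bdep_wB (Q : RfG s t R) (I : E → ℤ → ℝ) (τ : ℝ) (κ : V → ℝ) :
    R.BDep fun h => ENNReal.ofReal (wB Q I τ κ h) := by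
  intro h h' hh
  show ENNReal.ofReal _ = ENNReal.ofReal _
  congr 1
  unfold wB
  congr 1
  · refine Finset.prod_congr rfl fun x _ => ?_
    split_ifs with hx
    · unfold sW
      rw [hh x hx.1 hx.2]
    · rfl
  · refine Finset.prod_congr rfl fun e _ => ?_
    split_ifs with he
    · have h1 := he.2
      rw [Q.lE_θ] at h1
      have h2 : ¬ (R.lf (s e) ∨ R.lf (t e)) := he.1
      push Not at h1 h2
      rw [hh _ h2.1 h1.1, hh _ h2.2 h1.2]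
    · rfl

/-- the weight of the left part depends on the closed left part -/
lemma ldep_wL (Q : RfG s t R) (I : E → ℤ → ℝ) (τ : ℝ) (κ : V → ℝ) (X : (E → ℤ) × (V → ℝ)) :
    R.LDep fun h => ENNReal.ofReal (wL Q I τ κ X h) := by
  intro h h' hh
  show ENNReal.ofReal _ = ENNReal.ofReal _
  congr 1
  unfold wL
  congr 1
  · refine Finset.prod_congr rfl fun x _ => ?_
    split_ifs with hx
    · unfold sW
      rw [hh x (R.dis x hx)]
    · rfl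
  · refine Finset.prod_congr rfl fun e _ => ?_
    split_ifs with he
    · have h1 := Q.disE e he
      rw [Q.lE_θ] at h1
      push Not at h1
      rw [hh _ h1.1, hh _ h1.2]
    · rfl

/-- the sum over two copies with a functional -/
def AG (s1 t1 : E1 → V1) (s2 t2 : E2 → V2) (I1 : E1 → ℤ → ℝ) (I2 : E2 → ℤ → ℝ) (τ1 τ2 : ℝ)
    (X1 : (E1 → ℤ) × (V1 → ℝ)) (X2 : (E2 → ℤ) × (V2 → ℝ))
    (G : (V1 → ℤ) → (V2 → ℤ) → ℝ≥0∞) : ℝ≥0∞ :=
  ∑' h1 : V1 → ℤ, ∑' h2 : V2 → ℤ,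
    ENNReal.ofReal (eWF s1 t1 I1 (τ1 • (1 : Matrix V1 V1 ℝ)) X1 h1) *
      ENNReal.ofReal (eWF s2 t2 I2 (τ2 • (1 : Matrix V2 V2 ℝ)) X2 h2) * G h1 h2

/-- the partition function -/
def ZT (s t : E → V) [DecidableEq V] (I : E → ℤ → ℝ) (τ : ℝ) (X : (E → ℤ) × (V → ℝ)) : ℝ≥0∞ :=
  ∑' h : V → ℤ, ENNReal.ofReal (eWF s t I (τ • (1 : Matrix V V ℝ)) X h)

/-- **one reflection**, functional `G Gθ` -/
theorem rfl_le' (hI1 : Inv Q1 I1) (hI2 : Inv Q2 I2) (hκ1 : ∀ x, κ1 (R1.θ x) = κ1 x)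
    (hκ2 : ∀ x, κ2 (R2.θ x) = κ2 x) {X1 : (E1 → ℤ) × (V1 → ℝ)} {X2 : (E2 → ℤ) × (V2 → ℝ)}
    (hX1 : OnL Q1 X1) (hX2 : OnL Q2 X2) (G : (V1 → ℤ) → (V2 → ℤ) → ℝ≥0∞)
    (hG : ∀ h1 h1' h2 h2', (∀ x, ¬ R1.lf x → h1 x = h1' x) → (∀ x, ¬ R2.lf x → h2 x = h2' x) →
      G h1 h2 = G h1' h2') :
    AG s1 t1 s2 t2 I1 I2 τ1 τ2 (cmb Q1 κ1 X1 0) (cmb Q2 κ2 X2 0) G ≤
      ZT s1 t1 I1 τ1 (cmb Q1 κ1 X1 X1) ^ (1 / 2 : ℝ) *
        ZT s2 t2 I2 τ2 (cmb Q2 κ2 X2 X2) ^ (1 / 2 : ℝ) *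
        AG s1 t1 s2 t2 I1 I2 τ1 τ2 (cmb Q1 κ1 0 0) (cmb Q2 κ2 0 0)
          (fun h1 h2 => G h1 h2 * G (fun x => h1 (R1.θ x)) fun x => h2 (R2.θ x)) ^ (1 / 2 : ℝ) := by
  have b1 := fun h : V1 → ℤ => wB_nonneg (τ := τ1) (κ := κ1) hI1 h
  have b2 := fun h : V2 → ℤ => wB_nonneg (τ := τ2) (κ := κ2) hI2 h
  have l1 := fun (X : (E1 → ℤ) × (V1 → ℝ)) (h : V1 → ℤ) => wL_nonneg (τ := τ1) (κ := κ1) hI1 X h
  have l2 := fun (X : (E2 → ℤ) × (V2 → ℝ)) (h : V2 → ℤ) => wL_nonneg (τ := τ2) (κ := κ2) hI2 X h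
  have w1 : ∀ {X Y : (E1 → ℤ) × (V1 → ℝ)}, OnL Q1 X → OnL Q1 Y → ∀ h : V1 → ℤ,
      ENNReal.ofReal (eWF s1 t1 I1 (τ1 • (1 : Matrix V1 V1 ℝ)) (cmb Q1 κ1 X Y) h) =
        ENNReal.ofReal (wB Q1 I1 τ1 κ1 h) * ENNReal.ofReal (wL Q1 I1 τ1 κ1 X h) *
          ENNReal.ofReal (wL Q1 I1 τ1 κ1 Y fun x => h (R1.θ x)) := fun hX hY h => by
    rw [eWF_cmb hI1 hκ1 hX hY, ENNReal.ofReal_mul (mul_nonneg (b1 h) (l1 _ h)),
      ENNReal.ofReal_mul (b1 h)]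
  have w2 : ∀ {X Y : (E2 → ℤ) × (V2 → ℝ)}, OnL Q2 X → OnL Q2 Y → ∀ h : V2 → ℤ,
      ENNReal.ofReal (eWF s2 t2 I2 (τ2 • (1 : Matrix V2 V2 ℝ)) (cmb Q2 κ2 X Y) h) =
        ENNReal.ofReal (wB Q2 I2 τ2 κ2 h) * ENNReal.ofReal (wL Q2 I2 τ2 κ2 X h) *
          ENNReal.ofReal (wL Q2 I2 τ2 κ2 Y fun x => h (R2.θ x)) := fun hX hY h => by
    rw [eWF_cmb hI2 hκ2 hX hY, ENNReal.ofReal_mul (mul_nonneg (b2 h) (l2 _ h)),
      ENNReal.ofReal_mul (b2 h)]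
  have key := refl_cs R1 R2 (bdep_wB Q1 I1 τ1 κ1) (bdep_wB Q2 I2 τ2 κ2)
    (ldep_wL Q1 I1 τ1 κ1 X1) (ldep_wL Q2 I2 τ2 κ2 X2)
    (v := fun h1 h2 => ENNReal.ofReal (wL Q1 I1 τ1 κ1 0 fun x => h1 (R1.θ x)) *
      ENNReal.ofReal (wL Q2 I2 τ2 κ2 0 fun x => h2 (R2.θ x)) * G h1 h2)
    (fun h1 h1' h2 h2' k1 k2 => by
      have q1 := ldep_wL Q1 I1 τ1 κ1 0 (fun x => h1 (R1.θ x)) (fun x => h1' (R1.θ x))
        fun x hx => k1 _ hx
      have q2 := ldep_wL Q2 I2 τ2 κ2 0 (fun x => h2 (R2.θ x)) (fun x => h2' (R2.θ x))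
        fun x hx => k2 _ hx
      show _ * _ * _ = _ * _ * _
      rw [hG h1 h1' h2 h2' k1 k2]
      have q1' : ENNReal.ofReal (wL Q1 I1 τ1 κ1 0 fun x => h1 (R1.θ x)) =
        ENNReal.ofReal (wL Q1 I1 τ1 κ1 0 fun x => h1' (R1.θ x)) := q1
      have q2' : ENNReal.ofReal (wL Q2 I2 τ2 κ2 0 fun x => h2 (R2.θ x)) =
        ENNReal.ofReal (wL Q2 I2 τ2 κ2 0 fun x => h2' (R2.θ x)) := q2
      rw [q1', q2'])
  refine le_trans (le_of_eq ?_) (key.trans (le_of_eq ?_))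
  · unfold AG
    refine tsum_congr fun h1 => tsum_congr fun h2 => ?_
    rw [w1 hX1 (OnL.zero Q1), w2 hX2 (OnL.zero Q2)]
    ring
  · congr 1
    · congr 1
      · congr 1
        unfold ZT
        refine tsum_congr fun h1 => ?_
        rw [w1 hX1 hX1]
        ring
      · congr 1
        unfold ZT
        refine tsum_congr fun h2 => ?_
        rw [w2 hX2 hX2]
        ring
    · congr 1
      unfold AG
      refine tsum_congr fun h1 => tsum_congr fun h2 => ?_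
      rw [w1 (OnL.zero Q1) (OnL.zero Q1), w2 (OnL.zero Q2) (OnL.zero Q2)]
      simp only [R1.inv, R2.inv]
      ring

/-- **one reflection** -/
theorem rfl_le (hI1 : Inv Q1 I1) (hI2 : Inv Q2 I2) (hκ1 : ∀ x, κ1 (R1.θ x) = κ1 x)
    (hκ2 : ∀ x, κ2 (R2.θ x) = κ2 x) {X1 : (E1 → ℤ) × (V1 → ℝ)} {X2 : (E2 → ℤ) × (V2 → ℝ)}
    (hX1 : OnL Q1 X1) (hX2 : OnL Q2 X2) (G : (V1 → ℤ) → (V2 → ℤ) → ℝ≥0∞)
    (hG : ∀ h1 h1' h2 h2', (∀ x, ¬ R1.lf x → h1 x = h1' x) → (∀ x, ¬ R2.lf x → h2 x = h2' x) →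
      G h1 h2 = G h1' h2') (hG1 : ∀ h1 h2, G h1 h2 ≤ 1) :
    AG s1 t1 s2 t2 I1 I2 τ1 τ2 (cmb Q1 κ1 X1 0) (cmb Q2 κ2 X2 0) G ≤
      ZT s1 t1 I1 τ1 (cmb Q1 κ1 X1 X1) ^ (1 / 2 : ℝ) *
        ZT s2 t2 I2 τ2 (cmb Q2 κ2 X2 X2) ^ (1 / 2 : ℝ) *
        AG s1 t1 s2 t2 I1 I2 τ1 τ2 (cmb Q1 κ1 0 0) (cmb Q2 κ2 0 0) G ^ (1 / 2 : ℝ) := by
  refine (rfl_le' hI1 hI2 hκ1 hκ2 hX1 hX2 G hG).trans (mul_le_mul' le_rfl
    (ENNReal.rpow_le_rpow ?_ (by norm_num)))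
  unfold AG
  refine ENNReal.tsum_le_tsum fun h1 => ENNReal.tsum_le_tsum fun h2 => mul_le_mul' le_rfl ?_
  calc _ ≤ G h1 h2 * 1 := mul_le_mul' le_rfl (hG1 _ _)
    _ = _ := mul_one _

end

end Vale.Agent.P159.H612.Rfl
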